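import Vale.Agent.P113.Profile

/-!
Symbolic algebra of admissible terms: products, derivatives, the Navier-Stokes operator.
-/

namespace Vale.Agent.P113

open MeasureTheory Set Filter
open scoped BigOperators Topology ContDiff

/-- Internal bump: kind, power, slope, offset, over `ℚ`. -/
structure Bump where
  kind : ℕ ⊕ ℚ
  k : ℕ
  a : ℚ
  b : ℚ

/-- The base profile of a kind. -/
noncomputable def kindVal : ℕ ⊕ ℚ → ℝ → ℝ
  | Sum.inl j => iteratedDeriv j rho
  | Sum.inr l => plateau (l : ℝ)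

/-- Value of a bump. -/
noncomputable def Bump.val (β : Bump) (s : ℝ) : ℝ :=
  s ^ β.k * kindVal β.kind ((β.a : ℝ) * s - β.b)

/-- Well-formed bump. -/
def Bump.Ok (β : Bump) : Prop :=
  β.a ≠ 0 ∧ ∀ l, β.kind = Sum.inr l → 0 < l

/-- Code of a rational. -/
def ratCode (q : ℚ) : RatCode := (q.num, q.den)

lemma ratVal_ratCode (q : ℚ) : ratVal (ratCode q) = (q : ℝ) := by
  simp [ratVal, ratCode, Rat.cast_def]

/-- Code of a bump. -/
def Bump.code (β : Bump) : BumpCode :=
  (Sum.map id ratCode β.kind, β.k, ratCode β.a, ratCode β.b)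

lemma bumpVal_code (β : Bump) : bumpVal β.code = β.val := by
  obtain ⟨kind, k, a, b⟩ := β
  funext s
  cases kind <;> simp [Bump.code, bumpVal, Bump.val, kindVal, ratVal_ratCode]

lemma bumpValid_code {β : Bump} (h : β.Ok) : BumpValid β.code := by
  obtain ⟨kind, k, a, b⟩ := β
  obtain ⟨ha, hl⟩ := h
  cases kind with
  | inl j => exact ⟨a.den_ne_zero, b.den_ne_zero, by simpa [ratVal_ratCode] using ha⟩
  | inr l =>
    exact ⟨a.den_ne_zero, b.den_ne_zero, by simpa [ratVal_ratCode] using ha, l.den_ne_zero,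
      by simpa [ratVal_ratCode] using hl l rfl⟩

/-- The derivative of the profile of a kind, as a combination of profiles and shifts. -/
def Bump.dBase (β : Bump) : List (ℚ × Bump) :=
  match β.kind with
  | Sum.inl j => [(β.a, { β with kind := Sum.inl (j + 1) })]
  | Sum.inr l => [(β.a, { β with kind := Sum.inl 0 }),
      (-β.a, { β with kind := Sum.inl 0, b := β.b + l })]

/-- The derivative of a bump as a combination of bumps. -/
def Bump.d (β : Bump) : List (ℚ × Bump) :=
  ((β.k : ℚ), { β with k := β.k - 1 }) :: β.dBase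

lemma Bump.hasDerivAt (β : Bump) (s : ℝ) :
    HasDerivAt β.val ((β.d.map fun p => (p.1 : ℝ) * p.2.val s).sum) s := by
  obtain ⟨kind, k, a, b⟩ := β
  have hlin : HasDerivAt (fun r : ℝ => (a:ℝ) * r - b) (a:ℝ) s := by
    simpa using ((hasDerivAt_id s).const_mul (a:ℝ)).sub_const (b:ℝ)
  cases kind with
  | inl j =>
    have h := (hasDerivAt_pow k s).fun_mul
      ((hasDerivAt_iteratedDeriv_rho j ((a:ℝ) * s - b)).comp s hlin)
    convert! h using 1
    simp [Bump.d, Bump.dBase, Bump.val, kindVal]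
    ring
  | inr l =>
    have h := (hasDerivAt_pow k s).fun_mul
      ((hasDerivAt_plateau (l:ℝ) ((a:ℝ) * s - b)).comp s hlin)
    convert! h using 1
    simp [Bump.d, Bump.dBase, Bump.val, kindVal, sub_sub]
    ring

lemma Bump.d_ok {β : Bump} (h : β.Ok) : ∀ p ∈ β.d, p.2.Ok := by
  obtain ⟨kind, k, a, b⟩ := β
  obtain ⟨ha, hl⟩ := h
  cases kind with
  | inl j =>
    intro p hp
    simp [Bump.d, Bump.dBase] at hp
    rcases hp with rfl | rfl <;> exact ⟨ha, fun l h => by simp at h⟩
  | inr l =>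
    intro p hp
    simp [Bump.d, Bump.dBase] at hp
    rcases hp with rfl | rfl | rfl
    · exact ⟨ha, hl⟩
    · exact ⟨ha, fun l h => by simp at h⟩
    · exact ⟨ha, fun l h => by simp at h⟩

lemma Bump.contDiff (β : Bump) : ContDiff ℝ ∞ β.val := by
  obtain ⟨kind, k, a, b⟩ := β
  have hlin : ContDiff ℝ ∞ fun r : ℝ => (a:ℝ) * r - b :=
    (contDiff_const.mul contDiff_id).sub contDiff_const
  cases kind with
  | inl j => exact (contDiff_id.pow k).mul ((contDiff_iteratedDeriv_rho j).comp hlin)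
  | inr l => exact (contDiff_id.pow k).mul ((contDiff_plateau (l:ℝ)).comp hlin)

lemma Bump.exists_support {β : Bump} (h : β.Ok) :
    ∃ R : ℝ, ∀ s, R < |s| → β.val s = 0 := by
  obtain ⟨kind, k, a, b⟩ := β
  obtain ⟨ha, hl⟩ := h
  have ha' : (0:ℝ) < |(a:ℝ)| := abs_pos.2 (by exact_mod_cast ha)
  have key : ∀ (L : ℝ) (s : ℝ), (L + |(b:ℝ)|) / |(a:ℝ)| < |s| → L < |(a:ℝ) * s - b| := by
    intro L s hs
    rw [div_lt_iff₀ ha', mul_comm, ← abs_mul] at hs
    linarith [abs_sub_abs_le_abs_sub ((a:ℝ) * s) (b:ℝ)]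
  cases kind with
  | inl j =>
    exact ⟨(1 + |(b:ℝ)|) / |(a:ℝ)|, fun s hs => by
      simp [Bump.val, kindVal, iteratedDeriv_rho_eq_zero j (key 1 s hs)]⟩
  | inr l =>
    have hl' : (0:ℝ) < l := by exact_mod_cast hl l rfl
    refine ⟨((l:ℝ) + 1 + |(b:ℝ)|) / |(a:ℝ)|, fun s hs => ?_⟩
    have := key ((l:ℝ) + 1) s hs
    rw [Bump.val, kindVal, plateau_eq_zero hl'.le ?_, mul_zero]
    rcases lt_abs.1 this with h | h
    · exact Or.inr h.le
    · left; simp only at h ⊢; linarith

/-- The periodization of a bump. -/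
noncomputable def Bump.pval (β : Bump) : ℝ → ℝ := periodize β.val

lemma Bump.contDiff_pval {β : Bump} (h : β.Ok) : ContDiff ℝ ∞ β.pval := by
  obtain ⟨R, hR⟩ := Bump.exists_support h
  exact contDiff_periodize hR β.contDiff

lemma Bump.hasDerivAt_pval {β : Bump} (h : β.Ok) (s : ℝ) :
    HasDerivAt β.pval ((β.d.map fun p => (p.1 : ℝ) * p.2.pval s).sum) s := by
  obtain ⟨R, hR⟩ := Bump.exists_support h
  convert! hasDerivAt_periodize hR β.hasDerivAt s using 1
  have hsupp : ∀ p ∈ β.d, ∃ R' : ℝ, ∀ r, R' < |r| → p.2.val r = 0 :=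
    fun p hp => Bump.exists_support (Bump.d_ok h p hp)
  have key : ∀ L : List (ℚ × Bump), (∀ p ∈ L, p.2.Ok) →
      (Summable fun m : ℤ => (L.map fun p => (p.1 : ℝ) * p.2.val (s + m)).sum) ∧
      (L.map fun p => (p.1 : ℝ) * p.2.pval s).sum
        = ∑' m : ℤ, (L.map fun p => (p.1 : ℝ) * p.2.val (s + m)).sum := by
    intro L hL
    induction L with
    | nil => simp [summable_zero]
    | cons p L ih =>
      obtain ⟨i1, i2⟩ := ih fun q hq => hL q (List.mem_cons_of_mem _ hq)
      obtain ⟨R', hR'⟩ := Bump.exists_support (hL p List.mem_cons_self)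
      have hs : Summable fun m : ℤ => (p.1 : ℝ) * p.2.val (s + m) := by
        refine summable_of_ne_finset_zero (s := window R' s) fun m hm => ?_
        rw [window_spec hR' hm, mul_zero]
      refine ⟨by simpa using! hs.add i1, ?_⟩
      simp only [List.map_cons, List.sum_cons]
      rw [hs.tsum_add i1, tsum_mul_left, i2]
      rfl
  exact (key _ (Bump.d_ok h)).2

end Vale.Agent.P113
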