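import Mathlib

/-!
Definitions for problem P113: machines, admissible terms given by rationals and integers,
classical solutions of the forced Navier-Stokes system on the flat torus, trajectories.
Functions on the torus are functions on `Fin 3 → ℝ` of period one in each coordinate.
-/

namespace Vale.Agent.P113

open scoped BigOperators
open MeasureTheory

/-! ## Machines -/

/-- Head moves. -/
inductive Move where
  | left
  | stay
  | right
deriving DecidableEq

/-- The displacement of the head. -/
def Move.shift : Move → ℤ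
  | .left => -1
  | .stay => 0
  | .right => 1

/-- A code for a move. -/
def Move.toNat : Move → ℕ
  | .left => 0
  | .stay => 1
  | .right => 2

/-- A deterministic one-tape machine: states `Fin (numStates + 1)`, alphabet
`Fin (numSymbols + 1)` with blank `0`, a start state, a set of halting states, and a
transition table. -/
structure Machine where
  numStates : ℕ
  numSymbols : ℕ
  start : Fin (numStates + 1)
  halting : Fin (numStates + 1) → Bool
  next : Fin (numStates + 1) → Fin (numSymbols + 1) →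
    Fin (numStates + 1) × Fin (numSymbols + 1) × Move

/-- The symbols of a machine. -/
abbrev Machine.Sym (M : Machine) : Type := Fin (M.numSymbols + 1)

/-- A configuration: state, two-sided tape and head position. -/
structure Machine.Config (M : Machine) where
  state : Fin (M.numStates + 1)
  tape : ℤ → M.Sym
  head : ℤ

/-- The initial configuration on a finite word: the word on an otherwise blank tape, the head
at its first cell. -/
def Machine.init (M : Machine) (w : List M.Sym) : M.Config where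
  state := M.start
  tape z := if 0 ≤ z then w.getD z.toNat 0 else 0
  head := 0

/-- One step of the machine. Halting configurations are left unchanged. -/
def Machine.step (M : Machine) (c : M.Config) : M.Config :=
  if M.halting c.state then c
  else
    let r := M.next c.state (c.tape c.head)
    { state := r.1
      tape := Function.update c.tape c.head r.2.1
      head := c.head + r.2.2.shift }

/-- The machine reaches a halting state after finitely many steps, possibly none. -/
def Machine.Halts (M : Machine) (w : List M.Sym) : Prop :=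
  ∃ n : ℕ, M.halting ((M.step)^[n] (M.init w)).state = true

/-- Finite tables: numbers of states and symbols, start state, halting flags, transitions. -/
abbrev MachineCode : Type := (ℕ × ℕ × ℕ) × List Bool × List (List (ℕ × ℕ × ℕ))

/-- The explicit table of a machine. -/
def Machine.code (M : Machine) : MachineCode :=
  ((M.numStates, M.numSymbols, (M.start : ℕ)), List.ofFn M.halting,
    List.ofFn fun q => List.ofFn fun s =>
      (((M.next q s).1 : ℕ), ((M.next q s).2.1 : ℕ), (M.next q s).2.2.toNat))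

/-- The list of letter numbers of a word. -/
def Machine.wordCode (M : Machine) (w : List M.Sym) : List ℕ :=
  w.map fun a : M.Sym => (a : ℕ)

/-! ## Admissible functions -/

/-- The bump profile `ρ`. -/
noncomputable def rho (s : ℝ) : ℝ :=
  if |s| < 1 then Real.exp (-1 / (1 - s ^ 2)) else 0

/-- `κ`, the integral of `ρ`. -/
noncomputable def kappa : ℝ := ∫ s, rho s

/-- `σ`, the primitive of `ρ`. -/
noncomputable def sigma (s : ℝ) : ℝ := ∫ r in Set.Iic s, rho r

/-- `π_ℓ`. -/
noncomputable def plateau (l s : ℝ) : ℝ := sigma s - sigma (s - l)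

/-- A rational given by numerator and denominator. -/
abbrev RatCode : Type := ℤ × ℕ

/-- The value of a rational code. -/
noncomputable def ratVal (r : RatCode) : ℝ := (r.1 : ℝ) / (r.2 : ℝ)

/-- A bump code `(kind, k, a, b)`; the kind is `inl j` for `ρ^(j)` or `inr ℓ` for `π_ℓ`. -/
abbrev BumpCode : Type := (ℕ ⊕ RatCode) × ℕ × RatCode × RatCode

/-- The function `s ↦ s^k ρ^(j)(a s - b)` or `s ↦ s^k π_ℓ(a s - b)`. -/
noncomputable def bumpVal : BumpCode → ℝ → ℝ
  | (Sum.inl j, k, a, b), s => s ^ k * iteratedDeriv j rho (ratVal a * s - ratVal b)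
  | (Sum.inr l, k, a, b), s => s ^ k * plateau (ratVal l) (ratVal a * s - ratVal b)

/-- Nonzero denominators, `a ≠ 0`, and `ℓ > 0`. -/
def BumpValid : BumpCode → Prop
  | (Sum.inl _, _, a, b) => a.2 ≠ 0 ∧ b.2 ≠ 0 ∧ ratVal a ≠ 0
  | (Sum.inr l, _, a, b) => a.2 ≠ 0 ∧ b.2 ≠ 0 ∧ ratVal a ≠ 0 ∧ l.2 ≠ 0 ∧ 0 < ratVal l

/-- The periodization `P[g]`. -/
noncomputable def periodize (g : ℝ → ℝ) (y : ℝ) : ℝ := ∑' m : ℤ, g (y + m)

/-- A term code `(q, m, n, rs, θ, (h₁, h₂, h₃))`: coefficient `q ν^m κ^n ∏ ln rᵢ`; time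
factors flagged `true` for periodized bumps and `false` for plain bumps; spatial factors are
periodized bumps. -/
abbrev TermCode : Type :=
  RatCode × ℕ × ℤ × List RatCode × List (Bool × BumpCode) ×
    (List BumpCode × List BumpCode × List BumpCode)

/-- The time factor list of a term. -/
def termTimeList (c : TermCode) : List (Bool × BumpCode) := c.2.2.2.2.1

/-- The product of periodizations of a list of bumps (`1` for the empty list). -/
noncomputable def spaceVal (l : List BumpCode) (y : ℝ) : ℝ :=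
  (l.map fun b => periodize (bumpVal b) y).prod

/-- One time factor. -/
noncomputable def timeFactor (b : Bool × BumpCode) (t : ℝ) : ℝ :=
  if b.1 then periodize (bumpVal b.2) t else bumpVal b.2 t

/-- The time dependence `θ` of a term. -/
noncomputable def termTheta (c : TermCode) (t : ℝ) : ℝ :=
  ((termTimeList c).map fun b => timeFactor b t).prod

/-- The value of a term. -/
noncomputable def termVal (ν : ℝ) : TermCode → ℝ → (Fin 3 → ℝ) → ℝ
  | (q, m, n, rs, θ, h₁, h₂, h₃), t, x =>
    ratVal q * ν ^ m * kappa ^ n * (rs.map fun r => Real.log (ratVal r)).prod *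
      termTheta (q, m, n, rs, θ, h₁, h₂, h₃) t *
      spaceVal h₁ (x 0) * spaceVal h₂ (x 1) * spaceVal h₃ (x 2)

/-- A well-formed term. -/
def TermValid : TermCode → Prop
  | (q, _, _, rs, θ, h₁, h₂, h₃) =>
    q.2 ≠ 0 ∧ (∀ r ∈ rs, r.2 ≠ 0 ∧ 0 < ratVal r) ∧ (∀ b ∈ θ, BumpValid b.2) ∧
      (∀ b ∈ h₁, BumpValid b) ∧ (∀ b ∈ h₂, BumpValid b) ∧ (∀ b ∈ h₃, BumpValid b)

/-- A periodic term: all time factors are periodizations. -/
def isPeriodicTerm (c : TermCode) : Bool := (termTimeList c).all fun b => b.1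

/-- The output of a compiler: one term list for each component of the force. -/
abbrev ForceCode : Type := List TermCode × List TermCode × List TermCode

/-- The term list of a component. -/
def forceList (F : ForceCode) (i : Fin 3) : List TermCode := ![F.1, F.2.1, F.2.2] i

/-- The force: the sum of the listed terms. -/
noncomputable def forceVal (ν : ℝ) (F : ForceCode) (t : ℝ) (x : Fin 3 → ℝ) : Fin 3 → ℝ :=
  fun i => ((forceList F i).map fun c => termVal ν c t x).sum

/-- The periodic terms of each component. -/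
def periodicPart (F : ForceCode) (i : Fin 3) : List TermCode :=
  (forceList F i).filter fun c => isPeriodicTerm c

/-! ## Navier-Stokes -/

/-- The unit cube, a fundamental domain of the torus. -/
def cube : Set (Fin 3 → ℝ) := Set.Icc 0 1

/-- Period one in every coordinate. -/
def SpatiallyPeriodic {α : Type} (g : (Fin 3 → ℝ) → α) : Prop :=
  ∀ x k, g (x + Pi.single k 1) = g x

/-- Classical solution on `[0,T]` of the system with zero initial velocity: `u`, its time
derivative, its spatial derivatives up to order two, `p` and its gradient are continuous, `p` has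
mean zero, and the equations hold at every point. -/
structure IsClassical (ν : ℝ) (f : ℝ → (Fin 3 → ℝ) → Fin 3 → ℝ) (T : ℝ)
    (u : ℝ → (Fin 3 → ℝ) → Fin 3 → ℝ) (p : ℝ → (Fin 3 → ℝ) → ℝ) : Prop where
  periodic_u : ∀ t ∈ Set.Icc 0 T, SpatiallyPeriodic (u t)
  periodic_p : ∀ t ∈ Set.Icc 0 T, SpatiallyPeriodic (p t)
  initial : ∀ x, u 0 x = 0
  cont_u : ContinuousOn (fun z : ℝ × (Fin 3 → ℝ) => u z.1 z.2) (Set.Icc 0 T ×ˢ Set.univ)
  cont_p : ContinuousOn (fun z : ℝ × (Fin 3 → ℝ) => p z.1 z.2) (Set.Icc 0 T ×ˢ Set.univ)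
  mean_p : ∀ t ∈ Set.Icc 0 T, ∫ x in cube, p t x = 0
  equations : ∃ (ut : ℝ → (Fin 3 → ℝ) → Fin 3 → ℝ)
      (ux : Fin 3 → ℝ → (Fin 3 → ℝ) → Fin 3 → ℝ)
      (uxx : Fin 3 → Fin 3 → ℝ → (Fin 3 → ℝ) → Fin 3 → ℝ)
      (px : Fin 3 → ℝ → (Fin 3 → ℝ) → ℝ),
    ContinuousOn (fun z : ℝ × (Fin 3 → ℝ) => ut z.1 z.2) (Set.Icc 0 T ×ˢ Set.univ) ∧
    (∀ k, ContinuousOn (fun z : ℝ × (Fin 3 → ℝ) => ux k z.1 z.2) (Set.Icc 0 T ×ˢ Set.univ)) ∧
    (∀ k l, ContinuousOn (fun z : ℝ × (Fin 3 → ℝ) => uxx k l z.1 z.2)
      (Set.Icc 0 T ×ˢ Set.univ)) ∧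
    (∀ k, ContinuousOn (fun z : ℝ × (Fin 3 → ℝ) => px k z.1 z.2) (Set.Icc 0 T ×ˢ Set.univ)) ∧
    ∀ t ∈ Set.Icc 0 T, ∀ x : Fin 3 → ℝ,
      HasDerivWithinAt (fun s => u s x) (ut t x) (Set.Icc 0 T) t ∧
      (∀ k, HasDerivAt (fun h : ℝ => u t (x + h • Pi.single k 1)) (ux k t x) 0) ∧
      (∀ k l, HasDerivAt (fun h : ℝ => ux k t (x + h • Pi.single l 1)) (uxx k l t x) 0) ∧
      (∀ k, HasDerivAt (fun h : ℝ => p t (x + h • Pi.single k 1)) (px k t x) 0) ∧
      (∑ k, ux k t x k) = 0 ∧
      ∀ i, ut t x i + ∑ k, u t x k * ux k t x i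
        = -px i t x + ν * (∑ k, uxx k k t x i) + f t x i

/-- The trajectory of `a`, lifted to `Fin 3 → ℝ`. -/
def IsTrajectory (u : ℝ → (Fin 3 → ℝ) → Fin 3 → ℝ) (a : Fin 3 → ℝ) (X : ℝ → Fin 3 → ℝ) :
    Prop :=
  X 0 = a ∧ ∀ t : ℝ, 0 ≤ t → HasDerivWithinAt X (u t (X t)) (Set.Ici 0) t

/-- A lifted trajectory lies at some time `t ≥ 0` in the image in the torus of the open box with
rational corners `lo`, `hi`. -/
def HitsBox (X : ℝ → Fin 3 → ℝ) (lo hi : Fin 3 → ℚ) : Prop :=
  ∃ t : ℝ, 0 ≤ t ∧ ∃ m : Fin 3 → ℤ, ∀ i, (lo i : ℝ) < X t i + m i ∧ X t i + m i < (hi i : ℝ)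

end Vale.Agent.P113
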