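import Vale.Agent.P113.Defs

/-!
Uniqueness of classical solutions by the energy method.
-/

namespace Vale.Agent.P113

open MeasureTheory Set
open scoped BigOperators



lemma isCompact_cube : IsCompact cube := isCompact_Icc

lemma measurableSet_cube : MeasurableSet cube := measurableSet_Icc

lemma cube_subset_closure_interior : cube ⊆ closure (interior cube) := by
  have hc : Convex ℝ cube := convex_Icc 0 1
  have hne : (interior cube).Nonempty := by
    refine ⟨fun _ => 1/2, ?_⟩
    rw [cube, ← Set.pi_univ_Icc, interior_pi_set Set.finite_univ]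
    intro i _
    simp [interior_Icc]
    norm_num
  rw [hc.closure_interior_eq_closure_of_nonempty_interior hne]
  exact subset_closure

lemma SpatiallyPeriodic.int_shift_single {α : Type} {g : (Fin 3 → ℝ) → α}
    (hg : SpatiallyPeriodic g) (x : Fin 3 → ℝ) (k : Fin 3) (n : ℤ) :
    g (x + Pi.single k (n : ℝ)) = g x := by
  induction n using Int.induction_on generalizing x with
  | zero => simp
  | succ i ih =>
    push_cast at ih ⊢
    rw [Pi.single_add, ← add_assoc, hg, ih]
  | pred i ih =>
    push_cast at ih ⊢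
    have h := hg (x + Pi.single k (-(i:ℝ) - 1)) k
    rw [add_assoc, ← Pi.single_add, sub_add_cancel, ih] at h
    exact h.symm

lemma SpatiallyPeriodic.int_shift {α : Type} {g : (Fin 3 → ℝ) → α}
    (hg : SpatiallyPeriodic g) (x : Fin 3 → ℝ) (m : Fin 3 → ℤ) :
    g (x + fun i => (m i : ℝ)) = g x := by
  have e : (fun i => (m i : ℝ)) =
      Pi.single 0 (m 0 : ℝ) + Pi.single 1 (m 1 : ℝ) + Pi.single 2 (m 2 : ℝ) := by
    funext i; fin_cases i <;> simp
  rw [e, ← add_assoc, ← add_assoc, hg.int_shift_single, hg.int_shift_single, hg.int_shift_single]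

/-- Every point is congruent to a point of the cube. -/
lemma SpatiallyPeriodic.fract {α : Type} {g : (Fin 3 → ℝ) → α}
    (hg : SpatiallyPeriodic g) (x : Fin 3 → ℝ) : g (fun i => Int.fract (x i)) = g x := by
  have h := hg.int_shift x (fun i => -⌊x i⌋)
  have e : (x + fun i => (((-⌊x i⌋ : ℤ)) : ℝ)) = fun i => Int.fract (x i) := by
    funext i; simp [Int.fract, sub_eq_add_neg]
  rwa [e] at h

lemma fract_mem_cube (x : Fin 3 → ℝ) : (fun i => Int.fract (x i)) ∈ cube :=
  ⟨fun i => Int.fract_nonneg (x i), fun i => (Int.fract_lt_one (x i)).le⟩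

/-- A continuous spatially periodic family is bounded on `[0,T]`. -/
lemma periodic_bounded {F : Type} [NormedAddCommGroup F] {g : ℝ → (Fin 3 → ℝ) → F} {T : ℝ}
    (hc : ContinuousOn (fun z : ℝ × (Fin 3 → ℝ) => g z.1 z.2) (Icc 0 T ×ˢ univ))
    (hp : ∀ t ∈ Icc 0 T, SpatiallyPeriodic (g t)) :
    ∃ C, 0 ≤ C ∧ ∀ t ∈ Icc 0 T, ∀ x, ‖g t x‖ ≤ C := by
  obtain ⟨C, hC⟩ := (isCompact_Icc.prod isCompact_cube).exists_bound_of_continuousOn
    (hc.mono (Set.prod_mono le_rfl (subset_univ _)))
  refine ⟨max C 0, le_max_right _ _, fun t ht x => ?_⟩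
  rw [← (hp t ht).fract x]
  exact (hC (t, _) ⟨ht, fract_mem_cube x⟩).trans (le_max_left _ _)

lemma continuous_slice {F : Type} [TopologicalSpace F] {g : ℝ → (Fin 3 → ℝ) → F} {T t : ℝ}
    (hc : ContinuousOn (fun z : ℝ × (Fin 3 → ℝ) => g z.1 z.2) (Icc 0 T ×ˢ univ))
    (ht : t ∈ Icc 0 T) : Continuous (g t) :=
  hc.comp_continuous (continuous_const.prodMk continuous_id) (fun _ => ⟨ht, mem_univ _⟩)

lemma continuous_integrableOn_cube {g : (Fin 3 → ℝ) → ℝ} (hg : Continuous g) :
    IntegrableOn g cube := hg.continuousOn.integrableOn_compact isCompact_cube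

lemma hasDerivAt_shift {g g' : (Fin 3 → ℝ) → ℝ} {k : Fin 3}
    (hd : ∀ x, HasDerivAt (fun h : ℝ => g (x + h • Pi.single k 1)) (g' x) 0)
    (x : Fin 3 → ℝ) (s : ℝ) :
    HasDerivAt (fun h : ℝ => g (x + h • Pi.single k 1)) (g' (x + s • Pi.single k 1)) s := by
  have h0 := hd (x + s • Pi.single k 1)
  rw [show (0:ℝ) = s - s by ring] at h0
  have h1 := h0.comp_sub_const s s
  have e : (fun h : ℝ => g (x + s • Pi.single k 1 + (h - s) • Pi.single k 1))
      = fun h : ℝ => g (x + h • Pi.single k 1) := by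
    funext h; rw [add_assoc, ← add_smul]; ring_nf
  rwa [e] at h1

/-- Integration by parts on the torus. -/
lemma integral_cube_deriv_eq_zero {g g' : (Fin 3 → ℝ) → ℝ} (k : Fin 3)
    (hp : SpatiallyPeriodic g) (hg' : Continuous g')
    (hd : ∀ x, HasDerivAt (fun h : ℝ => g (x + h • Pi.single k 1)) (g' x) 0) :
    ∫ x in cube, g' x = 0 := by
  have mp := volume_preserving_piFinSuccAbove (fun _ : Fin 3 => ℝ) k
  set e := MeasurableEquiv.piFinSuccAbove (fun _ : Fin 3 => ℝ) k with he
  have hpre : e ⁻¹' (Icc (0:ℝ) 1 ×ˢ Icc (0 : Fin 2 → ℝ) 1) = cube := by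
    ext x
    simp only [mem_preimage, mem_prod, cube, Set.mem_Icc, Pi.le_def, he,
      MeasurableEquiv.piFinSuccAbove_apply, Fin.insertNthEquiv_symm_apply]
    simp only [Fin.forall_iff_succAbove k (P := fun i => (0 : Fin 3 → ℝ) i ≤ x i),
      Fin.forall_iff_succAbove k (P := fun i => x i ≤ (1 : Fin 3 → ℝ) i)]
    simp [Fin.removeNth]
    tauto
  have h1 : ∫ x in cube, g' x
      = ∫ z in Icc (0:ℝ) 1 ×ˢ Icc (0 : Fin 2 → ℝ) 1, g' (e.symm z) := by
    rw [← hpre]
    rw [← mp.setIntegral_preimage_emb e.measurableEmbedding (fun z => g' (e.symm z))]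
    simp
  have hc : Continuous fun z : ℝ × (Fin 2 → ℝ) => g' (e.symm z) := by
    refine hg'.comp ?_
    show Continuous fun z : ℝ × (Fin 2 → ℝ) => Fin.insertNth (α := fun _ => ℝ) k z.1 z.2
    fun_prop
  rw [h1, Measure.volume_eq_prod]
  have hI : IntegrableOn (fun z => g' (e.symm z)) (Icc (0:ℝ) 1 ×ˢ Icc (0 : Fin 2 → ℝ) 1)
      (volume.prod volume) := by
    rw [← Measure.volume_eq_prod]
    exact hc.continuousOn.integrableOn_compact (isCompact_Icc.prod isCompact_Icc)
  rw [← setIntegral_prod_swap, setIntegral_prod]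
  · apply setIntegral_eq_zero_of_forall_eq_zero
    intro y _
    set x₀ : Fin 3 → ℝ := Fin.insertNth (α := fun _ => ℝ) k 0 y with hx₀
    have key : ∀ s : ℝ, e.symm (s, y) = x₀ + s • Pi.single k 1 := by
      intro s
      show Fin.insertNth (α := fun _ => ℝ) k s y = x₀ + s • Pi.single k 1
      funext i
      rcases Fin.eq_self_or_eq_succAbove k i with rfl | ⟨j, rfl⟩
      · simp [hx₀]
      · simp [hx₀, Fin.succAbove_ne]
    simp only [Prod.swap_prod_mk, key]
    rw [integral_Icc_eq_integral_Ioc, ← intervalIntegral.integral_of_le zero_le_one]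
    rw [intervalIntegral.integral_eq_sub_of_hasDerivAt (fun s _ => hasDerivAt_shift hd x₀ s)]
    · simp [hp x₀ k]
    · apply Continuous.intervalIntegrable
      fun_prop
  · exact hI.swap

lemma hasDerivAt_mul_pair {a b : (Fin 3 → ℝ) → ℝ} {a' b' : ℝ} {k : Fin 3} {x : Fin 3 → ℝ}
    (ha : HasDerivAt (fun h : ℝ => a (x + h • Pi.single k 1)) a' 0)
    (hb : HasDerivAt (fun h : ℝ => b (x + h • Pi.single k 1)) b' 0) :
    HasDerivAt (fun h : ℝ => a (x + h • Pi.single k 1) * b (x + h • Pi.single k 1))
      (a' * b x + a x * b') 0 := by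
  simpa using! ha.fun_mul hb

lemma periodic_deriv {g g' : (Fin 3 → ℝ) → ℝ} {k : Fin 3}
    (hp : SpatiallyPeriodic g)
    (hd : ∀ x, HasDerivAt (fun h : ℝ => g (x + h • Pi.single k 1)) (g' x) 0) :
    SpatiallyPeriodic g' := by
  intro x l
  have h1 := hd (x + Pi.single l 1)
  have : (fun h : ℝ => g (x + Pi.single l 1 + h • Pi.single k 1))
      = fun h : ℝ => g (x + h • Pi.single k 1) := by
    funext h; rw [add_right_comm, hp]
  rw [this] at h1
  exact h1.unique (hd x)

/-- The energy identity at a fixed time, as an inequality. -/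
lemma energy_ineq {ν K : ℝ} (hν : 0 ≤ ν)
    (u w : (Fin 3 → ℝ) → Fin 3 → ℝ) (wt : (Fin 3 → ℝ) → Fin 3 → ℝ)
    (vx ux wx : Fin 3 → (Fin 3 → ℝ) → Fin 3 → ℝ)
    (wxx : Fin 3 → (Fin 3 → ℝ) → Fin 3 → ℝ)
    (q : (Fin 3 → ℝ) → ℝ) (qx : Fin 3 → (Fin 3 → ℝ) → ℝ)
    (cu : Continuous u) (cw : Continuous w) (cwt : Continuous wt)
    (cvx : ∀ k, Continuous (vx k)) (cux : ∀ k, Continuous (ux k))
    (cwx : ∀ k, Continuous (wx k)) (cwxx : ∀ k, Continuous (wxx k))
    (cq : Continuous q) (cqx : ∀ k, Continuous (qx k))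
    (pu : SpatiallyPeriodic u) (pw : SpatiallyPeriodic w) (pq : SpatiallyPeriodic q)
    (du : ∀ k x, HasDerivAt (fun h : ℝ => u (x + h • Pi.single k 1)) (ux k x) 0)
    (dw : ∀ k x, HasDerivAt (fun h : ℝ => w (x + h • Pi.single k 1)) (wx k x) 0)
    (dwx : ∀ k x, HasDerivAt (fun h : ℝ => wx k (x + h • Pi.single k 1)) (wxx k x) 0)
    (dq : ∀ k x, HasDerivAt (fun h : ℝ => q (x + h • Pi.single k 1)) (qx k x) 0)
    (divu : ∀ x, ∑ k, ux k x k = 0) (divw : ∀ x, ∑ k, wx k x k = 0)
    (hK : ∀ k x i, |vx k x i| ≤ K)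
    (eqn : ∀ x i, wt x i = -(∑ k, u x k * wx k x i) - (∑ k, w x k * vx k x i) - qx i x
      + ν * ∑ k, wxx k x i) :
    (∫ x in cube, ∑ i, 2 * (w x i * wt x i)) ≤ (6 * K) * ∫ x in cube, ∑ i, w x i ^ 2 := by
  have cu' : ∀ k, Continuous fun x => u x k := fun k => (continuous_apply k).comp cu
  have cw' : ∀ k, Continuous fun x => w x k := fun k => (continuous_apply k).comp cw
  have cwt' : ∀ k, Continuous fun x => wt x k := fun k => (continuous_apply k).comp cwt
  have cvx' : ∀ k i, Continuous fun x => vx k x i := fun k i => (continuous_apply i).comp (cvx k)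
  have cux' : ∀ k i, Continuous fun x => ux k x i := fun k i => (continuous_apply i).comp (cux k)
  have cwx' : ∀ k i, Continuous fun x => wx k x i := fun k i => (continuous_apply i).comp (cwx k)
  have cwxx' : ∀ k i, Continuous fun x => wxx k x i :=
    fun k i => (continuous_apply i).comp (cwxx k)
  have du' : ∀ k i x, HasDerivAt (fun h : ℝ => u (x + h • Pi.single k 1) i) (ux k x i) 0 :=
    fun k i x => hasDerivAt_pi.1 (du k x) i
  have dw' : ∀ k i x, HasDerivAt (fun h : ℝ => w (x + h • Pi.single k 1) i) (wx k x i) 0 :=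
    fun k i x => hasDerivAt_pi.1 (dw k x) i
  have dwx' : ∀ k i x,
      HasDerivAt (fun h : ℝ => wx k (x + h • Pi.single k 1) i) (wxx k x i) 0 :=
    fun k i x => hasDerivAt_pi.1 (dwx k x) i
  -- the derivative along each direction
  let A : Fin 3 → Fin 3 → (Fin 3 → ℝ) → ℝ := fun k i x =>
    ux k x k * (w x i * w x i) + u x k * (wx k x i * w x i + w x i * wx k x i)
  let B : Fin 3 → (Fin 3 → ℝ) → ℝ := fun i x => qx i x * w x i + q x * wx i x i
  let D : Fin 3 → Fin 3 → (Fin 3 → ℝ) → ℝ := fun k i x =>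
    wx k x i * wx k x i + w x i * wxx k x i
  have hA : ∀ k i, ∫ x in cube, A k i x = 0 := by
    intro k i
    refine integral_cube_deriv_eq_zero (g := fun x => u x k * (w x i * w x i)) k ?_ ?_ ?_
    · intro x l; simp [pu x l, pw x l]
    · fun_prop
    · intro x
      exact hasDerivAt_mul_pair (a := fun z => u z k) (b := fun z => w z i * w z i) (du' k k x)
        (hasDerivAt_mul_pair (a := fun z => w z i) (b := fun z => w z i) (dw' k i x) (dw' k i x))
  have hB : ∀ i, ∫ x in cube, B i x = 0 := by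
    intro i
    refine integral_cube_deriv_eq_zero (g := fun x => q x * w x i) i ?_ ?_ ?_
    · intro x l; simp [pq x l, pw x l]
    · fun_prop
    · intro x
      exact hasDerivAt_mul_pair (a := q) (b := fun z => w z i) (dq i x) (dw' i i x)
  have pwx : ∀ k i, SpatiallyPeriodic fun x => wx k x i := fun k i =>
    periodic_deriv (g := fun x => w x i) (fun x l => by simp [pw x l]) (dw' k i)
  have hD : ∀ k i, ∫ x in cube, D k i x = 0 := by
    intro k i
    refine integral_cube_deriv_eq_zero (g := fun x => w x i * wx k x i) k ?_ ?_ ?_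
    · intro x l
      have := pwx k i x l
      simp only at this
      simp [pw x l, this]
    · fun_prop
    · intro x
      exact hasDerivAt_mul_pair (a := fun z => w z i) (b := fun z => wx k z i) (dw' k i x)
        (dwx' k i x)
  let S : (Fin 3 → ℝ) → ℝ := fun x =>
    -(∑ k, ∑ i, A k i x) - 2 * (∑ i, B i x) + 2 * ν * (∑ k, ∑ i, D k i x)
  have hS : ∫ x in cube, S x = 0 := by
    have iA : ∀ k i, IntegrableOn (A k i) cube := fun k i =>
      continuous_integrableOn_cube (by fun_prop)
    have iB : ∀ i, IntegrableOn (B i) cube := fun i =>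
      continuous_integrableOn_cube (by fun_prop)
    have iD : ∀ k i, IntegrableOn (D k i) cube := fun k i =>
      continuous_integrableOn_cube (by fun_prop)
    have e1 : ∫ x in cube, ∑ k, ∑ i, A k i x = 0 := by
      rw [integral_finsetSum _ (fun k _ => integrable_finsetSum _ (fun i _ => iA k i))]
      simp [integral_finsetSum _ (fun i _ => iA _ i), hA]
    have e2 : ∫ x in cube, ∑ i, B i x = 0 := by
      simp [integral_finsetSum _ (fun i _ => iB i), hB]
    have e3 : ∫ x in cube, ∑ k, ∑ i, D k i x = 0 := by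
      rw [integral_finsetSum _ (fun k _ => integrable_finsetSum _ (fun i _ => iD k i))]
      simp [integral_finsetSum _ (fun i _ => iD _ i), hD]
    have j1 : IntegrableOn (fun x => -(∑ k, ∑ i, A k i x)) cube :=
      continuous_integrableOn_cube (by fun_prop)
    have j2 : IntegrableOn (fun x => 2 * (∑ i, B i x)) cube :=
      continuous_integrableOn_cube (by fun_prop)
    have j3 : IntegrableOn (fun x => 2 * ν * (∑ k, ∑ i, D k i x)) cube :=
      continuous_integrableOn_cube (by fun_prop)
    show ∫ x in cube, -(∑ k, ∑ i, A k i x) - 2 * (∑ i, B i x) + 2 * ν * (∑ k, ∑ i, D k i x) = 0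
    have j12 : IntegrableOn (fun x => -(∑ k, ∑ i, A k i x) - 2 * (∑ i, B i x)) cube :=
      continuous_integrableOn_cube (by fun_prop)
    rw [integral_add j12 j3, integral_sub j1 j2, integral_neg,
      integral_const_mul, integral_const_mul, e1, e2, e3]
    simp
  have hpt : ∀ x, (∑ i, 2 * (w x i * wt x i)) ≤ S x + (6 * K) * ∑ i, w x i ^ 2 := by
    intro x
    have hu0 : (∑ k, ∑ i, ux k x k * (w x i * w x i)) = 0 := by
      simp [← Finset.mul_sum, ← Finset.sum_mul, divu x]
    have hw0 : (∑ i, q x * wx i x i) = 0 := by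
      simp [← Finset.mul_sum, divw x]
    have hK0 : 0 ≤ K := (abs_nonneg _).trans (hK 0 x 0)
    have hvx : -(∑ i, ∑ k, w x i * w x k * vx k x i) ≤ 3 * K * ∑ i, w x i ^ 2 := by
      have h : ∀ i k, -(w x i * w x k * vx k x i) ≤ K * ((w x i ^ 2 + w x k ^ 2) / 2) := by
        intro i k
        calc -(w x i * w x k * vx k x i) ≤ |w x i * w x k * vx k x i| := neg_le_abs _
          _ = |vx k x i| * |w x i * w x k| := by rw [abs_mul]; ring
          _ ≤ K * ((w x i ^ 2 + w x k ^ 2) / 2) := by
            refine mul_le_mul (hK k x i) ?_ (abs_nonneg _) hK0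
            rw [abs_mul]
            nlinarith [sq_nonneg (|w x i| - |w x k|), sq_abs (w x i), sq_abs (w x k)]
      simp only [Fin.sum_univ_three]
      linarith [h 0 0, h 0 1, h 0 2, h 1 0, h 1 1, h 1 2, h 2 0, h 2 1, h 2 2]
    have hlap : 0 ≤ ν * ∑ k, ∑ i, wx k x i * wx k x i :=
      mul_nonneg hν (Finset.sum_nonneg fun k _ => Finset.sum_nonneg fun i _ => mul_self_nonneg _)
    simp only [Fin.sum_univ_three] at hu0 hw0 hvx hlap
    simp only [S, A, B, D, Fin.sum_univ_three, eqn]
    linarith
  calc (∫ x in cube, ∑ i, 2 * (w x i * wt x i))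
      ≤ ∫ x in cube, (S x + (6 * K) * ∑ i, w x i ^ 2) :=
        setIntegral_mono_on (continuous_integrableOn_cube (by fun_prop))
          (continuous_integrableOn_cube (by fun_prop)) measurableSet_cube (fun x _ => hpt x)
    _ = (6 * K) * ∫ x in cube, ∑ i, w x i ^ 2 := by
      have i1 : IntegrableOn S cube := continuous_integrableOn_cube (by fun_prop)
      have i2 : IntegrableOn (fun x => (6 * K) * ∑ i, w x i ^ 2) cube :=
        continuous_integrableOn_cube (by fun_prop)
      rw [integral_add i1 i2, hS, integral_const_mul]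
      simp

lemma sq_deriv {a b : ℝ → ℝ} {a' b' s : ℝ} (ha : HasDerivAt a a' s) (hb : HasDerivAt b b' s) :
    HasDerivAt (fun r => (a r - b r) ^ 2) (2 * ((a s - b s) * (a' - b'))) s :=
  ((ha.fun_sub hb).fun_pow 2).congr_deriv (by push_cast; ring)

lemma param_integral {T : ℝ} {F F' : ℝ → (Fin 3 → ℝ) → ℝ}
    (cF : ContinuousOn (fun z : ℝ × (Fin 3 → ℝ) => F z.1 z.2) (Icc 0 T ×ˢ univ))
    (cF' : ContinuousOn (fun z : ℝ × (Fin 3 → ℝ) => F' z.1 z.2) (Icc 0 T ×ˢ univ))
    (dF : ∀ x, ∀ s ∈ Ioo 0 T, HasDerivAt (fun a => F a x) (F' s x) s) :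
    ContinuousOn (fun t => ∫ x in cube, F t x) (Icc 0 T) ∧
      ∀ t ∈ Ioo 0 T, HasDerivAt (fun t => ∫ x in cube, F t x) (∫ x in cube, F' t x) t := by
  obtain ⟨C1, hC1⟩ := (isCompact_Icc.prod isCompact_cube).exists_bound_of_continuousOn
    (cF.mono (Set.prod_mono le_rfl (subset_univ _)))
  obtain ⟨C2, hC2⟩ := (isCompact_Icc.prod isCompact_cube).exists_bound_of_continuousOn
    (cF'.mono (Set.prod_mono le_rfl (subset_univ _)))
  have : IsFiniteMeasure (volume.restrict cube) :=
    isFiniteMeasure_restrict.2 isCompact_cube.measure_lt_top.ne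
  refine ⟨?_, ?_⟩
  · refine continuousOn_of_dominated (bound := fun _ => C1) ?_ ?_ (integrable_const _) ?_
    · intro t ht
      exact (continuous_slice cF ht).aestronglyMeasurable
    · intro t ht
      filter_upwards [ae_restrict_mem measurableSet_cube] with x hx
      exact hC1 (t, x) ⟨ht, hx⟩
    · exact Filter.Eventually.of_forall fun x =>
        cF.comp (continuousOn_id.prodMk continuousOn_const) (fun s hs => ⟨hs, mem_univ _⟩)
  · intro t ht
    refine (hasDerivAt_integral_of_dominated_loc_of_deriv_le (bound := fun _ => C2)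
      (F := F) (F' := F') (isOpen_Ioo.mem_nhds ht) ?_ ?_ ?_ ?_ (integrable_const _) ?_).2
    · filter_upwards [isOpen_Ioo.mem_nhds ht] with s hs
      exact (continuous_slice cF (Ioo_subset_Icc_self hs)).aestronglyMeasurable
    · exact continuous_integrableOn_cube (continuous_slice cF (Ioo_subset_Icc_self ht))
    · exact (continuous_slice cF' (Ioo_subset_Icc_self ht)).aestronglyMeasurable
    · filter_upwards [ae_restrict_mem measurableSet_cube] with x hx s hs
      exact hC2 (s, x) ⟨Ioo_subset_Icc_self hs, hx⟩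
    · exact Filter.Eventually.of_forall dF

/-- Two classical solutions agree. -/
theorem classical_unique {ν : ℝ} (hν : 0 ≤ ν) {f : ℝ → (Fin 3 → ℝ) → Fin 3 → ℝ} {T : ℝ} (hT : 0 < T)
    {u v : ℝ → (Fin 3 → ℝ) → Fin 3 → ℝ} {p r : ℝ → (Fin 3 → ℝ) → ℝ}
    (hu : IsClassical ν f T u p) (hv : IsClassical ν f T v r) :
    ∀ t ∈ Icc 0 T, ∀ x, u t x = v t x ∧ p t x = r t x := by
  obtain ⟨ut, ux, uxx, px, cut, cux, cuxx, cpx, hU⟩ := hu.equations
  obtain ⟨vt, vx, vxx, rx, cvt, cvx, cvxx, crx, hV⟩ := hv.equations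
  obtain ⟨K, hK0, hK⟩ : ∃ K, 0 ≤ K ∧ ∀ k, ∀ t ∈ Icc 0 T, ∀ x i, |vx k t x i| ≤ K := by
    have h : ∀ k, ∃ C, 0 ≤ C ∧ ∀ t ∈ Icc 0 T, ∀ x, ‖vx k t x‖ ≤ C := by
      intro k
      refine periodic_bounded (cvx k) (fun t ht => ?_)
      intro x l
      have h1 := (hV t ht (x + Pi.single l 1)).2.1 k
      have : (fun h : ℝ => v t (x + Pi.single l 1 + h • Pi.single k 1))
          = fun h : ℝ => v t (x + h • Pi.single k 1) := by
        funext h; rw [add_right_comm, hv.periodic_u t ht]
      rw [this] at h1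
      exact h1.unique ((hV t ht x).2.1 k)
    choose C hC0 hC using h
    refine ⟨∑ k, C k, Finset.sum_nonneg fun k _ => hC0 k, fun k t ht x i => ?_⟩
    calc |vx k t x i| ≤ ‖vx k t x‖ := norm_le_pi_norm (vx k t x) i
      _ ≤ C k := hC k t ht x
      _ ≤ _ := Finset.single_le_sum (fun k _ => hC0 k) (Finset.mem_univ k)
  let F : ℝ → (Fin 3 → ℝ) → ℝ := fun t x => ∑ i, (u t x i - v t x i) ^ 2
  let F' : ℝ → (Fin 3 → ℝ) → ℝ := fun t x =>
    ∑ i, 2 * ((u t x i - v t x i) * (ut t x i - vt t x i))
  let En : ℝ → ℝ := fun t => ∫ x in cube, F t x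
  have cF : ContinuousOn (fun z : ℝ × (Fin 3 → ℝ) => F z.1 z.2) (Icc 0 T ×ˢ univ) :=
    continuousOn_finsetSum _ fun i _ => ((((continuous_apply i).comp_continuousOn hu.cont_u).sub
      ((continuous_apply i).comp_continuousOn hv.cont_u)).pow 2)
  have cF' : ContinuousOn (fun z : ℝ × (Fin 3 → ℝ) => F' z.1 z.2) (Icc 0 T ×ˢ univ) :=
    continuousOn_finsetSum _ fun i _ => continuousOn_const.mul
      ((((continuous_apply i).comp_continuousOn hu.cont_u).sub
      ((continuous_apply i).comp_continuousOn hv.cont_u)).mul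
      (((continuous_apply i).comp_continuousOn cut).sub
      ((continuous_apply i).comp_continuousOn cvt)))
  have dF : ∀ x, ∀ s ∈ Ioo 0 T, HasDerivAt (fun a => F a x) (F' s x) s := by
    intro x s hs
    have n := Icc_mem_nhds hs.1 hs.2
    have du := hasDerivAt_pi.1 (((hU s (Ioo_subset_Icc_self hs) x).1).hasDerivAt n)
    have dv := hasDerivAt_pi.1 (((hV s (Ioo_subset_Icc_self hs) x).1).hasDerivAt n)
    have h1 : ∀ i, HasDerivAt (fun a => (u a x i - v a x i) ^ 2)
        (2 * ((u s x i - v s x i) * (ut s x i - vt s x i))) s := fun i => sq_deriv (du i) (dv i)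
    exact HasDerivAt.fun_sum fun i _ => h1 i
  obtain ⟨cEn, dEn⟩ := param_integral (F := F) (F' := F') cF cF' dF
  have ineq : ∀ t ∈ Ioo 0 T, (∫ x in cube, F' t x) ≤ (6 * K) * En t := by
    intro t ht
    have ht' := Ioo_subset_Icc_self ht
    refine energy_ineq (ν := ν) (K := K) hν (u t) (fun x => u t x - v t x)
      (fun x => ut t x - vt t x) (fun k => vx k t) (fun k => ux k t)
      (fun k x => ux k t x - vx k t x) (fun k x => uxx k k t x - vxx k k t x)
      (fun x => p t x - r t x) (fun k x => px k t x - rx k t x)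
      (continuous_slice hu.cont_u ht')
      ((continuous_slice hu.cont_u ht').sub (continuous_slice hv.cont_u ht'))
      ((continuous_slice cut ht').sub (continuous_slice cvt ht'))
      (fun k => continuous_slice (cvx k) ht') (fun k => continuous_slice (cux k) ht')
      (fun k => (continuous_slice (cux k) ht').sub (continuous_slice (cvx k) ht'))
      (fun k => (continuous_slice (cuxx k k) ht').sub (continuous_slice (cvxx k k) ht'))
      ((continuous_slice hu.cont_p ht').sub (continuous_slice hv.cont_p ht'))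
      (fun k => (continuous_slice (cpx k) ht').sub (continuous_slice (crx k) ht'))
      (hu.periodic_u t ht') ?_ ?_ (fun k x => (hU t ht' x).2.1 k)
      (fun k x => ((hU t ht' x).2.1 k).sub ((hV t ht' x).2.1 k))
      (fun k x => ((hU t ht' x).2.2.1 k k).sub ((hV t ht' x).2.2.1 k k))
      (fun k x => ((hU t ht' x).2.2.2.1 k).sub ((hV t ht' x).2.2.2.1 k))
      (fun x => (hU t ht' x).2.2.2.2.1) ?_ (fun k x i => hK k t ht' x i) ?_
    · intro x l; simp [hu.periodic_u t ht' x l, hv.periodic_u t ht' x l]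
    · intro x l; simp [hu.periodic_p t ht' x l, hv.periodic_p t ht' x l]
    · intro x
      simp [Finset.sum_sub_distrib, (hU t ht' x).2.2.2.2.1, (hV t ht' x).2.2.2.2.1]
    · intro x i
      have e1 := (hU t ht' x).2.2.2.2.2 i
      have e2 := (hV t ht' x).2.2.2.2.2 i
      simp only [Fin.sum_univ_three, Pi.sub_apply] at e1 e2 ⊢
      linarith
  have hzero : ∀ t ∈ Icc 0 T, En t = 0 := by
    intro t ht
    let G : ℝ → ℝ := fun s => Real.exp (-(6 * K) * s) * En s
    have hG : AntitoneOn G (Icc 0 T) := by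
      refine antitoneOn_of_hasDerivWithinAt_nonpos (convex_Icc _ _)
        (f' := fun s => Real.exp (-(6 * K) * s) * ((∫ x in cube, F' s x) - (6 * K) * En s))
        ((Continuous.continuousOn (by fun_prop)).mul cEn) ?_ ?_
      · intro s hs
        rw [interior_Icc] at hs
        have h1 : HasDerivAt (fun a => Real.exp (-(6 * K) * a))
            (Real.exp (-(6 * K) * s) * (-(6 * K) * 1)) s :=
          ((hasDerivAt_id s).const_mul (-(6 * K))).exp
        convert! (h1.mul (dEn s hs)).hasDerivWithinAt using 1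
        ring
      · intro s hs
        rw [interior_Icc] at hs
        exact mul_nonpos_of_nonneg_of_nonpos (Real.exp_pos _).le (sub_nonpos.2 (ineq s hs))
    have h0 : En 0 = 0 := by simp [En, F, hu.initial, hv.initial]
    have h := hG ⟨le_rfl, ht.1.trans ht.2⟩ ht ht.1
    have hn : 0 ≤ En t := setIntegral_nonneg measurableSet_cube
      (fun x _ => Finset.sum_nonneg fun i _ => sq_nonneg _)
    simp only [G, h0, mul_zero] at h
    nlinarith [Real.exp_pos (-(6 * K) * t)]
  have eq_u : ∀ t ∈ Icc 0 T, u t = v t := by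
    intro t ht
    have hc := continuous_slice cF ht
    have hae : F t =ᵐ[volume.restrict cube] (fun _ => (0:ℝ)) :=
      (setIntegral_eq_zero_iff_of_nonneg_ae
        (Filter.Eventually.of_forall fun x => Finset.sum_nonneg fun i _ => sq_nonneg _)
        (continuous_integrableOn_cube hc)).1 (hzero t ht)
    have hon : EqOn (F t) (fun _ => (0:ℝ)) cube :=
      Measure.eqOn_of_ae_eq hae hc.continuousOn continuousOn_const cube_subset_closure_interior
    funext x
    have h1 : ∀ y ∈ cube, u t y = v t y := by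
      intro y hy
      funext i
      have := (Finset.sum_eq_zero_iff_of_nonneg (fun i _ => sq_nonneg _)).1 (hon hy) i
        (Finset.mem_univ i)
      have := pow_eq_zero_iff (two_ne_zero (α := ℕ)) |>.1 this
      linarith
    rw [← (hu.periodic_u t ht).fract x, ← (hv.periodic_u t ht).fract x]
    exact h1 _ (fract_mem_cube x)
  intro t ht x
  refine ⟨congrFun (eq_u t ht) x, ?_⟩
  · have hpx : ∀ k y, px k t y = rx k t y := by
      intro k y
      have eux : ∀ l z, ux l t z = vx l t z := by
        intro l z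
        have h1 := (hU t ht z).2.1 l
        rw [eq_u t ht] at h1
        exact h1.unique ((hV t ht z).2.1 l)
      have euxx : uxx k k t y = uxx k k t y := rfl
      have e2x : ∀ l, uxx l l t y = vxx l l t y := by
        intro l
        have h1 := (hU t ht y).2.2.1 l l
        have : (fun h : ℝ => ux l t (y + h • Pi.single l 1))
            = fun h : ℝ => vx l t (y + h • Pi.single l 1) := funext fun h => eux l _
        rw [this] at h1
        exact h1.unique ((hV t ht y).2.2.1 l l)
      have et : ut t y = vt t y := by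
        refine (uniqueDiffOn_Icc hT t ht).eq_deriv _ (hU t ht y).1 ?_
        exact (hV t ht y).1.congr (fun s hs => congrFun (eq_u s hs) y) (congrFun (eq_u t ht) y)
      have a1 := (hU t ht y).2.2.2.2.2 k
      have a2 := (hV t ht y).2.2.2.2.2 k
      simp only [et, eux, e2x, congrFun (eq_u t ht) y] at a1
      linarith
    have hconst : ∀ y (k : Fin 3) (s : ℝ),
        p t (y + s • Pi.single k 1) - r t (y + s • Pi.single k 1) = p t y - r t y := by
      intro y k s
      have hd : ∀ a : ℝ, HasDerivAt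
          (fun h : ℝ => p t (y + h • Pi.single k 1) - r t (y + h • Pi.single k 1)) 0 a := by
        intro a
        have := (hasDerivAt_shift (fun z => (hU t ht z).2.2.2.1 k) y a).sub
          (hasDerivAt_shift (fun z => (hV t ht z).2.2.2.1 k) y a)
        simpa [hpx] using! this
      have := is_const_of_deriv_eq_zero (fun a => (hd a).differentiableAt)
        (fun a => (hd a).deriv) s 0
      simpa using this
    have hall : ∀ y, p t y - r t y = p t 0 - r t 0 := by
      intro y
      have e : y = 0 + (y 0) • Pi.single 0 1 + (y 1) • Pi.single 1 1 + (y 2) • Pi.single 2 1 := by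
        funext i; fin_cases i <;> simp
      calc p t y - r t y = _ := by rw [e]
        _ = p t 0 - r t 0 := by rw [hconst, hconst, hconst]
    have hint : ∫ y in cube, (p t y - r t y) = 0 := by
      rw [integral_sub (continuous_integrableOn_cube (continuous_slice hu.cont_p ht))
        (continuous_integrableOn_cube (continuous_slice hv.cont_p ht)), hu.mean_p t ht,
        hv.mean_p t ht, sub_zero]
    rw [setIntegral_congr_fun measurableSet_cube (fun y _ => hall y), setIntegral_const] at hint
    have hvol : volume.real cube = 1 := by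
      simp [cube, measureReal_def, Real.volume_Icc_pi]
    rw [hvol, one_smul] at hint
    have := hall x
    linarith

end Vale.Agent.P113
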