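import Vale.Agent.P113.Force

/-!
The trajectory of the origin.
-/

namespace Vale.Agent.P113

open Set Filter
open scoped BigOperators Topology ContDiff

namespace RevMachine

variable {P : ℕ → Prop} (V : RevMachine P)

/-- The velocity field. -/
noncomputable def velFn (ν : ℝ) (k : ℕ) : ℝ → (Fin 3 → ℝ) → Fin 3 → ℝ :=
  fun t x i => evalL ν (V.vel k i) t x

lemma velFn_early (ν : ℝ) (k : ℕ) {t : ℝ} (h₁ : -1 / 2 ≤ t) (h₂ : t ≤ 9 / 10) (x : Fin 3 → ℝ) :
    V.velFn ν k t x = ![(V.startX : ℝ) * rate 8 t, (V.startY k : ℝ) * rate 16 t, 0] := by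
  funext i
  rw [velFn, V.vel_early ν k i h₁ h₂ x, V.velV_eval]

lemma velFn_initial (ν : ℝ) (k : ℕ) (x : Fin 3 → ℝ) : V.velFn ν k 0 x = 0 := by
  rw [V.velFn_early ν k (by norm_num) (by norm_num)]
  funext i
  fin_cases i <;> simp [rate_eq_zero]

/-- The path during one period, from the positions of the stages. -/
noncomputable def periodPath (Q : Fin 9 → Fin 3 → ℝ) (τ : ℝ) : Fin 3 → ℝ :=
  Q 0 + ∑ j : Fin 8, ramp (stB j) τ • (Q j.succ - Q j.castSucc)

lemma exists_active (τ : ℝ) : ∃ s : Fin 8,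
    (∀ j : Fin 8, j < s → 1 ≤ 40 * τ - stB j) ∧
      (∀ j : Fin 8, s < j → 40 * τ - stB j ≤ -1) := by
  by_cases h : ∃ j : Fin 8, 40 * τ - stB j < 1
  · refine ⟨Fin.find (fun j : Fin 8 => 40 * τ - stB j < 1) h, fun j hj => ?_, fun j hj => ?_⟩
    · exact not_lt.1 (Fin.find_min h hj)
    · have h1 := Fin.find_spec h
      have h2 : (stB (Fin.find (fun j : Fin 8 => 40 * τ - stB j < 1) h) : ℝ) + 4 ≤ stB j := by
        generalize Fin.find (fun j : Fin 8 => 40 * τ - stB j < 1) h = s at hj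
        have : (s : ℕ) + 1 ≤ (j : ℕ) := hj
        have : ((s : ℕ) : ℝ) + 1 ≤ ((j : ℕ) : ℝ) := by exact_mod_cast this
        simp [stB]; linarith
      linarith
  · push Not at h
    exact ⟨7, fun j _ => h j, fun j hj => absurd hj (not_lt.2 (Fin.le_last j))⟩

lemma periodPath_active (Q : Fin 9 → Fin 3 → ℝ) (τ : ℝ) (s : Fin 8)
    (h₁ : ∀ j : Fin 8, j < s → 1 ≤ 40 * τ - stB j)
    (h₂ : ∀ j : Fin 8, s < j → 40 * τ - stB j ≤ -1) :
    periodPath Q τ = Q s.castSucc + ramp (stB s) τ • (Q s.succ - Q s.castSucc) := by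
  have e₁ : ∀ j : Fin 8, j < s → ramp (stB j) τ = 1 := fun j hj => ramp_eq_one (h₁ j hj)
  have e₂ : ∀ j : Fin 8, s < j → ramp (stB j) τ = 0 := fun j hj => ramp_eq_zero (h₂ j hj)
  have e : ∀ j : Fin 8, ramp (stB j) τ =
      if j < s then 1 else if j = s then ramp (stB s) τ else 0 := by
    intro j
    rcases lt_trichotomy j s with h | rfl | h
    · rw [if_pos h, e₁ j h]
    · simp
    · rw [if_neg h.not_gt, if_neg h.ne', e₂ j h]
  generalize ramp (stB s) τ = θ at e ⊢
  funext i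
  simp only [periodPath, Pi.add_apply, Fin.sum_univ_eight, Pi.smul_apply, Pi.sub_apply,
    smul_eq_mul, e]
  fin_cases s <;> simp <;> ring

lemma periodPath_left (Q : Fin 9 → Fin 3 → ℝ) {τ : ℝ} (h : τ ≤ 3 / 40) :
    periodPath Q τ = Q 0 := by
  simp only [periodPath, add_eq_left]
  refine Finset.sum_eq_zero fun j _ => ?_
  rw [ramp_eq_zero, zero_smul]
  have : (4:ℝ) ≤ stB j := by fin_cases j <;> norm_num [stB]
  linarith

lemma periodPath_right (Q : Fin 9 → Fin 3 → ℝ) {τ : ℝ} (h : 17 / 20 ≤ τ) :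
    periodPath Q τ = Q 8 := by
  rw [periodPath_active Q τ 7 (fun j _ => ?_) (fun j hj => absurd hj (not_lt.2 (Fin.le_last j))),
    ramp_eq_one ?_]
  · simp
  · norm_num [stB]; linarith
  · have : (stB j : ℝ) ≤ 32 := by fin_cases j <;> norm_num [stB]
    linarith

lemma periodPath_hasDerivAt (Q : Fin 9 → Fin 3 → ℝ) (τ : ℝ) :
    HasDerivAt (periodPath Q) (∑ j : Fin 8, rate (stB j) τ • (Q j.succ - Q j.castSucc)) τ := by
  refine HasDerivAt.const_add (Q 0) ?_
  exact HasDerivAt.fun_sum fun j _ => (hasDerivAt_ramp (stB j) τ).smul_const _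

/-- The positions in real lengths for a step. -/
noncomputable def realTrack (r : V.ι) (tL tR : ℝ) : Fin 9 → Fin 3 → ℝ :=
  fun j => V.ofUnits (V.track r tL tR j)

lemma velU_path (ν : ℝ) (r : V.ι) {tL tR : ℝ} (hL : tL ∈ Icc (0:ℝ) 1) (hR : tR ∈ Icc (0:ℝ) 1)
    (n : ℤ) {t : ℝ} (h₁ : -3 / 20 ≤ t - n) (h₂ : t - n ≤ 21 / 20) (i : Fin 3) :
    evalL ν (V.velU i) t (periodPath (V.realTrack r tL tR) (t - n)) =
      (∑ j : Fin 8, rate (stB j) (t - n) •
        (V.realTrack r tL tR j.succ - V.realTrack r tL tR j.castSucc)) i := by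
  obtain ⟨s, hs₁, hs₂⟩ := exists_active (t - n)
  have hz : ∀ j : Fin 8, j ≠ s → rate (stB j) (t - n) = 0 := fun j hj =>
    rate_eq_zero (hj.lt_or_gt.elim (fun h => Or.inr (hs₁ j h)) (fun h => Or.inl (hs₂ j h)))
  rw [V.evalL_velU, Finset.sum_eq_single s, Finset.sum_eq_single s]
  rotate_left
  · intro j _ hj; simp [hz j hj]
  · simp
  · intro j _ hj
    split_ifs
    · rw [rateTerm_eval ν j n h₁ h₂, hz j hj, zero_mul]
    · rfl
  · simp
  obtain ⟨hval, hoth⟩ := V.track_step ν t r hL hR s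
  rw [periodPath_active _ _ s hs₁ hs₂]
  by_cases hi : stAxis s = i
  · subst hi
    rw [if_pos rfl, rateTerm_eval ν s n h₁ h₂,
      evalL_indep ν (V.stageTerms_axis s) t (y := V.realTrack r tL tR s.castSucc) ?_]
    · rw [realTrack, hval]
      simp only [realTrack, ofUnits, Pi.sub_apply, Pi.smul_apply, smul_eq_mul]
      ring
    · intro l hl
      simp [realTrack, ofUnits, hoth l hl]
  · rw [if_neg hi]
    simp [realTrack, ofUnits, hoth i (Ne.symm hi)]

/-- A run of the system with the data of each step. -/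
structure Run (k : ℕ) where
  C : ℕ → Pat V.St V.Sy
  r : ℕ → V.ι
  tL : ℕ → ℝ
  tR : ℕ → ℝ
  hL : ∀ n, tL n ∈ Icc (0:ℝ) 1
  hR : ∀ n, tR n ∈ Icc (0:ℝ) 1
  start : C 0 = ⟨V.start, V.startL, V.startR k⟩
  src : ∀ n, (C n).st = (V.Y.src (r n)).st
  dst : ∀ n, (C (n + 1)).st = (V.Y.dst (r n)).st
  left : ∀ n, V.ptU (C n) = V.track (r n) (tL n) (tR n) 0
  right : ∀ n, V.ptU (C (n + 1)) = V.track (r n) (tL n) (tR n) 8
  spec : (∃ n, (C n).st = V.halt) ↔ P k

lemma exists_run (k : ℕ) : Nonempty (V.Run k) := by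
  obtain ⟨C, h0, hstep, hspec⟩ := V.run k
  have h := fun n => V.pt_track (C n) (C (n + 1)) (hstep n)
  choose r tL hL tR hR h1 h2 h3 h4 using h
  exact ⟨⟨C, r, tL, tR, hL, hR, h0, h1, h2, h3, h4, hspec⟩⟩

variable {V} in
/-- The path in period `n`. -/
noncomputable def Run.seg {k : ℕ} (R : V.Run k) (n : ℕ) (t : ℝ) : Fin 3 → ℝ :=
  periodPath (V.realTrack (R.r n) (R.tL n) (R.tR n)) (t - ((n + 1 : ℕ) : ℤ))

/-- The loading path. -/
noncomputable def loadPath (k : ℕ) (t : ℝ) : Fin 3 → ℝ :=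
  ![(V.startX : ℝ) * ramp 8 t, (V.startY k : ℝ) * ramp 16 t, 0]

variable {V} in
/-- The trajectory. -/
noncomputable def Run.path {k : ℕ} (R : V.Run k) (t : ℝ) : Fin 3 → ℝ :=
  if t < 1 then V.loadPath k t else R.seg ⌊t - 1⌋₊ t

lemma ptU_start (k : ℕ) {C : Pat V.St V.Sy} (h : C = ⟨V.start, V.startL, V.startR k⟩) :
    V.pt C = ![(V.startX : ℝ), (V.startY k : ℝ), 0] := by
  subst h
  funext i
  fin_cases i <;> simp [pt, ofUnits, ptU, startX, startY]

lemma loadPath_late (k : ℕ) {t : ℝ} (h : 1 / 2 ≤ t) :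
    V.loadPath k t = ![(V.startX : ℝ), (V.startY k : ℝ), 0] := by
  rw [loadPath, ramp_eq_one, ramp_eq_one, mul_one, mul_one] <;> push_cast <;> linarith

variable {V} in
lemma Run.seg_left {k : ℕ} (R : V.Run k) (n : ℕ) {t : ℝ} (h : t ≤ (n:ℝ) + 1 + 3 / 40) :
    R.seg n t = V.pt (R.C n) := by
  rw [Run.seg, periodPath_left _ (by push_cast; linarith)]
  simp [realTrack, pt, R.left]

variable {V} in
lemma Run.seg_right {k : ℕ} (R : V.Run k) (n : ℕ) {t : ℝ} (h : (n:ℝ) + 1 + 17 / 20 ≤ t) :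
    R.seg n t = V.pt (R.C (n + 1)) := by
  rw [Run.seg, periodPath_right _ (by push_cast; linarith)]
  simp [realTrack, pt, R.right]

variable {V} in
lemma Run.path_eq_seg {k : ℕ} (R : V.Run k) (n : ℕ) {t : ℝ} (h₁ : (n:ℝ) + 19 / 20 ≤ t)
    (h₂ : t ≤ (n:ℝ) + 2 + 1 / 20) : R.path t = R.seg n t := by
  have hn : (0:ℝ) ≤ n := Nat.cast_nonneg _
  unfold Run.path
  rcases lt_trichotomy (⌊t - 1⌋₊) n with h | h | h
  · -- before the period
    have hlt : t < (n:ℝ) + 1 := by
      have h' := Nat.lt_floor_add_one (t - 1)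
      have h'' : (⌊t - 1⌋₊ : ℝ) + 1 ≤ n := by exact_mod_cast h
      linarith
    rw [R.seg_left n (by linarith)]
    obtain ⟨m, rfl⟩ : ∃ m, n = m + 1 := ⟨n - 1, by omega⟩
    push_cast at h₁ hlt
    have hm : (0:ℝ) ≤ m := Nat.cast_nonneg _
    rw [if_neg (by linarith)]
    have hf : ⌊t - 1⌋₊ = m := by
      rw [Nat.floor_eq_iff (by linarith)]
      constructor <;> linarith
    rw [hf, R.seg_right m (by linarith)]
  · subst h
    by_cases ht : t < 1
    · rw [if_pos ht]
      have h0 : ⌊t - 1⌋₊ = 0 := Nat.floor_eq_zero.2 (by linarith)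
      rw [h0] at h₁ ⊢
      push_cast at h₁
      rw [R.seg_left 0 (by push_cast; linarith), V.ptU_start k R.start,
        V.loadPath_late k (by linarith)]
    · rw [if_neg ht]
  · -- after the period
    have hge : (n:ℝ) + 1 ≤ (⌊t - 1⌋₊ : ℝ) := by exact_mod_cast h
    have hpos : 1 ≤ t - 1 := by
      by_contra hc
      rw [Nat.floor_eq_zero.2 (by linarith)] at h
      omega
    have hle : (⌊t - 1⌋₊ : ℝ) ≤ t - 1 := Nat.floor_le (by linarith)
    rw [if_neg (by linarith), R.seg_right n (by linarith)]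
    have hf : ⌊t - 1⌋₊ = n + 1 := by
      rw [Nat.floor_eq_iff (by linarith)]
      push_cast
      constructor <;> linarith
    rw [hf, R.seg_left (n + 1) (by push_cast; linarith)]

variable {V} in
lemma Run.path_eq_load {k : ℕ} (R : V.Run k) {t : ℝ} (h : t < 1 + 1 / 20) :
    R.path t = V.loadPath k t := by
  by_cases ht : t < 1
  · rw [Run.path, if_pos ht]
  · rw [R.path_eq_seg 0 (by push_cast; linarith) (by push_cast; linarith),
      R.seg_left 0 (by push_cast; linarith), V.ptU_start k R.start,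
      V.loadPath_late k (by linarith)]

variable {V} in
lemma Run.hasDerivAt_path {k : ℕ} (R : V.Run k) (ν : ℝ) {t : ℝ} (ht : 0 ≤ t) :
    HasDerivAt R.path (V.velFn ν k t (R.path t)) t := by
  rcases lt_or_ge t (9/10) with h | h
  · have hev : R.path =ᶠ[𝓝 t] V.loadPath k := by
      filter_upwards [isOpen_Iio.mem_nhds (show t ∈ Iio (1:ℝ) by simp; linarith)] with s hs
      exact R.path_eq_load (by simp at hs; linarith)
    refine HasDerivAt.congr_of_eventuallyEq ?_ hev
    rw [V.velFn_early ν k (by linarith) h.le]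
    refine hasDerivAt_pi.2 fun i => ?_
    fin_cases i
    · simpa [loadPath] using! (hasDerivAt_ramp 8 t).const_mul (V.startX : ℝ)
    · simpa [loadPath] using! (hasDerivAt_ramp 16 t).const_mul (V.startY k : ℝ)
    · simpa [loadPath] using! hasDerivAt_const t (0:ℝ)
  · obtain ⟨n, hn₁, hn₂⟩ : ∃ n : ℕ, (n:ℝ) + 19/20 < t + 1/10 ∧ t < (n:ℝ) + 2 := by
      refine ⟨⌊t - 1⌋₊, ?_, ?_⟩
      · rcases lt_or_ge t 1 with h' | h'
        · rw [Nat.floor_eq_zero.2 (by linarith)]; push_cast; linarith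
        · linarith [Nat.floor_le (show (0:ℝ) ≤ t - 1 by linarith)]
      · linarith [Nat.lt_floor_add_one (t - 1)]
    rcases lt_or_ge ((n:ℝ) + 19/20) t with h' | h'
    · have hev : R.path =ᶠ[𝓝 t] R.seg n := by
        filter_upwards [isOpen_Ioo.mem_nhds (show t ∈ Ioo ((n:ℝ) + 19/20) ((n:ℝ) + 2 + 1/20) from
          ⟨h', by linarith⟩)] with s hs
        exact R.path_eq_seg n hs.1.le hs.2.le
      rw [hev.eq_of_nhds]
      refine HasDerivAt.congr_of_eventuallyEq ?_ hev
      have hd := (periodPath_hasDerivAt (V.realTrack (R.r n) (R.tL n) (R.tR n))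
        (t - ((n + 1 : ℕ) : ℤ))).comp_sub_const t (((n + 1 : ℕ) : ℤ) : ℝ)
      convert! hd using 1
      funext i
      rw [velFn, V.vel_late ν k i (by linarith [show (0:ℝ) ≤ n from Nat.cast_nonneg n]),
        Run.seg, V.velU_path ν (R.r n) (R.hL n) (R.hR n) _ (by push_cast; linarith)
          (by push_cast; linarith) i]
    · -- a short interval before an integer time, where everything rests
      rcases Nat.eq_zero_or_pos n with rfl | hpos
      · push_cast at hn₁ h'
        have hev : R.path =ᶠ[𝓝 t] fun _ => V.pt (R.C 0) := by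
          filter_upwards [isOpen_Ioo.mem_nhds (show t ∈ Ioo (1/2:ℝ) (1 + 1/20) from
            ⟨by linarith, by linarith⟩)] with s hs
          rw [R.path_eq_load hs.2, V.loadPath_late k hs.1.le, V.ptU_start k R.start]
        refine HasDerivAt.congr_of_eventuallyEq ?_ hev
        have : V.velFn ν k t (R.path t) = 0 := by
          funext i
          rw [velFn, V.vel_late ν k i (by linarith),
            V.velU_near_zero ν i (by linarith) (by linarith)]
          rfl
        rw [this]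
        exact hasDerivAt_const t _
      · obtain ⟨m, rfl⟩ : ∃ m, n = m + 1 := ⟨n - 1, by omega⟩
        push_cast at hn₁ hn₂ h'
        have hev : R.path =ᶠ[𝓝 t] R.seg m := by
          filter_upwards [isOpen_Ioo.mem_nhds (show t ∈ Ioo ((m:ℝ) + 19/20) ((m:ℝ) + 2 + 1/20)
            from ⟨by linarith, by linarith⟩)] with s hs
          exact R.path_eq_seg m hs.1.le hs.2.le
        rw [hev.eq_of_nhds]
        refine HasDerivAt.congr_of_eventuallyEq ?_ hev
        have hd := (periodPath_hasDerivAt (V.realTrack (R.r m) (R.tL m) (R.tR m))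
          (t - ((m + 1 : ℕ) : ℤ))).comp_sub_const t (((m + 1 : ℕ) : ℤ) : ℝ)
        convert! hd using 1
        funext i
        rw [velFn, V.vel_late ν k i (by linarith [show (0:ℝ) ≤ m from Nat.cast_nonneg m]),
          Run.seg, V.velU_path ν (R.r m) (R.hL m) (R.hR m) _ (by push_cast; linarith)
            (by push_cast; linarith) i]

/-- The corners of the open box. -/
noncomputable def lo (i : Fin 3) : ℚ := V.w * V.boxLo i
/-- The upper corner. -/
noncomputable def hi (i : Fin 3) : ℚ := V.w * V.boxHi i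

lemma mem_box_iff (u : Fin 3 → ℝ) (hu : ∀ i, |u i| ≤ (V.ext : ℝ)) :
    (∃ m : Fin 3 → ℤ, ∀ i, (V.lo i : ℝ) < V.ofUnits u i + m i ∧
      V.ofUnits u i + m i < (V.hi i : ℝ)) ↔ V.InBox u := by
  have hw : (0:ℝ) < V.w := by exact_mod_cast V.w_pos
  have hwe : (V.w : ℝ) * (V.ext : ℝ) = 1 / 4 := by
    have := congrArg (Rat.cast (K := ℝ)) V.w_ext
    push_cast at this
    exact this
  constructor
  · rintro ⟨m, hm⟩ i
    have hb : -(V.ext : ℝ) ≤ V.boxLo i ∧ (V.boxHi i : ℝ) ≤ V.ext := by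
      have h1 : -(V.ext : ℚ) ≤ V.boxLo i ∧ V.boxHi i ≤ (V.ext : ℚ) := by
        have := V.pos_nonneg V.halt
        have := V.pos_lt V.halt
        have := V.ext_eq
        have : (0:ℚ) ≤ V.nR := Nat.cast_nonneg _
        have h10 : 10 ≤ V.ext := by simp [ext]
        constructor <;> fin_cases i <;> simp [boxLo, boxHi] <;> first | linarith | omega
      exact_mod_cast h1
    obtain ⟨h1, h2⟩ := hm i
    simp only [lo, hi, ofUnits, Rat.cast_mul] at h1 h2
    have hu' := abs_le.1 (hu i)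
    have a1 : (V.w:ℝ) * u i ≤ 1/4 := by nlinarith
    have a2 : -(1/4:ℝ) ≤ (V.w:ℝ) * u i := by nlinarith
    have a3 : (V.w:ℝ) * V.boxHi i ≤ 1/4 := by nlinarith [hb.2]
    have a4 : -(1/4:ℝ) ≤ (V.w:ℝ) * V.boxLo i := by nlinarith [hb.1]
    have hm0 : m i = 0 := by
      have b1 : (m i : ℝ) < 1 := by linarith
      have b2 : (-1:ℝ) < m i := by linarith
      have c1 : m i < 1 := by exact_mod_cast b1
      have c2 : -1 < m i := by exact_mod_cast b2
      omega
    rw [hm0] at h1 h2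
    simp only [Int.cast_zero, add_zero] at h1 h2
    exact ⟨lt_of_mul_lt_mul_left h1 hw.le, lt_of_mul_lt_mul_left h2 hw.le⟩
  · intro h
    refine ⟨0, fun i => ?_⟩
    simp only [lo, hi, ofUnits, Rat.cast_mul, Pi.zero_apply, Int.cast_zero, add_zero]
    exact ⟨mul_lt_mul_of_pos_left (h i).1 hw, mul_lt_mul_of_pos_left (h i).2 hw⟩

variable {V} in
lemma Run.hits_iff {k : ℕ} (R : V.Run k) : HitsBox R.path V.lo V.hi ↔ P k := by
  rw [← R.spec]
  constructor
  · rintro ⟨t, ht, hm⟩
    by_contra hno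
    push Not at hno
    rcases lt_or_ge t 1 with h | h
    · rw [R.path_eq_load (by linarith)] at hm
      let u : Fin 3 → ℝ := ![((V.pos V.start + V.val V.startL : ℚ) : ℝ) * ramp 8 t,
        (V.val (V.startR k) : ℝ) * ramp 16 t, 0]
      have hu : V.loadPath k t = V.ofUnits u := by
        funext i
        fin_cases i <;> simp [loadPath, ofUnits, u, startX, startY] <;> ring
      obtain ⟨r0, r1⟩ := ramp_mem 8 t
      obtain ⟨s0, s1⟩ := ramp_mem 16 t
      have p0 : (0:ℝ) ≤ (V.pos V.start + V.val V.startL : ℚ) := by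
        exact_mod_cast add_nonneg (V.pos_nonneg _) (V.val_nonneg _)
      have p1 : ((V.pos V.start + V.val V.startL : ℚ) : ℝ) ≤ (V.pos V.halt : ℝ) - 1 := by
        have : V.pos V.start + V.val V.startL ≤ V.pos V.halt - 1 := by
          linarith [V.pos_le_halt V.start_ne_halt, V.val_le_one V.startL]
        exact_mod_cast this
      have p2 : (V.pos V.halt : ℝ) + 2 ≤ (V.ext : ℝ) := by
        have : V.pos V.halt + 2 ≤ (V.ext : ℚ) := by
          have : (0:ℚ) ≤ V.nR := Nat.cast_nonneg _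
          linarith [V.pos_lt V.halt, V.ext_eq]
        exact_mod_cast this
      have p3 : (0:ℝ) ≤ V.val (V.startR k) := by exact_mod_cast V.val_nonneg _
      have p4 : (V.val (V.startR k) : ℝ) ≤ 1 := by exact_mod_cast V.val_le_one _
      have m1 : ((V.pos V.start + V.val V.startL : ℚ) : ℝ) * ramp 8 t
          ≤ ((V.pos V.start + V.val V.startL : ℚ) : ℝ) := mul_le_of_le_one_right p0 r1
      have m2 : (V.val (V.startR k) : ℝ) * ramp 16 t ≤ 1 := by nlinarith
      have m3 : 0 ≤ ((V.pos V.start + V.val V.startL : ℚ) : ℝ) * ramp 8 t := mul_nonneg p0 r0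
      have hb : ∀ i, |u i| ≤ (V.ext : ℝ) := by
        intro i
        rw [abs_le]
        fin_cases i <;> simp [u] at m1 m2 m3 p1 p2 ⊢ <;> constructor <;> nlinarith
      rw [hu] at hm
      have hin := ((V.mem_box_iff u hb).1 hm) 0
      simp [boxLo, u] at hin m1 p1
      linarith [hin.1]
    · set n := ⌊t - 1⌋₊ with hn
      have hfl := Nat.floor_le (show (0:ℝ) ≤ t - 1 by linarith)
      have hlt := Nat.lt_floor_add_one (t - 1)
      rw [← hn] at hfl hlt
      rw [R.path_eq_seg n (by linarith) (by linarith), Run.seg] at hm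
      obtain ⟨s, hs₁, hs₂⟩ := exists_active (t - (((n + 1 : ℕ) : ℤ) : ℝ))
      rw [periodPath_active _ _ s hs₁ hs₂] at hm
      set θ := ramp (stB s) (t - (((n + 1 : ℕ) : ℤ) : ℝ))
      have hθ : θ ∈ Icc (0:ℝ) 1 := ramp_mem _ _
      set u : Fin 3 → ℝ := fun i => V.track (R.r n) (R.tL n) (R.tR n) s.castSucc i
        + θ * (V.track (R.r n) (R.tL n) (R.tR n) s.succ i
          - V.track (R.r n) (R.tL n) (R.tR n) s.castSucc i) with hu
      have he : V.realTrack (R.r n) (R.tL n) (R.tR n) s.castSucc + θ •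
          (V.realTrack (R.r n) (R.tL n) (R.tR n) s.succ
            - V.realTrack (R.r n) (R.tL n) (R.tR n) s.castSucc) = V.ofUnits u := by
        funext i; simp [realTrack, ofUnits, hu]; ring
      have hb : ∀ i, |u i| ≤ (V.ext : ℝ) := by
        intro i
        have b1 := abs_le.1 (V.track_bound (R.r n) (R.hL n) (R.hR n) s.castSucc i)
        have b2 := abs_le.1 (V.track_bound (R.r n) (R.hL n) (R.hR n) s.succ i)
        obtain ⟨t0, t1⟩ := hθ
        rw [abs_le]
        simp only [hu]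
        constructor <;> nlinarith
      rw [he] at hm
      exact V.track_avoid (R.r n) (R.hL n) (R.hR n) (R.src n ▸ hno n) (R.dst n ▸ hno (n + 1))
        s θ hθ ((V.mem_box_iff u hb).1 hm)
  · rintro ⟨n, hn⟩
    have hn0 : (0:ℝ) ≤ n := Nat.cast_nonneg _
    refine ⟨(n:ℝ) + 1, by linarith, ?_⟩
    rw [R.path_eq_seg n (by linarith) (by linarith), R.seg_left n (by linarith)]
    refine (V.mem_box_iff (V.ptU (R.C n)) (fun i => ?_)).2 (V.pt_inBox _ hn)
    rw [R.left n]
    exact V.track_bound _ (R.hL n) (R.hR n) 0 i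

end RevMachine

end Vale.Agent.P113
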