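import Vale.Agent.P113.Stages

/-!
The velocity field, the force and its code.
-/

namespace Vale.Agent.P113

open Set Filter
open scoped BigOperators Topology ContDiff

/-- The pulse bump `ρ(40 t - b)`. -/
def pulse (b : ℚ) : Bump := ⟨Sum.inl 0, 0, 40, b⟩

lemma pulse_ok (b : ℚ) : (pulse b).Ok := ⟨by norm_num [pulse], fun l h => by simp [pulse] at h⟩

/-- The rate of a pulse: a function of integral one. -/
noncomputable def rate (b : ℚ) (t : ℝ) : ℝ := 40 / kappa * rho (40 * t - b)

/-- The primitive of a pulse, from `0` to `1`. -/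
noncomputable def ramp (b : ℚ) (t : ℝ) : ℝ := sigma (40 * t - b) / kappa

lemma pulse_val (b : ℚ) (t : ℝ) : (pulse b).val t = rho (40 * t - b) := by
  simp [pulse, Bump.val, kindVal]

lemma hasDerivAt_ramp (b : ℚ) (t : ℝ) : HasDerivAt (ramp b) (rate b t) t := by
  have hlin : HasDerivAt (fun r : ℝ => 40 * r - (b:ℝ)) 40 t := by
    simpa using ((hasDerivAt_id t).const_mul (40:ℝ)).sub_const (b:ℝ)
  have h := ((hasDerivAt_sigma (40 * t - b)).comp t hlin).div_const kappa
  convert! h using 1
  unfold rate; ring

lemma ramp_eq_zero {b : ℚ} {t : ℝ} (h : 40 * t - b ≤ -1) : ramp b t = 0 := by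
  simp [ramp, sigma_of_le h]

lemma ramp_eq_one {b : ℚ} {t : ℝ} (h : 1 ≤ 40 * t - b) : ramp b t = 1 := by
  simp [ramp, sigma_of_ge h, kappa_ne]

lemma rate_eq_zero {b : ℚ} {t : ℝ} (h : 40 * t - b ≤ -1 ∨ 1 ≤ 40 * t - b) : rate b t = 0 := by
  rw [rate, rho_eq_zero, mul_zero]
  rcases h with h | h
  · rw [abs_of_nonpos (by linarith)]; linarith
  · rw [abs_of_nonneg (by linarith)]; linarith

lemma monotone_sigma : Monotone sigma :=
  monotone_of_hasDerivAt_nonneg hasDerivAt_sigma rho_nonneg

lemma ramp_mem (b : ℚ) (t : ℝ) : ramp b t ∈ Icc (0:ℝ) 1 := by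
  have h0 : sigma (min (40 * t - b) (-1)) = 0 := sigma_of_le (min_le_right _ _)
  have h1 : sigma (max (40 * t - b) 1) = kappa := sigma_of_ge (le_max_right _ _)
  constructor
  · refine div_nonneg ?_ kappa_pos.le
    rw [← h0]
    exact monotone_sigma (min_le_left _ _)
  · rw [ramp, div_le_one kappa_pos, ← h1]
    exact monotone_sigma (le_max_left _ _)

/-- The time cut-off: one on `[-1/2, 9/10]`, zero from time one on. -/
def chiBump : Bump := ⟨Sum.inr 30, 0, 20, -11⟩

/-- The cut-off as a term. -/
def chiTerm : Term := ⟨1, 0, -1, [(false, chiBump)], fun _ => []⟩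

lemma chiBump_ok : chiBump.Ok :=
  ⟨by norm_num [chiBump], fun l h => by
    simp only [chiBump, Sum.inr.injEq] at h
    subst h; norm_num⟩

lemma chiTerm_ok : OkL [chiTerm] := by
  intro T hT
  simp only [List.mem_singleton] at hT
  subst hT
  exact ⟨fun p hp => by simp [chiTerm] at hp; subst hp; exact chiBump_ok,
    fun i β hβ => by simp [chiTerm] at hβ⟩

lemma chi_one {t : ℝ} (h₁ : -1 / 2 ≤ t) (h₂ : t ≤ 9 / 10) : chiBump.val t = kappa := by
  simp only [Bump.val, chiBump, kindVal, pow_zero, one_mul]
  push_cast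
  exact plateau_eq (by linarith) (by linarith)

lemma chi_zero {t : ℝ} (h : 1 ≤ t) : chiBump.val t = 0 := by
  simp only [Bump.val, chiBump, kindVal, pow_zero, one_mul]
  push_cast
  exact plateau_eq_zero (by norm_num) (Or.inr (by linarith))

lemma evalL_chi (ν t : ℝ) (x : Fin 3 → ℝ) :
    evalL ν [chiTerm] t x = kappa⁻¹ * chiBump.val t := by
  simp [evalL, Term.val, chiTerm, Term.theta, tval, sval]

lemma evalL_indep (ν : ℝ) {L : List Term} {a : Fin 3} (h : ∀ T ∈ L, T.sp a = []) (t : ℝ)
    {x y : Fin 3 → ℝ} (hxy : ∀ i, i ≠ a → x i = y i) : evalL ν L t x = evalL ν L t y := by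
  simp only [evalL]
  congr 1
  refine List.map_congr_left fun T hT => ?_
  have key : ∀ i, sval (T.sp i) (x i) = sval (T.sp i) (y i) := by
    intro i
    rcases eq_or_ne i a with rfl | hi
    · simp [h T hT, sval]
    · rw [hxy i hi]
  simp only [Term.val, key]

namespace RevMachine

variable {P : ℕ → Prop} (V : RevMachine P)

/-- Offset of the pulse of a stage. -/
def stB (s : Fin 8) : ℚ := 4 * (((s : ℕ) : ℚ) + 1)

/-- The periodic time factor of a stage. -/
def rateTerm (s : Fin 8) : Term := ⟨40, 0, -1, [(true, pulse (stB s))], fun _ => []⟩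

/-- The time periodic velocity. -/
noncomputable def velU (i : Fin 3) : List Term :=
  (List.finRange 8).flatMap fun s =>
    if stAxis s = i then mulL [rateTerm s] (V.stageTerms s) else []

/-- Start abscissa in real length. -/
noncomputable def startX : ℚ := V.w * (V.pos V.start + V.val V.startL)

/-- The right stack of the start configuration for input `k`. -/
def startR (k : ℕ) : List V.Sy := V.first :: (List.replicate k V.digit ++ [V.last])

/-- Start ordinate in real length. -/
noncomputable def startY (k : ℕ) : ℚ := V.w * V.val (V.startR k)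

/-- The loading velocity. -/
noncomputable def velV (k : ℕ) : Fin 3 → List Term :=
  ![[⟨40 * V.startX, 0, -1, [(false, pulse 8)], fun _ => []⟩],
    [⟨40 * V.startY k, 0, -1, [(false, pulse 16)], fun _ => []⟩], []]

/-- The velocity. -/
noncomputable def vel (k : ℕ) (i : Fin 3) : List Term :=
  V.velU i ++ scaleL (-1) 0 (mulL [chiTerm] (V.velU i)) ++ V.velV k i

lemma rateTerm_ok (s : Fin 8) : OkL [rateTerm s] := by
  intro T hT
  simp only [List.mem_singleton] at hT
  subst hT
  exact ⟨fun p hp => by simp [rateTerm] at hp; subst hp; exact pulse_ok _,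
    fun i β hβ => by simp [rateTerm] at hβ⟩

lemma velU_ok (i : Fin 3) : OkL (V.velU i) := by
  refine OkL.flatMap fun s _ => ?_
  split_ifs
  · exact (rateTerm_ok s).mul (V.stageTerms_ok s)
  · intro T hT; simp at hT

lemma velU_per (i : Fin 3) : PerL (V.velU i) := by
  refine PerL.flatMap fun s _ => ?_
  split_ifs
  · refine PerL.mul ?_ ?_
    · intro T hT
      simp only [List.mem_singleton] at hT
      subst hT
      intro p hp; simp [rateTerm] at hp; subst hp; rfl
    · intro T hT p hp
      rw [V.stageTerms_time s T hT] at hp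
      simp at hp
  · intro T hT; simp at hT

lemma velV_ok (k : ℕ) (i : Fin 3) : OkL (V.velV k i) := by
  intro T hT
  fin_cases i <;> simp [velV] at hT <;> subst hT <;>
    exact ⟨fun p hp => by simp at hp; subst hp; exact pulse_ok _, fun i β hβ => by simp at hβ⟩

lemma vel_ok (k : ℕ) (i : Fin 3) : OkL (V.vel k i) :=
  ((V.velU_ok i).append ((chiTerm_ok.mul (V.velU_ok i)).scale _ _)).append (V.velV_ok k i)

lemma velU_div (k : Fin 3) : ∀ T ∈ V.velU k, T.sp k = [] := by
  intro T hT
  simp only [velU, List.mem_flatMap] at hT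
  obtain ⟨s, -, hT⟩ := hT
  split_ifs at hT with h
  · simp only [mulL, List.flatMap_cons, List.flatMap_nil, List.append_nil, List.mem_map] at hT
    obtain ⟨U, hU, rfl⟩ := hT
    subst h
    simp [Term.mul, rateTerm, V.stageTerms_axis s U hU]
  · simp at hT

lemma vel_div (k : ℕ) (i : Fin 3) : ∀ T ∈ V.vel k i, T.sp i = [] := by
  intro T hT
  simp only [vel, List.mem_append] at hT
  rcases hT with (hT | hT) | hT
  · exact V.velU_div i T hT
  · simp only [scaleL, mulL, List.flatMap_cons, List.flatMap_nil, List.append_nil,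
      List.mem_map] at hT
    obtain ⟨U, ⟨W, hW, rfl⟩, rfl⟩ := hT
    simp [Term.scale, Term.mul, chiTerm, V.velU_div i W hW]
  · fin_cases i <;> simp [velV] at hT <;> subst hT <;> rfl

lemma rateTerm_eval (ν : ℝ) (s : Fin 8) (n : ℤ) {t : ℝ} (h₁ : -3 / 20 ≤ t - n)
    (h₂ : t - n ≤ 21 / 20) (x : Fin 3 → ℝ) :
    evalL ν [rateTerm s] t x = rate (stB s) (t - n) := by
  have hs : 4 ≤ (stB s : ℝ) ∧ (stB s : ℝ) ≤ 32 := by
    fin_cases s <;> norm_num [stB]
  have e : (pulse (stB s)).pval t = rho (40 * (t - n) - stB s) := by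
    rw [Bump.pval, show t = (t - n) + (n:ℝ) by ring, periodize_add_int,
      periodize_single (l := ((stB s : ℝ) - 1) / 40) (h := ((stB s : ℝ) + 1) / 40),
      pulse_val]
    · ring_nf
    · intro r hr
      rw [pulse_val]
      apply rho_eq_zero
      rcases hr with hr | hr
      · rw [le_div_iff₀ (by norm_num)] at hr
        rw [abs_of_nonpos (by linarith)]; linarith
      · rw [div_le_iff₀ (by norm_num)] at hr
        rw [abs_of_nonneg (by linarith)]; linarith
    · linarith
    · linarith
  simp only [evalL, Term.val, rateTerm, Term.theta, tval, sval, e, rate, List.map_cons, List.map_nil,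
    List.sum_cons, List.sum_nil, List.prod_cons, List.prod_nil, if_true]
  push_cast
  rw [zpow_neg_one]
  ring

lemma evalL_velU (ν : ℝ) (i : Fin 3) (t : ℝ) (x : Fin 3 → ℝ) :
    evalL ν (V.velU i) t x = ∑ s : Fin 8,
      if stAxis s = i then evalL ν [rateTerm s] t x * evalL ν (V.stageTerms s) t x else 0 := by
  rw [velU, evalL_flatMap, Fin.sum_univ_def]
  congr 1
  refine List.map_congr_left fun s _ => ?_
  split_ifs
  · rw [evalL_mulL]
  · rfl

lemma velU_near_zero (ν : ℝ) (i : Fin 3) {t : ℝ} (h₁ : 17 / 20 < t) (h₂ : t < 21 / 20)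
    (x : Fin 3 → ℝ) : evalL ν (V.velU i) t x = 0 := by
  rw [V.evalL_velU]
  refine Finset.sum_eq_zero fun s _ => ?_
  split_ifs
  · rw [rateTerm_eval ν s 0 (by push_cast; linarith) (by push_cast; linarith), rate_eq_zero,
      zero_mul]
    right
    have : (stB s : ℝ) ≤ 32 := by fin_cases s <;> norm_num [stB]
    push_cast; linarith
  · rfl

lemma velV_eval (ν : ℝ) (k : ℕ) (t : ℝ) (x : Fin 3 → ℝ) (i : Fin 3) :
    evalL ν (V.velV k i) t x =
      ![(V.startX : ℝ) * rate 8 t, (V.startY k : ℝ) * rate 16 t, 0] i := by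
  fin_cases i <;> simp [velV, evalL, Term.val, Term.theta, tval, sval, pulse_val, rate] <;> ring

lemma velV_zero (ν : ℝ) (k : ℕ) {t : ℝ} (h : t ≤ 0 ∨ 1 / 2 ≤ t) (x : Fin 3 → ℝ) (i : Fin 3) :
    evalL ν (V.velV k i) t x = 0 := by
  rw [V.velV_eval]
  rw [rate_eq_zero, rate_eq_zero]
  · fin_cases i <;> simp
  all_goals
    rcases h with h | h
    · left; push_cast; linarith
    · right; push_cast; linarith

lemma vel_early (ν : ℝ) (k : ℕ) (i : Fin 3) {t : ℝ} (h₁ : -1 / 2 ≤ t) (h₂ : t ≤ 9 / 10)
    (x : Fin 3 → ℝ) : evalL ν (V.vel k i) t x = evalL ν (V.velV k i) t x := by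
  simp only [vel, evalL_append, evalL_scaleL, evalL_mulL, evalL_chi, chi_one h₁ h₂]
  field_simp [kappa_ne]
  push_cast
  ring

lemma vel_late (ν : ℝ) (k : ℕ) (i : Fin 3) {t : ℝ} (h : 17 / 20 < t) (x : Fin 3 → ℝ) :
    evalL ν (V.vel k i) t x = evalL ν (V.velU i) t x := by
  simp only [vel, evalL_append, evalL_scaleL, evalL_mulL, evalL_chi,
    V.velV_zero ν k (t := t) (Or.inr (by linarith)) x i]
  rcases lt_or_ge t 1 with h' | h'
  · rw [V.velU_near_zero ν i h (by linarith) x]; ring
  · rw [chi_zero h']; ring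

/-- The force as terms. -/
noncomputable def force (k : ℕ) (i : Fin 3) : List Term :=
  nsList V.velU i ++ scaleL (-1) 0 (mulL [chiTerm] (nsList V.velU i)) ++ dtL (V.velV k i)

lemma force_eq (ν : ℝ) (k : ℕ) (i : Fin 3) {t : ℝ} (ht : 0 ≤ t) (x : Fin 3 → ℝ) :
    evalL ν (V.force k i) t x = evalL ν (nsList (V.vel k) i) t x := by
  simp only [force, evalL_append, evalL_scaleL, evalL_mulL, evalL_chi]
  rcases lt_or_ge t (9/10) with h | h
  · have hev : ∀ᶠ s in 𝓝 t, ∀ j y,
        evalL ν (V.vel k j) s y = evalL ν (V.velV k j) s y := by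
      filter_upwards [isOpen_Ioo.mem_nhds (show t ∈ Ioo (-1/2:ℝ) (9/10) from
        ⟨by linarith, h⟩)] with s hs j y
      exact V.vel_early ν k j hs.1.le hs.2.le y
    rw [nsList_congr ν (V.vel_ok k) (V.velV_ok k) hev i x, chi_one (by linarith) h.le,
      evalL_nsList ν (V.velV k)]
    have hx : ∀ l, dxL l (V.velV k i) = [] := by
      intro l
      refine dxL_eq_nil fun T hT => ?_
      fin_cases i <;> simp [velV] at hT <;> subst hT <;> rfl
    simp only [hx]
    field_simp [kappa_ne]
    simp [evalL_nil, dxL]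
  · have hev : ∀ᶠ s in 𝓝 t, ∀ j y,
        evalL ν (V.vel k j) s y = evalL ν (V.velU j) s y := by
      filter_upwards [isOpen_Ioi.mem_nhds (show t ∈ Ioi (17/20:ℝ) by
        simp only [mem_Ioi]; linarith)] with s hs j y
      exact V.vel_late ν k j hs y
    rw [nsList_congr ν (V.vel_ok k) V.velU_ok hev i x]
    have hV : evalL ν (dtL (V.velV k i)) t x = 0 := by
      refine ((evalL_hasDerivAt_dt ν (V.velV_ok k i) t x).unique
        ((hasDerivAt_const t (0:ℝ)).congr_of_eventuallyEq ?_))
      filter_upwards [isOpen_Ioi.mem_nhds (show t ∈ Ioi (1/2:ℝ) by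
        simp only [mem_Ioi]; linarith)] with s hs
      exact V.velV_zero ν k (Or.inr (le_of_lt hs)) x i
    rw [hV]
    rcases lt_or_ge t 1 with h' | h'
    · have hev0 : ∀ᶠ s in 𝓝 t, ∀ j y,
          evalL ν (V.velU j) s y = evalL ν ((fun _ : Fin 3 => ([] : List Term)) j) s y := by
        filter_upwards [isOpen_Ioo.mem_nhds (show t ∈ Ioo (17/20:ℝ) (21/20) from
          ⟨by linarith, by linarith⟩)] with s hs j y
        exact V.velU_near_zero ν j hs.1 hs.2 y
      rw [nsList_congr ν V.velU_ok (fun _ => by intro T hT; simp at hT) hev0 i x, evalL_nsList]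
      simp [dtL, dxL, evalL_nil]
    · rw [chi_zero h']; ring

/-- Numerators of the values of the replicated stacks. -/
def valNum (B d l : ℕ) : ℕ → ℕ
  | 0 => l
  | k + 1 => d * B ^ (k + 1) + valNum B d l k

lemma val_replicate (k : ℕ) :
    V.val (List.replicate k V.digit ++ [V.last]) =
      (valNum V.base (V.dig V.digit) (V.dig V.last) k : ℚ) / (V.base : ℚ) ^ (k + 1) := by
  induction k with
  | zero => simp [val, valNum, beta]; ring
  | succ k ih =>
    have := V.base_pos.ne'
    simp only [List.replicate_succ, List.cons_append, val, ih, valNum, beta]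
    push_cast
    field_simp
    ring

/-- The numerator of `val (startR k)`. -/
noncomputable def startNum (k : ℕ) : ℕ :=
  V.dig V.first * V.base ^ (k + 1) + valNum V.base (V.dig V.digit) (V.dig V.last) k

lemma val_startR (k : ℕ) : V.val (V.startR k) = (V.startNum k : ℚ) / (V.base : ℚ) ^ (k + 2) := by
  have := V.base_pos.ne'
  simp only [startR, val, V.val_replicate, startNum, beta]
  push_cast
  field_simp
  ring

/-- The code of the loading term depending on the input. -/
noncomputable def loadY (k : ℕ) : TermCode :=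
  ((((1600 * V.startNum k : ℕ) : ℤ), 4 * V.ext * V.base ^ (k + 2)), 0, -1, [],
    [(false, (Sum.inl 1, 0, (40, 1), (16, 1)))], [], [], [])

/-- The code of the constant loading term. -/
noncomputable def loadX : TermCode :=
  (ratCode (1600 * V.startX), 0, -1, [], [(false, (Sum.inl 1, 0, (40, 1), (8, 1)))], [], [], [])

/-- The part of the force code that does not depend on the input. -/
noncomputable def fixedCode (i : Fin 3) : List TermCode :=
  (nsList V.velU i ++ scaleL (-1) 0 (mulL [chiTerm] (nsList V.velU i))).map Term.code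

/-- The force code for input number `k`. -/
noncomputable def forceCode (k : ℕ) : ForceCode :=
  (V.fixedCode 0 ++ [V.loadX], V.fixedCode 1 ++ [V.loadY k], V.fixedCode 2)

lemma loadY_coeff (k : ℕ) :
    ratVal (((1600 * V.startNum k : ℕ) : ℤ), 4 * V.ext * V.base ^ (k + 2))
      = 1600 * (V.startY k : ℝ) := by
  have h1 : (V.base : ℝ) ≠ 0 := by
    have := V.base_pos.ne'
    exact_mod_cast this
  have h2 : (V.ext : ℝ) ≠ 0 := by
    have : V.ext ≠ 0 := by simp [ext]
    exact_mod_cast this
  simp only [ratVal, startY, V.val_startR, w]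
  push_cast
  field_simp

lemma forceVal_code (ν : ℝ) (k : ℕ) (t : ℝ) (x : Fin 3 → ℝ) (i : Fin 3) :
    forceVal ν (V.forceCode k) t x i = evalL ν (V.force k i) t x := by
  have hfix : ((V.fixedCode i).map fun c => termVal ν c t x).sum =
      evalL ν (nsList V.velU i ++ scaleL (-1) 0 (mulL [chiTerm] (nsList V.velU i))) t x := by
    simp [fixedCode, evalL, Function.comp_def, termVal_code]
  fin_cases i
  · simp only [forceVal, forceList, forceCode, Fin.zero_eta, Matrix.cons_val_zero, List.map_append,
      List.sum_append, force, evalL_append] at hfix ⊢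
    rw [hfix]
    congr 1
    simp [loadX, termVal, termTheta, termTimeList, timeFactor, spaceVal, bumpVal, velV, dtL,
      Term.dt, derList, tdb, Bump.d, Bump.dBase, pulse, evalL, Term.val, Term.theta, tval, sval,
      Bump.val, kindVal, ratVal_ratCode, show ratVal (40, 1) = 40 by norm_num [ratVal],
      show ratVal (8, 1) = 8 by norm_num [ratVal]]
    ring_nf
    simp
  · simp only [forceVal, forceList, forceCode, Fin.mk_one, Matrix.cons_val_one, Matrix.cons_val_zero,
      List.map_append, List.sum_append, force, evalL_append] at hfix ⊢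
    rw [hfix]
    congr 1
    have := V.loadY_coeff k
    simp [loadY, termVal, termTheta, termTimeList, timeFactor, spaceVal, bumpVal, velV, dtL,
      Term.dt, derList, tdb, Bump.d, Bump.dBase, pulse, evalL, Term.val, Term.theta, tval, sval,
      Bump.val, kindVal]
    rw [show ratVal ((1600 * (V.startNum k : ℤ)), 4 * V.ext * V.base ^ (k + 2))
      = 1600 * (V.startY k : ℝ) by simpa using this]
    simp [ratVal]
    ring_nf
    simp
  · simp only [forceVal, forceList, forceCode, Fin.reduceFinMk, Matrix.cons_val, force,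
      evalL_append] at hfix ⊢
    rw [hfix]
    simp [velV, dtL, evalL_nil]

lemma forceCode_valid (k : ℕ) (i : Fin 3) : ∀ c ∈ forceList (V.forceCode k) i, TermValid c := by
  have hfix : ∀ j, ∀ c ∈ V.fixedCode j, TermValid c := by
    intro j c hc
    simp only [fixedCode, List.mem_map] at hc
    obtain ⟨T, hT, rfl⟩ := hc
    exact termValid_code ((((OkL.ns V.velU_ok j)).append
      ((chiTerm_ok.mul (OkL.ns V.velU_ok j)).scale _ _)) T hT)
  have hX : TermValid V.loadX := by
    refine ⟨(1600 * V.startX).den_ne_zero, by simp, ?_, by simp, by simp, by simp⟩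
    intro b hb
    simp only [List.mem_singleton] at hb
    subst hb
    exact ⟨by norm_num, by norm_num, by norm_num [ratVal]⟩
  have hY : TermValid (V.loadY k) := by
    refine ⟨?_, by simp, ?_, by simp, by simp, by simp⟩
    · simp [ext, base]
    · intro b hb
      simp only [List.mem_singleton] at hb
      subst hb
      exact ⟨by norm_num, by norm_num, by norm_num [ratVal]⟩
  intro c hc
  fin_cases i <;> simp [forceList, forceCode] at hc
  · rcases hc with hc | rfl
    · exact hfix _ c hc
    · exact hX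
  · rcases hc with hc | rfl
    · exact hfix _ c hc
    · exact hY
  · exact hfix _ c hc

lemma fixedCode_vanish (i : Fin 3) : ∀ c ∈ V.fixedCode i, isPeriodicTerm c = false →
    ∀ t : ℝ, 2 ≤ t → termTheta c t = 0 := by
  intro c hc hnp t ht
  simp only [fixedCode, List.map_append, List.mem_append, List.mem_map] at hc
  rcases hc with ⟨T, hT, rfl⟩ | ⟨T, hT, rfl⟩
  · exfalso
    have hall : T.time.all (fun p => p.1) = true :=
      List.all_eq_true.2 (PerL.ns V.velU_per i T hT)
    rw [isPeriodicTerm_code, hall] at hnp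
    simp at hnp
  · simp only [scaleL, mulL, List.flatMap_cons, List.flatMap_nil, List.append_nil,
      List.mem_map] at hT
    obtain ⟨U, ⟨W, -, rfl⟩, rfl⟩ := hT
    rw [termTheta_code]
    simp [Term.theta, Term.scale, Term.mul, chiTerm, tval, chi_zero (show (1:ℝ) ≤ t by linarith)]

lemma forceCode_vanish (k : ℕ) (i : Fin 3) : ∀ c ∈ forceList (V.forceCode k) i,
    isPeriodicTerm c = false → ∀ t : ℝ, 2 ≤ t → termTheta c t = 0 := by
  intro c hc hnp t ht
  have hload : ∀ b : ℤ, b ≤ 16 → iteratedDeriv 1 rho (40 * t - b) = 0 := by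
    intro b hb
    refine iteratedDeriv_rho_eq_zero 1 ?_
    have : (b:ℝ) ≤ 16 := by exact_mod_cast hb
    rw [abs_of_nonneg (by linarith)]
    linarith
  fin_cases i <;> simp [forceList, forceCode] at hc
  · rcases hc with hc | rfl
    · exact V.fixedCode_vanish _ c hc hnp t ht
    · simpa [loadX, termTheta, termTimeList, timeFactor, bumpVal, ratVal] using
        hload 8 (by norm_num)
  · rcases hc with hc | rfl
    · exact V.fixedCode_vanish _ c hc hnp t ht
    · simpa [loadY, termTheta, termTimeList, timeFactor, bumpVal, ratVal] using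
        hload 16 (by norm_num)
  · exact V.fixedCode_vanish _ c hc hnp t ht

lemma periodicPart_forceCode (k k' : ℕ) (i : Fin 3) :
    periodicPart (V.forceCode k) i = periodicPart (V.forceCode k') i := by
  fin_cases i <;>
    simp [periodicPart, forceList, forceCode, List.filter_append, loadY, isPeriodicTerm,
      termTimeList]

end RevMachine

end Vale.Agent.P113
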