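import Vale.Agent.P113.Defs

/-!
A reversible two-stack system simulating a TM0 machine: rule identities are carried to the right
end marker and stored beyond it, so both the domain and the range blocks of the rules are
pairwise separated.
-/

namespace Vale.Agent.P113

open Turing StateTransition

/-- Two lists differ at a position present in both. -/
def Sep {α : Type} : List α → List α → Prop
  | a :: p, b :: q => a ≠ b ∨ Sep p q
  | _, _ => False

lemma Sep.symm {α : Type} : ∀ {p q : List α}, Sep p q → Sep q p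
  | a :: p, b :: q, h => h.elim (fun h => Or.inl h.symm) (fun h => Or.inr (Sep.symm h))
  | [], _, h => (by simp [Sep] at h)
  | _ :: _, [], h => (by simp [Sep] at h)

lemma not_sep_append {α : Type} : ∀ {p q a b : List α}, Sep p q → p ++ a ≠ q ++ b
  | a :: p, b :: q, x, y, h => by
    intro e
    simp only [List.cons_append, List.cons.injEq] at e
    rcases h with h | h
    · exact h e.1
    · exact not_sep_append h e.2
  | [], _, _, _, h => (by simp [Sep] at h)
  | _ :: _, [], _, _, h => (by simp [Sep] at h)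

/-- A pattern: control state and prefixes of both stacks. -/
structure Pat (St Sy : Type) where
  st : St
  l : List Sy
  r : List Sy

/-- Separated patterns. -/
def PatSep {St Sy : Type} (P Q : Pat St Sy) : Prop := P.st ≠ Q.st ∨ Sep P.l Q.l ∨ Sep P.r Q.r

/-- A stack system with separated domain blocks and separated range blocks. -/
structure StackSys (St Sy ι : Type) where
  src : ι → Pat St Sy
  dst : ι → Pat St Sy
  src_sep : ∀ r r', r ≠ r' → PatSep (src r) (src r')
  dst_sep : ∀ r r', r ≠ r' → PatSep (dst r) (dst r')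

/-- One step. -/
def StackSys.Step {St Sy ι : Type} (Y : StackSys St Sy ι) (c d : Pat St Sy) : Prop :=
  ∃ r l₀ r₀, c = ⟨(Y.src r).st, (Y.src r).l ++ l₀, (Y.src r).r ++ r₀⟩ ∧
    d = ⟨(Y.dst r).st, (Y.dst r).l ++ l₀, (Y.dst r).r ++ r₀⟩

lemma StackSys.step_unique {St Sy ι : Type} (Y : StackSys St Sy ι) {c d d' : Pat St Sy}
    (h : Y.Step c d) (h' : Y.Step c d') : d = d' := by
  obtain ⟨r, a, b, rfl, rfl⟩ := h
  obtain ⟨r', a', b', e, rfl⟩ := h'
  simp only [Pat.mk.injEq] at e
  by_cases hr : r = r'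
  · subst hr
    rw [List.append_cancel_left e.2.1, List.append_cancel_left e.2.2]
  · rcases Y.src_sep r r' hr with h | h | h
    · exact absurd e.1 h
    · exact absurd e.2.1 (not_sep_append h)
    · exact absurd e.2.2 (not_sep_append h)

/-- A universal reversible system: on the `k`-th start configuration it reaches the halt state iff
`P k` holds. -/
structure RevMachine (P : ℕ → Prop) where
  St : Type
  Sy : Type
  ι : Type
  finSt : Fintype St
  finSy : Fintype Sy
  finι : Fintype ι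
  Y : StackSys St Sy ι
  start : St
  halt : St
  start_ne_halt : start ≠ halt
  src_ne_halt_or_loop : ∀ r, (Y.src r).st = halt → (Y.dst r).st = halt
  startL : List Sy
  first : Sy
  digit : Sy
  last : Sy
  run : ∀ k, ∃ C : ℕ → Pat St Sy,
    C 0 = ⟨start, startL, first :: (List.replicate k digit ++ [last])⟩ ∧
      (∀ n, Y.Step (C n) (C (n + 1))) ∧ ((∃ n, (C n).st = halt) ↔ P k)

section Construction

variable {Γ Λ : Type} [Inhabited Γ] [Inhabited Λ] (M : TM0.Machine Γ Λ) (S : Finset Λ)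

/-- Rule labels. -/
abbrev RId (Γ : Type) {Λ : Type} (S : Finset Λ) : Type := {q // q ∈ S} × Option Γ × Option Γ

/-- Stack symbols: cells, left end, right end, mark, history. -/
inductive RSym (Γ I : Type) where
  | cell (a : Γ)
  | bot
  | dol
  | mark
  | hist (i : I)

/-- Control states other than halt. -/
inductive RCtl (Q I : Type) where
  | ready (q : Q)
  | toRight (q : Q) (i : I)
  | back (q : Q)

/-- States: `none` is halt. -/
abbrev RSt (Γ : Type) {Λ : Type} (S : Finset Λ) : Type := Option (RCtl {q // q ∈ S} (RId Γ S))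

/-- Symbols. -/
abbrev RSy (Γ : Type) {Λ : Type} (S : Finset Λ) : Type := RSym Γ (RId Γ S)

/-- Rules. -/
inductive RRule (Γ : Type) {Λ : Type} (S : Finset Λ) where
  | fire (i : RId Γ S)
  | rloop (q : {q // q ∈ S}) (i : RId Γ S) (a : Γ)
  | rdol (q : {q // q ∈ S}) (i : RId Γ S)
  | bloop (q : {q // q ∈ S}) (a : Γ)
  | bend (q : {q // q ∈ S})
  | hloop

instance RSym.finite {Γ I : Type} [Finite Γ] [Finite I] : Finite (RSym Γ I) :=
  Finite.of_surjective (fun x : Γ ⊕ I ⊕ Fin 3 => match x with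
    | Sum.inl a => RSym.cell a
    | Sum.inr (Sum.inl i) => RSym.hist i
    | Sum.inr (Sum.inr 0) => RSym.bot
    | Sum.inr (Sum.inr 1) => RSym.dol
    | Sum.inr (Sum.inr 2) => RSym.mark)
    fun x => by
      cases x with
      | cell a => exact ⟨Sum.inl a, rfl⟩
      | bot => exact ⟨Sum.inr (Sum.inr 0), rfl⟩
      | dol => exact ⟨Sum.inr (Sum.inr 1), rfl⟩
      | mark => exact ⟨Sum.inr (Sum.inr 2), rfl⟩
      | hist i => exact ⟨Sum.inr (Sum.inl i), rfl⟩

instance RCtl.finite {Q I : Type} [Finite Q] [Finite I] : Finite (RCtl Q I) :=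
  Finite.of_surjective (fun x : Q ⊕ (Q × I) ⊕ Q => match x with
    | Sum.inl q => RCtl.ready q
    | Sum.inr (Sum.inl p) => RCtl.toRight p.1 p.2
    | Sum.inr (Sum.inr q) => RCtl.back q)
    fun x => by
      cases x with
      | ready q => exact ⟨Sum.inl q, rfl⟩
      | toRight q i => exact ⟨Sum.inr (Sum.inl (q, i)), rfl⟩
      | back q => exact ⟨Sum.inr (Sum.inr q), rfl⟩

instance RRule.finite {Γ Λ : Type} [Finite Γ] (S : Finset Λ) : Finite (RRule Γ S) :=
  Finite.of_surjective
    (fun x : RId Γ S ⊕ ({q // q ∈ S} × RId Γ S × Γ) ⊕ ({q // q ∈ S} × RId Γ S) ⊕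
      ({q // q ∈ S} × Γ) ⊕ {q // q ∈ S} ⊕ Unit => match x with
    | Sum.inl i => RRule.fire i
    | Sum.inr (Sum.inl p) => RRule.rloop p.1 p.2.1 p.2.2
    | Sum.inr (Sum.inr (Sum.inl p)) => RRule.rdol p.1 p.2
    | Sum.inr (Sum.inr (Sum.inr (Sum.inl p))) => RRule.bloop p.1 p.2
    | Sum.inr (Sum.inr (Sum.inr (Sum.inr (Sum.inl q)))) => RRule.bend q
    | Sum.inr (Sum.inr (Sum.inr (Sum.inr (Sum.inr ())))) => RRule.hloop)
    fun x => by
      cases x with
      | fire i => exact ⟨Sum.inl i, rfl⟩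
      | rloop q i a => exact ⟨Sum.inr (Sum.inl (q, i, a)), rfl⟩
      | rdol q i => exact ⟨Sum.inr (Sum.inr (Sum.inl (q, i))), rfl⟩
      | bloop q a => exact ⟨Sum.inr (Sum.inr (Sum.inr (Sum.inl (q, a)))), rfl⟩
      | bend q => exact ⟨Sum.inr (Sum.inr (Sum.inr (Sum.inr (Sum.inl q)))), rfl⟩
      | hloop => exact ⟨Sum.inr (Sum.inr (Sum.inr (Sum.inr (Sum.inr ())))), rfl⟩

/-- The visible top: a cell or the end marker `e`. -/
def top {I : Type} (e : RSym Γ I) : Option Γ → RSym Γ I
  | some a => RSym.cell a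
  | none => e

/-- The marker to restore. -/
def endOf {I : Type} (e : RSym Γ I) : Option Γ → List (RSym Γ I)
  | some _ => []
  | none => [e]

/-- Effect of a TM0 statement on the visible parts of the two half-tapes. -/
def act : TM0.Stmt Γ → List Γ → List Γ → List Γ × List Γ
  | .write a, lx, ry => (lx, a :: ry.tail)
  | .move .right, lx, ry => (ry.headI :: lx, ry.tail)
  | .move .left, lx, ry => (lx.tail, lx.headI :: ry)

/-- Source blocks. -/
def rsrc : RRule Γ S → Pat (RSt Γ S) (RSy Γ S)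
  | .fire i => ⟨some (.ready i.1), [top .bot i.2.1], [top .dol i.2.2]⟩
  | .rloop q i a => ⟨some (.toRight q i), [], [.cell a]⟩
  | .rdol q i => ⟨some (.toRight q i), [], [.dol]⟩
  | .bloop q a => ⟨some (.back q), [.cell a], []⟩
  | .bend q => ⟨some (.back q), [.mark], []⟩
  | .hloop => ⟨none, [], []⟩

/-- The symbol under the head in a rule. -/
def scanned (i : RId Γ S) : Γ := i.2.2.getD default

/-- Target blocks. -/
def rdst (hS : ∀ {q a q' s}, (q', s) ∈ M q a → q ∈ S → q' ∈ S) :
    RRule Γ S → Pat (RSt Γ S) (RSy Γ S)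
  | .fire i =>
    match h : M i.1.1 (scanned S i) with
    | none => ⟨none, [.hist i, top .bot i.2.1], [top .dol i.2.2]⟩
    | some (q', s) =>
      ⟨some (.toRight ⟨q', hS h i.1.2⟩ i),
        .mark :: (act s i.2.1.toList i.2.2.toList).1.map .cell ++ endOf .bot i.2.1,
        (act s i.2.1.toList i.2.2.toList).2.map .cell ++ endOf .dol i.2.2⟩
  | .rloop q i a => ⟨some (.toRight q i), [.cell a], []⟩
  | .rdol q i => ⟨some (.back q), [], [.dol, .hist i]⟩
  | .bloop q a => ⟨some (.back q), [], [.cell a]⟩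
  | .bend q => ⟨some (.ready q), [], []⟩
  | .hloop => ⟨none, [.mark], []⟩

variable {S}

lemma top_injective {I : Type} {e : RSym Γ I} (he : ∀ a, e ≠ RSym.cell a) :
    Function.Injective (top e : Option Γ → RSym Γ I) := by
  intro x y h
  cases x <;> cases y <;> simp_all [top]
  all_goals exact absurd h.symm (he _)

lemma rsrc_sep (r r' : RRule Γ S) (h : r ≠ r') : PatSep (rsrc S r) (rsrc S r') := by
  have hb : Function.Injective (top RSym.bot : Option Γ → RSy Γ S) := top_injective (by simp)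
  have hd : Function.Injective (top RSym.dol : Option Γ → RSy Γ S) := top_injective (by simp)
  cases r <;> cases r' <;> simp_all [rsrc, PatSep, Sep]
  case fire.fire i i' =>
    obtain ⟨q, x, y⟩ := i
    obtain ⟨q', x', y'⟩ := i'
    by_contra hc
    push Not at hc
    exact h (Prod.ext hc.1 (Prod.ext (hb hc.2.1) (hd hc.2.2)))
  all_goals tauto

lemma rdst_sep (hS : ∀ {q a q' s}, (q', s) ∈ M q a → q ∈ S → q' ∈ S) (r r' : RRule Γ S)
    (h : r ≠ r') : PatSep (rdst M S hS r) (rdst M S hS r') := by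
  have fire_cases : ∀ i, (∃ l rr, rdst M S hS (.fire i) = ⟨none, RSym.hist i :: l, rr⟩) ∨
      (∃ q l rr, rdst M S hS (.fire i) = ⟨some (.toRight q i), RSym.mark :: l, rr⟩) := by
    intro i
    simp only [rdst]
    split
    · exact Or.inl ⟨_, _, rfl⟩
    · exact Or.inr ⟨_, _, _, rfl⟩
  cases r with
  | fire i =>
    cases r' with
    | fire i' =>
      have hi : i ≠ i' := fun e => h (by rw [e])
      rcases fire_cases i with ⟨l, rr, e⟩ | ⟨q, l, rr, e⟩ <;>
        rcases fire_cases i' with ⟨l', rr', e'⟩ | ⟨q', l', rr', e'⟩ <;>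
        rw [e, e'] <;> simp [PatSep, Sep, hi]
    | _ => rcases fire_cases i with ⟨l, rr, e⟩ | ⟨q, l, rr, e⟩ <;>
        rw [e] <;> simp [rdst, PatSep, Sep]
  | _ =>
    cases r' with
    | fire i' => rcases fire_cases i' with ⟨l', rr', e'⟩ | ⟨q', l', rr', e'⟩ <;>
        rw [e'] <;> simp [rdst, PatSep, Sep]
    | _ => clear fire_cases; simp_all [rdst, PatSep, Sep] <;> tauto

/-- The system. -/
def rsys (hS : ∀ {q a q' s}, (q', s) ∈ M q a → q ∈ S → q' ∈ S) :
    StackSys (RSt Γ S) (RSy Γ S) (RRule Γ S) where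
  src := rsrc S
  dst := rdst M S hS
  src_sep := rsrc_sep
  dst_sep := rdst_sep M hS

/-- A tape from two half-tapes. -/
def tapeOf (l r : List Γ) : Tape Γ := Tape.mk' (ListBlank.mk l) (ListBlank.mk r)

lemma tapeOf_head (l r : List Γ) : (tapeOf l r).1 = r.headI := by
  rw [tapeOf, Tape.mk'_head, ListBlank.head_mk]

lemma tapeOf_move (s : TM0.Stmt Γ) (x y : Option Γ) (l₀ r₀ : List Γ) (hx : x = none → l₀ = [])
    (hy : y = none → r₀ = []) :
    (match s with
      | TM0.Stmt.move d => (tapeOf (x.toList ++ l₀) (y.toList ++ r₀)).move d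
      | TM0.Stmt.write a => (tapeOf (x.toList ++ l₀) (y.toList ++ r₀)).write a) =
      tapeOf ((act s x.toList y.toList).1 ++ l₀) ((act s x.toList y.toList).2 ++ r₀) := by
  rcases s with ⟨_ | _⟩ | a <;> rcases x with _ | x <;> rcases y with _ | y <;>
    simp only [forall_const, reduceCtorEq, false_implies] at hx hy <;>
    simp [tapeOf, act, hx, hy, Tape.move_left_mk', Tape.move_right_mk', Tape.write_mk',
      ListBlank.head_mk, ListBlank.tail_mk, ListBlank.cons_mk]

/-- Invariant: the configuration encodes a reachable TM0 configuration. -/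
def Good (start : TM0.Cfg Γ Λ) : Pat (RSt Γ S) (RSy Γ S) → Prop
  | ⟨none, _, _⟩ => (StateTransition.eval (TM0.step M) start).Dom
  | ⟨some (.ready q), L, R⟩ => ∃ (l r : List Γ) (H : List (RSy Γ S)),
      L = l.map .cell ++ [.bot] ∧ R = r.map .cell ++ .dol :: H ∧
      Reaches (TM0.step M) start ⟨q.1, tapeOf l r⟩
  | ⟨some (.toRight q _), L, R⟩ => ∃ (l₁ l r : List Γ) (H : List (RSy Γ S)),
      L = l₁.map .cell ++ .mark :: (l.map .cell ++ [.bot]) ∧ R = r.map .cell ++ .dol :: H ∧
      Reaches (TM0.step M) start ⟨q.1, tapeOf l (l₁.reverse ++ r)⟩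
  | ⟨some (.back q), L, R⟩ => ∃ (l₁ l r : List Γ) (H : List (RSy Γ S)),
      L = l₁.map .cell ++ .mark :: (l.map .cell ++ [.bot]) ∧ R = r.map .cell ++ .dol :: H ∧
      Reaches (TM0.step M) start ⟨q.1, tapeOf l (l₁.reverse ++ r)⟩

variable (hS : ∀ {q a q' s}, (q', s) ∈ M q a → q ∈ S → q' ∈ S)

lemma fire_step (q : {q // q ∈ S}) (l r : List Γ) (H : List (RSy Γ S)) :
    ∃ d, (rsys M hS).Step ⟨some (.ready q), l.map .cell ++ [.bot], r.map .cell ++ .dol :: H⟩ d ∧
      ((M q.1 r.headI = none ∧ d.st = none) ∨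
        ∃ i q' s l' r', M q.1 r.headI = some (q'.1, s) ∧
          d = ⟨some (.toRight q' i), .mark :: (l'.map .cell ++ [.bot]),
            r'.map .cell ++ .dol :: H⟩ ∧
          TM0.step M ⟨q.1, tapeOf l r⟩ = some ⟨q'.1, tapeOf l' r'⟩) := by
  obtain ⟨x, l₀, hl, hx⟩ : ∃ (x : Option Γ) (l₀ : List Γ), l = x.toList ++ l₀ ∧
      (x = none → l₀ = []) := by
    cases l with
    | nil => exact ⟨none, [], rfl, fun _ => rfl⟩
    | cons a l => exact ⟨some a, l, rfl, by simp⟩
  obtain ⟨y, r₀, hr, hy⟩ : ∃ (y : Option Γ) (r₀ : List Γ), r = y.toList ++ r₀ ∧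
      (y = none → r₀ = []) := by
    cases r with
    | nil => exact ⟨none, [], rfl, fun _ => rfl⟩
    | cons a r => exact ⟨some a, r, rfl, by simp⟩
  have hhead : scanned S (q, x, y) = r.headI := by
    cases y <;> simp [scanned, hr, hy]
  obtain ⟨L₀, hL⟩ : ∃ L₀, l.map RSym.cell ++ [RSym.bot] = top (RSym.bot : RSy Γ S) x :: L₀ ∧
      endOf (RSym.bot : RSy Γ S) x ++ L₀ = l₀.map RSym.cell ++ [RSym.bot] := by
    cases x with
    | none => exact ⟨[], by simp [hl, hx, top, endOf]⟩
    | some a => exact ⟨l₀.map RSym.cell ++ [RSym.bot], by simp [hl, top, endOf]⟩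
  obtain ⟨R₀, hR⟩ : ∃ R₀, r.map RSym.cell ++ RSym.dol :: H = top (RSym.dol : RSy Γ S) y :: R₀ ∧
      endOf (RSym.dol : RSy Γ S) y ++ R₀ = r₀.map RSym.cell ++ RSym.dol :: H := by
    cases y with
    | none => exact ⟨H, by simp [hr, hy, top, endOf]⟩
    | some a => exact ⟨r₀.map RSym.cell ++ RSym.dol :: H, by simp [hr, top, endOf]⟩
  refine ⟨⟨(rdst M S hS (.fire (q, x, y))).st, (rdst M S hS (.fire (q, x, y))).l ++ L₀,
    (rdst M S hS (.fire (q, x, y))).r ++ R₀⟩, ⟨.fire (q, x, y), L₀, R₀, ?_, rfl⟩, ?_⟩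
  · simp [rsys, rsrc, hL.1, hR.1]
  · simp only [rdst]
    split
    · rename_i h
      exact Or.inl ⟨by rw [← hhead]; exact h, rfl⟩
    · rename_i q' s h
      right
      refine ⟨(q, x, y), ⟨q', hS h q.2⟩, s, (act s x.toList y.toList).1 ++ l₀,
        (act s x.toList y.toList).2 ++ r₀, ?_, ?_, ?_⟩
      · rw [← hhead]; exact h
      · simp [hL.2, hR.2, List.append_assoc]
      · have h' : M q.1 r.headI = some (q', s) := by rw [← hhead]; exact h
        simp only [TM0.step, tapeOf_head, h', Option.map_some]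
        rw [hl, hr, ← tapeOf_move s x y l₀ r₀ hx hy]
        cases s <;> rfl

lemma good_step (start : TM0.Cfg Γ Λ) (c : Pat (RSt Γ S) (RSy Γ S)) (hc : Good M start c) :
    ∃ d, (rsys M hS).Step c d ∧ Good M start d := by
  obtain ⟨st, L, R⟩ := c
  rcases st with _ | ⟨q | ⟨q, i⟩ | q⟩
  · exact ⟨⟨none, .mark :: L, R⟩, ⟨.hloop, L, R, rfl, rfl⟩, hc⟩
  · obtain ⟨l, r, H, rfl, rfl, hreach⟩ := hc
    obtain ⟨d, hd, hcase⟩ := fire_step M hS q l r H
    refine ⟨d, hd, ?_⟩
    rcases hcase with ⟨hn, hst⟩ | ⟨i, q', s, l', r', -, rfl, hstep⟩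
    · obtain ⟨dst, dl, dr⟩ := d
      simp only at hst
      subst hst
      refine Part.dom_iff_mem.2 ⟨_, mem_eval.2 ⟨hreach, ?_⟩⟩
      simp [TM0.step, tapeOf_head, hn]
    · exact ⟨[], l', r', H, by simp, rfl, hreach.tail hstep⟩
  · obtain ⟨l₁, l, r, H, rfl, rfl, hreach⟩ := hc
    cases r with
    | nil =>
      refine ⟨⟨some (.back q), _, [.dol, .hist i] ++ H⟩, ⟨.rdol q i, _, H, ?_, rfl⟩,
        l₁, l, [], .hist i :: H, rfl, rfl, hreach⟩
      simp [rsys, rsrc]
    | cons a r =>
      refine ⟨⟨some (.toRight q i), [.cell a] ++ _, r.map .cell ++ .dol :: H⟩,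
        ⟨.rloop q i a, l₁.map .cell ++ .mark :: (l.map .cell ++ [.bot]), r.map .cell ++ .dol :: H, ?_, rfl⟩, a :: l₁, l, r, H, rfl, rfl, by simpa using hreach⟩
      simp [rsys, rsrc]
  · obtain ⟨l₁, l, r, H, rfl, rfl, hreach⟩ := hc
    cases l₁ with
    | nil =>
      refine ⟨⟨some (.ready q), l.map .cell ++ [.bot], r.map .cell ++ .dol :: H⟩,
        ⟨.bend q, l.map .cell ++ [.bot], r.map .cell ++ .dol :: H, ?_, rfl⟩, l, r, H, rfl, rfl, by simpa using hreach⟩
      simp [rsys, rsrc]
    | cons a l₁ =>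
      refine ⟨⟨some (.back q), _, [.cell a] ++ (r.map .cell ++ .dol :: H)⟩,
        ⟨.bloop q a, l₁.map .cell ++ .mark :: (l.map .cell ++ [.bot]), _, ?_, rfl⟩,
        l₁, l, a :: r, H, rfl, rfl, by simpa using hreach⟩
      simp [rsys, rsrc]

lemma sweep_back (q : {q // q ∈ S}) (l : List Γ) (l₁ : List Γ) (r : List Γ) (H : List (RSy Γ S)) :
    Relation.ReflTransGen (rsys M hS).Step
      ⟨some (.back q), l₁.map .cell ++ .mark :: (l.map .cell ++ [.bot]),
        r.map .cell ++ .dol :: H⟩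
      ⟨some (.ready q), l.map .cell ++ [.bot], (l₁.reverse ++ r).map .cell ++ .dol :: H⟩ := by
  induction l₁ generalizing r with
  | nil => exact .single ⟨.bend q, l.map .cell ++ [.bot], r.map .cell ++ .dol :: H,
      by simp [rsys, rsrc], by simp [rsys, rdst]⟩
  | cons a l₁ ih =>
    refine .head ⟨.bloop q a, l₁.map .cell ++ .mark :: (l.map .cell ++ [.bot]), _,
      by simp [rsys, rsrc]; rfl, rfl⟩ ?_
    simpa [rsys, rdst] using! ih (a :: r)

lemma sweep_right (q : {q // q ∈ S}) (i : RId Γ S) (l r : List Γ) (l₁ : List Γ)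
    (H : List (RSy Γ S)) :
    Relation.ReflTransGen (rsys M hS).Step
      ⟨some (.toRight q i), l₁.map .cell ++ .mark :: (l.map .cell ++ [.bot]),
        r.map .cell ++ .dol :: H⟩
      ⟨some (.ready q), l.map .cell ++ [.bot],
        (l₁.reverse ++ r).map .cell ++ .dol :: .hist i :: H⟩ := by
  induction r generalizing l₁ with
  | nil =>
    refine .head ⟨.rdol q i, _, H, by simp [rsys, rsrc]; rfl, rfl⟩ ?_
    exact sweep_back M hS q l l₁ [] (.hist i :: H)
  | cons a r ih =>
    refine .head ⟨.rloop q i a, _, r.map .cell ++ .dol :: H, by simp [rsys, rsrc]; rfl, rfl⟩ ?_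
    simpa [rsys, rdst] using! ih (a :: l₁)

lemma reaches_halt {a b : TM0.Cfg Γ Λ} (hb : b ∈ StateTransition.eval (TM0.step M) a) :
    ∀ (q : {q // q ∈ S}) (l r : List Γ) (H : List (RSy Γ S)), a = ⟨q.1, tapeOf l r⟩ →
      ∃ d, Relation.ReflTransGen (rsys M hS).Step
        ⟨some (.ready q), l.map .cell ++ [.bot], r.map .cell ++ .dol :: H⟩ d ∧ d.st = none := by
  refine evalInduction hb ?_
  intro a _ ih q l r H ha
  obtain ⟨d, hd, hcase⟩ := fire_step M hS q l r H
  rcases hcase with ⟨-, hst⟩ | ⟨i, q', s, l', r', -, rfl, hstep⟩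
  · exact ⟨d, .single hd, hst⟩
  · obtain ⟨e, he, hst⟩ := ih _ (ha ▸ hstep) q' l' r' (.hist i :: H) rfl
    refine ⟨e, .head hd ?_, hst⟩
    have := sweep_right M hS q' i l' r' [] H
    simp only [List.map_nil, List.nil_append, List.reverse_nil] at this
    exact this.trans he

end Construction

/-- From a finite TM0 machine on unary inputs to a reversible stack system. -/
theorem exists_revMachine {Γ Λ : Type} [Inhabited Γ] [Inhabited Λ] [Fintype Γ]
    (M : TM0.Machine Γ Λ) (S : Finset Λ) (ss : TM0.Supports M ↑S) (first digit : Γ) :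
    Nonempty (RevMachine fun k =>
      (StateTransition.eval (TM0.step M) (TM0.init (first :: List.replicate k digit))).Dom) := by
  have hS : ∀ {q a q' s}, (q', s) ∈ M q a → q ∈ S → q' ∈ S := fun h hq => ss.2 h hq
  have hq₀ : (default : Λ) ∈ S := ss.1
  refine ⟨⟨RSt Γ S, RSy Γ S, RRule Γ S, Fintype.ofFinite _, Fintype.ofFinite _, Fintype.ofFinite _,
    rsys M hS, some (.ready ⟨default, hq₀⟩), none, by simp, ?_, [.bot], .cell first, .cell digit,
    .dol, fun k => ?_⟩⟩
  · intro r hr
    cases r <;> simp [rsys, rsrc, rdst] at hr ⊢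
  · set start : TM0.Cfg Γ Λ := TM0.init (first :: List.replicate k digit) with hstart
    set c₀ : Pat (RSt Γ S) (RSy Γ S) := ⟨some (.ready ⟨default, hq₀⟩), [.bot],
      .cell first :: (List.replicate k (.cell digit) ++ [.dol])⟩ with hc₀
    have hgood : Good M start c₀ :=
      ⟨[], first :: List.replicate k digit, [], by simp, by simp [List.map_replicate],
        Relation.ReflTransGen.refl⟩
    classical
    let nxt : {c // Good M start c} → {c // Good M start c} := fun c =>
      ⟨(good_step M hS start c.1 c.2).choose, (good_step M hS start c.1 c.2).choose_spec.2⟩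
    let C : ℕ → Pat (RSt Γ S) (RSy Γ S) := fun n => ((nxt)^[n] ⟨c₀, hgood⟩).1
    have hstep : ∀ n, (rsys M hS).Step (C n) (C (n + 1)) := by
      intro n
      simp only [C, Function.iterate_succ_apply']
      exact (good_step M hS start _ ((nxt)^[n] ⟨c₀, hgood⟩).2).choose_spec.1
    refine ⟨C, rfl, hstep, ⟨?_, ?_⟩⟩
    · rintro ⟨n, hn⟩
      have := ((nxt)^[n] ⟨c₀, hgood⟩).2
      change Good M start (C n) at this
      generalize hd : C n = d at this hn
      obtain ⟨dst, dl, dr⟩ := d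
      simp only at hn
      subst hn
      exact this
    · intro hdom
      obtain ⟨b, hb⟩ := Part.dom_iff_mem.1 hdom
      obtain ⟨d, hd, hst⟩ := reaches_halt M hS hb ⟨default, hq₀⟩ []
        (first :: List.replicate k digit) [] rfl
      have key : ∀ d, Relation.ReflTransGen (rsys M hS).Step c₀ d → ∃ n, C n = d := by
        intro d hd
        induction hd with
        | refl => exact ⟨0, rfl⟩
        | tail _ hxy ih =>
          obtain ⟨n, rfl⟩ := ih
          exact ⟨n + 1, (rsys M hS).step_unique (hstep n) hxy⟩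
      simp only [List.map_nil, List.nil_append, List.map_cons, List.map_replicate,
        List.cons_append] at hd
      obtain ⟨n, rfl⟩ := key d hd
      exact ⟨n, hst⟩

end Vale.Agent.P113
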