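import Vale.Agent.P113.Terms
import Vale.Agent.P113.Reversible

/-!
The point of a configuration, and eight shear stages realizing one step of the stack system.
Lengths are first computed in integer units and then scaled by `w`.
-/

namespace Vale.Agent.P113

open Set
open scoped BigOperators

namespace RevMachine

variable {P : ℕ → Prop} (V : RevMachine P)

instance instFintypeSt : Fintype V.St := V.finSt
instance instFintypeSy : Fintype V.Sy := V.finSy
instance instFintypeι : Fintype V.ι := V.finι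

/-- The base of the digit expansion. -/
noncomputable def base : ℕ := 2 * Fintype.card V.Sy + 1

/-- The digit of a symbol: odd numbers. -/
noncomputable def dig (s : V.Sy) : ℕ := 2 * (Fintype.equivFin V.Sy s : ℕ) + 1

/-- The inverse base. -/
noncomputable def beta : ℚ := 1 / (V.base : ℚ)

/-- The value of a stack. -/
noncomputable def val : List V.Sy → ℚ
  | [] => 0
  | s :: t => ((V.dig s : ℚ) + val t) * V.beta

/-- The width of the block of a prefix. -/
noncomputable def scl (p : List V.Sy) : ℚ := V.beta ^ p.length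

lemma base_pos : (0:ℚ) < V.base := by simp [base]; positivity

lemma beta_pos : 0 < V.beta := by unfold beta; exact div_pos one_pos V.base_pos

lemma beta_le_one : V.beta ≤ 1 := by
  unfold beta
  rw [div_le_one V.base_pos]
  exact_mod_cast Nat.le_add_left 1 _

lemma scl_pos (p : List V.Sy) : 0 < V.scl p := pow_pos V.beta_pos _

lemma scl_le_one (p : List V.Sy) : V.scl p ≤ 1 := pow_le_one₀ V.beta_pos.le V.beta_le_one

lemma dig_le (s : V.Sy) : (V.dig s : ℚ) + 2 ≤ V.base := by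
  have : V.dig s + 2 ≤ V.base := by
    simp only [dig, base]
    have := (Fintype.equivFin V.Sy s).isLt
    omega
  exact_mod_cast this

lemma val_nonneg : ∀ p : List V.Sy, 0 ≤ V.val p
  | [] => le_rfl
  | _ :: p => mul_nonneg (add_nonneg (Nat.cast_nonneg _) (val_nonneg p)) V.beta_pos.le

lemma beta_mul_base : V.beta * V.base = 1 := by
  unfold beta; field_simp [V.base_pos.ne']

lemma val_add_scl_le : ∀ p : List V.Sy, V.val p + V.scl p ≤ 1
  | [] => by simp [val, scl]
  | s :: p => by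
    have := val_add_scl_le p
    have := V.dig_le s
    have e : V.val (s :: p) + V.scl (s :: p) = ((V.dig s : ℚ) + (V.val p + V.scl p)) * V.beta := by
      simp [val, scl, pow_succ]; ring
    rw [e]
    calc ((V.dig s : ℚ) + (V.val p + V.scl p)) * V.beta ≤ (V.base : ℚ) * V.beta :=
          mul_le_mul_of_nonneg_right (by linarith) V.beta_pos.le
      _ = 1 := by rw [mul_comm, V.beta_mul_base]

lemma val_le_one (p : List V.Sy) : V.val p ≤ 1 := by
  linarith [V.val_add_scl_le p, V.scl_pos p]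

lemma val_append : ∀ p t : List V.Sy, V.val (p ++ t) = V.val p + V.scl p * V.val t
  | [], t => by simp [val, scl]
  | s :: p, t => by
    simp only [List.cons_append, val, scl, List.length_cons, pow_succ, val_append p t]
    ring

lemma val_sep_aux : ∀ (K : ℕ) (p q : List V.Sy), Sep p q → p.length ≤ K → q.length ≤ K →
    V.val p + V.scl p + V.beta ^ K ≤ V.val q ∨ V.val q + V.scl q + V.beta ^ K ≤ V.val p := by
  intro K p
  induction p generalizing K with
  | nil => intro q h; simp [Sep] at h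
  | cons a p ih =>
    intro q h hp hq
    cases q with
    | nil => simp [Sep] at h
    | cons c q =>
      obtain ⟨K, rfl⟩ : ∃ K', K = K' + 1 := ⟨K - 1, by simp at hp; omega⟩
      simp only [List.length_cons, Nat.succ_le_succ_iff] at hp hq
      have hK : V.beta ^ K ≤ 1 := pow_le_one₀ V.beta_pos.le V.beta_le_one
      have e : ∀ (s : V.Sy) (t : List V.Sy),
          V.val (s :: t) + V.scl (s :: t) + V.beta ^ (K + 1)
            = ((V.dig s : ℚ) + (V.val t + V.scl t) + V.beta ^ K) * V.beta := fun s t => by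
        simp [val, scl, pow_succ]; ring
      by_cases hac : a = c
      · subst hac
        have h' : Sep p q := by
          rcases h with h | h
          · exact absurd rfl h
          · exact h
        rcases ih K q h' hp hq with h | h
        · left; rw [e]; exact mul_le_mul_of_nonneg_right (by linarith) V.beta_pos.le
        · right; rw [e]; exact mul_le_mul_of_nonneg_right (by linarith) V.beta_pos.le
      · have hne : V.dig a ≠ V.dig c := fun he => hac <| by
          simp only [dig] at he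
          exact (Fintype.equivFin V.Sy).injective (Fin.ext (by omega))
        have : (V.dig a : ℚ) + 2 ≤ V.dig c ∨ (V.dig c : ℚ) + 2 ≤ V.dig a := by
          have : V.dig a + 2 ≤ V.dig c ∨ V.dig c + 2 ≤ V.dig a := by
            simp only [dig] at hne ⊢; omega
          exact_mod_cast this
        have := V.val_add_scl_le p
        have := V.val_add_scl_le q
        have := V.val_nonneg p
        have := V.val_nonneg q
        rcases ‹(V.dig a : ℚ) + 2 ≤ V.dig c ∨ (V.dig c : ℚ) + 2 ≤ V.dig a› with h | h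
        · left; rw [e]; exact mul_le_mul_of_nonneg_right (by linarith) V.beta_pos.le
        · right; rw [e]; exact mul_le_mul_of_nonneg_right (by linarith) V.beta_pos.le

/-- Number of states. -/
noncomputable def nSt : ℕ := Fintype.card V.St

lemma nSt_pos : 0 < V.nSt := Fintype.card_pos_iff.2 ⟨V.halt⟩

/-- Enumeration of the states with `halt` last. -/
noncomputable def stIdx : V.St ≃ Fin V.nSt :=
  (Fintype.equivFin V.St).trans
    (Equiv.swap (Fintype.equivFin V.St V.halt) ⟨V.nSt - 1, Nat.sub_lt V.nSt_pos Nat.one_pos⟩)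

/-- Offset of a state. -/
noncomputable def pos (q : V.St) : ℚ := 2 * ((V.stIdx q : ℕ) : ℚ)

lemma pos_le_halt {q : V.St} (h : q ≠ V.halt) : V.pos q + 2 ≤ V.pos V.halt := by
  have hh : (V.stIdx V.halt : ℕ) = V.nSt - 1 := by
    unfold stIdx
    show ((Equiv.swap (Fintype.equivFin V.St V.halt) (_ : Fin (Fintype.card V.St))
      (Fintype.equivFin V.St V.halt)) : ℕ) = _
    rw [Equiv.swap_apply_left]
  have hne : (V.stIdx q : ℕ) ≠ V.nSt - 1 := fun e =>
    h (V.stIdx.injective (Fin.ext (e.trans hh.symm)))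
  have := (V.stIdx q).isLt
  have key : (V.stIdx q : ℕ) + 1 ≤ (V.stIdx V.halt : ℕ) := by omega
  have : ((V.stIdx q : ℕ) : ℚ) + 1 ≤ ((V.stIdx V.halt : ℕ) : ℚ) := by exact_mod_cast key
  unfold pos; linarith

lemma pos_sep {q q' : V.St} (h : q ≠ q') : V.pos q + 2 ≤ V.pos q' ∨ V.pos q' + 2 ≤ V.pos q := by
  have : (V.stIdx q : ℕ) + 1 ≤ V.stIdx q' ∨ (V.stIdx q' : ℕ) + 1 ≤ V.stIdx q := by
    have : (V.stIdx q : ℕ) ≠ V.stIdx q' := fun e => h (V.stIdx.injective (Fin.ext e))
    omega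
  have h' : ((V.stIdx q : ℕ) : ℚ) + 1 ≤ ((V.stIdx q' : ℕ) : ℚ) ∨
      ((V.stIdx q' : ℕ) : ℚ) + 1 ≤ ((V.stIdx q : ℕ) : ℚ) := by exact_mod_cast this
  unfold pos
  rcases h' with h' | h'
  · left; linarith
  · right; linarith

lemma pos_nonneg (q : V.St) : 0 ≤ V.pos q := by unfold pos; positivity

lemma pos_lt (q : V.St) : V.pos q + 2 ≤ 2 * (V.nSt : ℚ) := by
  have : ((V.stIdx q : ℕ) : ℚ) + 1 ≤ (V.nSt : ℚ) := by exact_mod_cast (V.stIdx q).isLt
  unfold pos; linarith

/-- Bound on pattern lengths. -/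
noncomputable def maxLen : ℕ :=
  Finset.univ.sup fun r : V.ι => max (max (V.Y.src r).l.length (V.Y.src r).r.length)
    (max (V.Y.dst r).l.length (V.Y.dst r).r.length)

/-- Margin around blocks. -/
noncomputable def margin : ℚ := V.beta ^ V.maxLen / 2

lemma margin_pos : 0 < V.margin := by unfold margin; exact div_pos (pow_pos V.beta_pos _) two_pos

lemma margin_le : V.margin ≤ 1 / 2 := by
  unfold margin
  linarith [pow_le_one₀ V.beta_pos.le V.beta_le_one (n := V.maxLen)]

lemma len_le (r : V.ι) :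
    ((V.Y.src r).l.length ≤ V.maxLen ∧ (V.Y.src r).r.length ≤ V.maxLen) ∧
      ((V.Y.dst r).l.length ≤ V.maxLen ∧ (V.Y.dst r).r.length ≤ V.maxLen) := by
  have := Finset.le_sup (f := fun r : V.ι => max (max (V.Y.src r).l.length (V.Y.src r).r.length)
    (max (V.Y.dst r).l.length (V.Y.dst r).r.length)) (Finset.mem_univ r)
  simp only [max_le_iff] at this
  exact this

/-- Number of rules. -/
noncomputable def nR : ℕ := Fintype.card V.ι

/-- Level of a rule. -/
noncomputable def lev (r : V.ι) : ℚ := 4 * (((Fintype.equivFin V.ι r : ℕ) : ℚ) + 1)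

/-- Slot of a rule. -/
noncomputable def slot (r : V.ι) : ℚ := 2 * (V.nSt : ℚ) + V.lev r

lemma lev_sep {r r' : V.ι} (h : r ≠ r') : V.lev r + 4 ≤ V.lev r' ∨ V.lev r' + 4 ≤ V.lev r := by
  have : (Fintype.equivFin V.ι r : ℕ) + 1 ≤ Fintype.equivFin V.ι r' ∨
      (Fintype.equivFin V.ι r' : ℕ) + 1 ≤ Fintype.equivFin V.ι r := by
    have : (Fintype.equivFin V.ι r : ℕ) ≠ Fintype.equivFin V.ι r' := fun e =>
      h ((Fintype.equivFin V.ι).injective (Fin.ext e))
    omega
  have h' : ((Fintype.equivFin V.ι r : ℕ) : ℚ) + 1 ≤ ((Fintype.equivFin V.ι r' : ℕ) : ℚ) ∨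
      ((Fintype.equivFin V.ι r' : ℕ) : ℚ) + 1 ≤ ((Fintype.equivFin V.ι r : ℕ) : ℚ) := by
    exact_mod_cast this
  unfold lev
  rcases h' with h' | h'
  · left; linarith
  · right; linarith

lemma lev_bounds (r : V.ι) : 4 ≤ V.lev r ∧ V.lev r ≤ 4 * (V.nR : ℚ) := by
  have h1 : (0:ℚ) ≤ ((Fintype.equivFin V.ι r : ℕ) : ℚ) := Nat.cast_nonneg _
  have h2 : ((Fintype.equivFin V.ι r : ℕ) : ℚ) + 1 ≤ (V.nR : ℚ) := by
    exact_mod_cast (Fintype.equivFin V.ι r).isLt
  unfold lev; constructor <;> linarith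

/-- Extent in units. -/
noncomputable def ext : ℕ := 2 * V.nSt + 4 * V.nR + 10

lemma ext_eq : (V.ext : ℚ) = 2 * V.nSt + 4 * V.nR + 10 := by simp [ext]

/-- The unit. -/
noncomputable def w : ℚ := 1 / (4 * (V.ext : ℚ))

lemma w_pos : 0 < V.w := by
  have : (0:ℚ) < V.ext := by rw [V.ext_eq]; positivity
  unfold w; positivity

lemma w_ext : V.w * (V.ext : ℚ) = 1 / 4 := by
  have : (0:ℚ) < V.ext := by rw [V.ext_eq]; positivity
  unfold w; field_simp

/-- A window in units: plateau one on `[lo, hi]`, supported within `margin mg` of it. -/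
structure Win where
  lo : ℚ
  hi : ℚ
  mg : ℚ

/-- A window lying inside the small box. -/
def WinOk (A : Win) : Prop :=
  0 < A.mg ∧ A.lo ≤ A.hi ∧ -(V.ext : ℚ) ≤ A.lo - A.mg ∧ A.hi + A.mg ≤ V.ext

/-- The bump of a window. -/
noncomputable def winBump (A : Win) (k : ℕ) : Bump where
  kind := Sum.inr ((A.hi - A.lo) * 2 / A.mg + 2)
  k := k
  a := 2 / (V.w * A.mg)
  b := A.lo * 2 / A.mg - 1

lemma winBump_ok {A : Win} (h : V.WinOk A) (k : ℕ) : (V.winBump A k).Ok := by
  refine ⟨(div_pos two_pos (mul_pos V.w_pos h.1)).ne', fun l hl => ?_⟩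
  simp only [winBump, Sum.inr.injEq] at hl
  subst hl
  have : 0 ≤ (A.hi - A.lo) * 2 / A.mg := by
    apply div_nonneg _ h.1.le
    linarith [h.2.1]
  linarith

lemma winBump_val {A : Win} (h : V.WinOk A) (k : ℕ) (u : ℝ) (hu : |u| ≤ (V.ext : ℝ)) :
    ((A.lo : ℝ) ≤ u ∧ u ≤ (A.hi : ℝ) →
      (V.winBump A k).pval ((V.w : ℝ) * u) = ((V.w : ℝ) * u) ^ k * kappa) ∧
    (u ≤ (A.lo : ℝ) - A.mg ∨ (A.hi : ℝ) + A.mg ≤ u →
      (V.winBump A k).pval ((V.w : ℝ) * u) = 0) := by
  have hm : (0:ℝ) < A.mg := by exact_mod_cast h.1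
  have hlh : (A.lo:ℝ) ≤ A.hi := by exact_mod_cast h.2.1
  have hw : (0:ℝ) < V.w := by exact_mod_cast V.w_pos
  have hlo : -(V.ext : ℝ) ≤ (A.lo:ℝ) - A.mg := by exact_mod_cast h.2.2.1
  have hhi : (A.hi:ℝ) + A.mg ≤ (V.ext : ℝ) := by exact_mod_cast h.2.2.2
  have hwe : (V.w : ℝ) * (V.ext : ℝ) = 1 / 4 := by
    have := congrArg (Rat.cast (K := ℝ)) V.w_ext
    push_cast at this
    exact this
  have arg : ∀ s : ℝ, ((2 / (V.w * A.mg) : ℚ) : ℝ) * ((V.w : ℝ) * s)
      - ((A.lo * 2 / A.mg - 1 : ℚ) : ℝ) = (s - A.lo) * 2 / A.mg + 1 := by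
    intro s; push_cast; field_simp; ring
  have hl : ((((A.hi - A.lo) * 2 / A.mg + 2 : ℚ)) : ℝ) = ((A.hi:ℝ) - A.lo) * 2 / A.mg + 2 := by
    push_cast; ring
  have hv : ∀ s : ℝ, (V.winBump A k).val ((V.w : ℝ) * s)
      = ((V.w : ℝ) * s) ^ k *
        plateau (((A.hi:ℝ) - A.lo) * 2 / A.mg + 2) ((s - A.lo) * 2 / A.mg + 1) := by
    intro s
    simp only [Bump.val, winBump, kindVal, arg, hl]
  have hzero : ∀ s : ℝ, (s ≤ (A.lo:ℝ) - A.mg ∨ (A.hi:ℝ) + A.mg ≤ s) →
      (V.winBump A k).val ((V.w : ℝ) * s) = 0 := by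
    intro s hs
    rw [hv, plateau_eq_zero, mul_zero]
    · have : 0 ≤ ((A.hi:ℝ) - A.lo) * 2 / A.mg := div_nonneg (by linarith) hm.le
      linarith
    · rcases hs with hs | hs
      · left
        have : (s - A.lo) * 2 / (A.mg:ℝ) ≤ -2 := by rw [div_le_iff₀ hm]; linarith
        linarith
      · right
        have e : (s - A.lo) * 2 / (A.mg:ℝ) =
            ((A.hi:ℝ) - A.lo) * 2 / A.mg + (s - A.hi) * 2 / A.mg := by ring
        have : (2:ℝ) ≤ (s - A.hi) * 2 / (A.mg:ℝ) := by rw [le_div_iff₀ hm]; linarith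
        linarith
  have hper : (V.winBump A k).pval ((V.w : ℝ) * u) = (V.winBump A k).val ((V.w : ℝ) * u) := by
    refine periodize_single (l := (V.w:ℝ) * ((A.lo:ℝ) - A.mg)) (h := (V.w:ℝ) * ((A.hi:ℝ) + A.mg))
      (fun s hs => ?_) ?_ ?_
    · have : s = (V.w:ℝ) * (s / V.w) := by field_simp
      rw [this]
      apply hzero
      rcases hs with hs | hs
      · left; rw [div_le_iff₀ hw]; linarith
      · right; rw [le_div_iff₀ hw]; linarith
    · nlinarith [abs_le.1 hu]
    · nlinarith [abs_le.1 hu]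
  refine ⟨fun hin => ?_, fun hout => by rw [hper, hzero u hout]⟩
  rw [hper, hv, plateau_eq]
  · have : 0 ≤ (u - A.lo) * 2 / (A.mg:ℝ) := div_nonneg (by linarith [hin.1]) hm.le
    linarith
  · have : (u - A.lo) * 2 / (A.mg:ℝ) ≤ ((A.hi:ℝ) - A.lo) * 2 / A.mg := by
      gcongr; linarith [hin.2]
    linarith

/-- A gate: displacement `c₀ + c₁ u_p` on the product of two windows. -/
structure Gate where
  c₀ : ℚ
  c₁ : ℚ
  A : Win
  B : Win

/-- The spatial factor lists. -/
def gateSp (p q : Fin 3) (β γ : Bump) (i : Fin 3) : List Bump :=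
  if i = p then [β] else if i = q then [γ] else []

/-- The two spatial terms of a gate, without the time factor. -/
noncomputable def gateTerms (p q : Fin 3) (G : Gate) : List Term :=
  [⟨V.w * G.c₀, 0, -2, [], gateSp p q (V.winBump G.A 0) (V.winBump G.B 0)⟩,
   ⟨G.c₁, 0, -2, [], gateSp p q (V.winBump G.A 1) (V.winBump G.B 0)⟩]

/-- A point given in units. -/
noncomputable def ofUnits (u : Fin 3 → ℝ) : Fin 3 → ℝ := fun i => (V.w : ℝ) * u i

lemma gate_eval (ν t : ℝ) {p q : Fin 3} (hpq : p ≠ q) {G : Gate} (hA : V.WinOk G.A)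
    (hB : V.WinOk G.B) (u : Fin 3 → ℝ) (hu : ∀ i, |u i| ≤ (V.ext : ℝ)) :
    (((G.A.lo : ℝ) ≤ u p ∧ u p ≤ (G.A.hi : ℝ)) ∧ ((G.B.lo : ℝ) ≤ u q ∧ u q ≤ (G.B.hi : ℝ)) →
      evalL ν (V.gateTerms p q G) t (V.ofUnits u)
        = (V.w : ℝ) * ((G.c₀ : ℝ) + (G.c₁ : ℝ) * u p)) ∧
    ((u p ≤ (G.A.lo : ℝ) - G.A.mg ∨ (G.A.hi : ℝ) + G.A.mg ≤ u p) ∨
      (u q ≤ (G.B.lo : ℝ) - G.B.mg ∨ (G.B.hi : ℝ) + G.B.mg ≤ u q) →
      evalL ν (V.gateTerms p q G) t (V.ofUnits u) = 0) := by
  have key : ∀ β γ : Bump, ∀ x : Fin 3 → ℝ,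
      sval (gateSp p q β γ 0) (x 0) * sval (gateSp p q β γ 1) (x 1) *
        sval (gateSp p q β γ 2) (x 2) = β.pval (x p) * γ.pval (x q) := by
    intro β γ x
    fin_cases p <;> fin_cases q <;> simp_all [gateSp, sval] <;> ring
  have e : evalL ν (V.gateTerms p q G) t (V.ofUnits u) =
      (kappa ^ (-2:ℤ)) * ((V.winBump G.B 0).pval ((V.w:ℝ) * u q)) *
        ((V.w:ℝ) * (G.c₀:ℝ) * (V.winBump G.A 0).pval ((V.w:ℝ) * u p)
          + (G.c₁:ℝ) * (V.winBump G.A 1).pval ((V.w:ℝ) * u p)) := by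
    simp only [evalL, gateTerms, List.map_cons, List.map_nil, List.sum_cons, List.sum_nil,
      Term.val, Term.theta, List.prod_nil, key _ _ (V.ofUnits u), Rat.cast_mul, pow_zero]
    simp only [ofUnits]
    ring
  constructor
  · intro h
    rw [e, (V.winBump_val hB 0 _ (hu q)).1 h.2, (V.winBump_val hA 0 _ (hu p)).1 h.1,
      (V.winBump_val hA 1 _ (hu p)).1 h.1]
    rw [zpow_neg, zpow_ofNat]
    field_simp [kappa_ne]
  · rintro (h | h)
    · rw [e, (V.winBump_val hA 0 _ (hu p)).2 h, (V.winBump_val hA 1 _ (hu p)).2 h]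
      ring
    · rw [e, (V.winBump_val hB 0 _ (hu q)).2 h]
      ring

/-- Source abscissa. -/
noncomputable def xs (r : V.ι) : ℚ := V.pos (V.Y.src r).st + V.val (V.Y.src r).l
/-- Source ordinate. -/
noncomputable def ys (r : V.ι) : ℚ := V.val (V.Y.src r).r
/-- Target abscissa. -/
noncomputable def xt (r : V.ι) : ℚ := V.pos (V.Y.dst r).st + V.val (V.Y.dst r).l
/-- Target ordinate. -/
noncomputable def yt (r : V.ι) : ℚ := V.val (V.Y.dst r).r
/-- Horizontal factor. -/
noncomputable def cx (r : V.ι) : ℚ := V.scl (V.Y.dst r).l / V.scl (V.Y.src r).l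
/-- Vertical factor. -/
noncomputable def cy (r : V.ι) : ℚ := V.scl (V.Y.dst r).r / V.scl (V.Y.src r).r

/-- Source window in `x`. -/
noncomputable def sX (r : V.ι) : Win := ⟨V.xs r, V.xs r + V.scl (V.Y.src r).l, V.margin⟩
/-- Source window in `y`. -/
noncomputable def sY (r : V.ι) : Win := ⟨V.ys r, V.ys r + V.scl (V.Y.src r).r, V.margin⟩
/-- Target window in `x`. -/
noncomputable def tX (r : V.ι) : Win := ⟨V.xt r, V.xt r + V.scl (V.Y.dst r).l, V.margin⟩
/-- Target window in `y`. -/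
noncomputable def tY (r : V.ι) : Win := ⟨V.yt r, V.yt r + V.scl (V.Y.dst r).r, V.margin⟩
/-- Band around a level. -/
noncomputable def band (r : V.ι) : Win := ⟨V.lev r - 1, V.lev r + 1, 1 / 2⟩
/-- Slot window. -/
noncomputable def slotW (r : V.ι) : Win := ⟨V.slot r, V.slot r + 1, 1 / 2⟩
/-- Wide window. -/
def wide : Win := ⟨-1, 2, 1⟩

/-- Moved axis of each stage. -/
def stAxis : Fin 8 → Fin 3 := ![2, 0, 2, 2, 1, 2, 0, 2]
/-- Linear coordinate of each stage. -/
def stP : Fin 8 → Fin 3 := ![0, 2, 0, 1, 2, 1, 2, 0]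
/-- The other coordinate of each stage. -/
def stQ : Fin 8 → Fin 3 := ![1, 1, 1, 0, 0, 0, 1, 1]

/-- The gates. -/
noncomputable def gate (s : Fin 8) (r : V.ι) : Gate :=
  ![⟨V.lev r - (V.cx r - 1) * V.xs r, V.cx r - 1, V.sX r, V.sY r⟩,
    ⟨V.slot r - V.xs r - V.lev r, 1, V.band r, wide⟩,
    ⟨-((1 - V.cx r) / V.cx r) * V.slot r, (1 - V.cx r) / V.cx r, V.slotW r, wide⟩,
    ⟨-(V.cy r - 1) * V.ys r, V.cy r - 1, wide, V.slotW r⟩,
    ⟨V.yt r - V.ys r - V.lev r, 1, V.band r, V.slotW r⟩,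
    ⟨-((1 - V.cy r) / V.cy r) * V.yt r, (1 - V.cy r) / V.cy r, wide, V.slotW r⟩,
    ⟨V.xt r - V.slot r, 0, V.band r, wide⟩,
    ⟨-V.lev r, 0, V.tX r, V.tY r⟩] s

/-- The shear function of a stage, as terms. -/
noncomputable def stageTerms (s : Fin 8) : List Term :=
  (Finset.univ : Finset V.ι).toList.flatMap fun r => V.gateTerms (stP s) (stQ s) (V.gate s r)

lemma xs_bounds (r : V.ι) :
    0 ≤ V.xs r ∧ V.xs r + V.scl (V.Y.src r).l + 1 ≤ 2 * (V.nSt : ℚ) := by
  have := V.pos_nonneg (V.Y.src r).st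
  have := V.pos_lt (V.Y.src r).st
  have := V.val_nonneg (V.Y.src r).l
  have := V.val_add_scl_le (V.Y.src r).l
  unfold xs; constructor <;> linarith

lemma xt_bounds (r : V.ι) :
    0 ≤ V.xt r ∧ V.xt r + V.scl (V.Y.dst r).l + 1 ≤ 2 * (V.nSt : ℚ) := by
  have := V.pos_nonneg (V.Y.dst r).st
  have := V.pos_lt (V.Y.dst r).st
  have := V.val_nonneg (V.Y.dst r).l
  have := V.val_add_scl_le (V.Y.dst r).l
  unfold xt; constructor <;> linarith

lemma winOk_gate (s : Fin 8) (r : V.ι) : V.WinOk (V.gate s r).A ∧ V.WinOk (V.gate s r).B := by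
  have := V.xs_bounds r
  have := V.xt_bounds r
  have := V.scl_pos (V.Y.src r).l
  have := V.scl_pos (V.Y.src r).r
  have := V.scl_pos (V.Y.dst r).l
  have := V.scl_pos (V.Y.dst r).r
  have := V.margin_pos
  have := V.margin_le
  have := V.lev_bounds r
  have := V.val_nonneg (V.Y.src r).r
  have := V.val_nonneg (V.Y.dst r).r
  have := V.val_add_scl_le (V.Y.src r).r
  have := V.val_add_scl_le (V.Y.dst r).r
  have := V.ext_eq
  have : (0:ℚ) ≤ V.nSt := Nat.cast_nonneg _
  have : (0:ℚ) ≤ V.nR := Nat.cast_nonneg _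
  fin_cases s <;>
    simp [gate, WinOk, sX, sY, tX, tY, band, slotW, wide, ys, yt, slot] <;>
    constructor <;> (try constructor) <;> (try constructor) <;> (try constructor) <;> linarith

lemma stageTerms_ok (s : Fin 8) : OkL (V.stageTerms s) := by
  refine OkL.flatMap fun r _ => ?_
  intro T hT
  have h := V.winOk_gate s r
  simp only [gateTerms, List.mem_cons, List.not_mem_nil, or_false] at hT
  rcases hT with rfl | rfl <;> refine ⟨by simp, fun i β hβ => ?_⟩ <;>
    simp only [gateSp] at hβ <;> split_ifs at hβ <;>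
    simp only [List.mem_singleton, List.not_mem_nil] at hβ <;>
    subst hβ <;> first | exact V.winBump_ok h.1 _ | exact V.winBump_ok h.2 _

lemma stageTerms_axis (s : Fin 8) : ∀ T ∈ V.stageTerms s, T.sp (stAxis s) = [] := by
  intro T hT
  simp only [stageTerms, List.mem_flatMap, gateTerms, List.mem_cons, List.not_mem_nil,
    or_false] at hT
  obtain ⟨r, -, rfl | rfl⟩ := hT <;> fin_cases s <;>
    simp [gateSp, stAxis, stP, stQ]

lemma stageTerms_time (s : Fin 8) : ∀ T ∈ V.stageTerms s, T.time = [] := by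
  intro T hT
  simp only [stageTerms, List.mem_flatMap, gateTerms, List.mem_cons, List.not_mem_nil,
    or_false] at hT
  obtain ⟨r, -, rfl | rfl⟩ := hT <;> rfl

/-- The point of a configuration, in units. -/
noncomputable def ptU (c : Pat V.St V.Sy) : Fin 3 → ℝ :=
  ![((V.pos c.st + V.val c.l : ℚ) : ℝ), ((V.val c.r : ℚ) : ℝ), 0]

/-- The point of a configuration. -/
noncomputable def pt (c : Pat V.St V.Sy) : Fin 3 → ℝ := V.ofUnits (V.ptU c)

/-- The successive positions, in units, of the image of `(tL, tR)` under the stages of rule `r`. -/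
noncomputable def track (r : V.ι) (tL tR : ℝ) : Fin 9 → Fin 3 → ℝ :=
  let a : ℝ := V.scl (V.Y.src r).l
  let a' : ℝ := V.scl (V.Y.dst r).l
  let b : ℝ := V.scl (V.Y.src r).r
  let b' : ℝ := V.scl (V.Y.dst r).r
  let x₀ : ℝ := V.xs r + a * tL
  let x₁ : ℝ := V.slot r + a' * tL
  let x₂ : ℝ := V.xt r + a' * tL
  let y₀ : ℝ := V.ys r + b * tR
  let y₁ : ℝ := V.yt r + b' * tR
  let l : ℝ := V.lev r
  ![![x₀, y₀, 0], ![x₀, y₀, l + (a' - a) * tL], ![x₁, y₀, l + (a' - a) * tL], ![x₁, y₀, l],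
    ![x₁, y₀, l + (b' - b) * tR], ![x₁, y₁, l + (b' - b) * tR], ![x₁, y₁, l], ![x₂, y₁, l],
    ![x₂, y₁, 0]]

end RevMachine

end Vale.Agent.P113
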