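import Vale.Agent.P113.Defs

/-!
One finite TM0 machine that recognizes, from a unary input `k`, whether the machine and word
encoded by `k` halt.
-/

namespace Vale.Agent.P113

open Turing StateTransition

/-- Configurations for tables: state, left list, right list with the scanned cell first. -/
abbrev TableCfg : Type := ℕ × List ℕ × List ℕ

/-- The entry of a table at the scanned cell. -/
def tableEntry (c : MachineCode) (s : TableCfg) : ℕ × ℕ × ℕ :=
  (c.2.2.getI s.1).getI s.2.2.headI

/-- One step of a table. -/
def tableStep (c : MachineCode) (s : TableCfg) : TableCfg :=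
  if c.2.1.getI s.1 = true then s
  else if (tableEntry c s).2.2 = 0 then
    ((tableEntry c s).1, s.2.1.tail, s.2.1.headI :: (tableEntry c s).2.1 :: s.2.2.tail)
  else if (tableEntry c s).2.2 = 1 then
    ((tableEntry c s).1, s.2.1, (tableEntry c s).2.1 :: s.2.2.tail)
  else ((tableEntry c s).1, (tableEntry c s).2.1 :: s.2.1, s.2.2.tail)

/-- The table halts on the word by time `t`. -/
def tableHalts (p : MachineCode × List ℕ) (t : ℕ) : Bool :=
  p.1.2.1.getI ((tableStep p.1)^[t] (p.1.1.2.2, [], p.2)).1

lemma getI_tail {α : Type} [Inhabited α] (l : List α) (i : ℕ) : l.tail.getI i = l.getI (i + 1) := by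
  cases l with
  | nil => simp [List.getI]
  | cons a l => simp [List.getI]

lemma getI_ofFn {α : Type} [Inhabited α] {n : ℕ} (f : Fin n → α) (i : Fin n) :
    (List.ofFn f).getI (i : ℕ) = f i := by
  rw [List.getI_eq_getElem _ (by simp)]
  simp

/-- A table configuration represents a configuration of the machine. -/
def TableRel (M : Machine) (s : TableCfg) (c : M.Config) : Prop :=
  s.1 = (c.state : ℕ) ∧ (∀ i : ℕ, s.2.1.getI i = (c.tape (c.head - 1 - i) : ℕ)) ∧
    ∀ i : ℕ, s.2.2.getI i = (c.tape (c.head + i) : ℕ)

lemma tableRel_step {M : Machine} {s : TableCfg} {c : M.Config} (h : TableRel M s c) :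
    TableRel M (tableStep M.code s) (M.step c) := by
  obtain ⟨q, L, R⟩ := s
  obtain ⟨hq, hL, hR⟩ := h
  simp only at hq hL hR
  subst hq
  have hh : R.headI = (c.tape c.head : ℕ) := by
    have := hR 0
    cases R <;> simpa [List.getI] using this
  have hLh : L.headI = (c.tape (c.head - 1) : ℕ) := by
    have := hL 0
    cases L <;> simpa [List.getI] using this
  have hb : M.code.2.1.getI (c.state : ℕ) = M.halting c.state := getI_ofFn _ _
  unfold tableStep Machine.step
  rw [hb]
  by_cases hhalt : M.halting c.state = true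
  · rw [if_pos hhalt, if_pos hhalt]
    exact ⟨rfl, hL, hR⟩
  rw [if_neg hhalt, if_neg hhalt]
  have he : tableEntry M.code ((c.state : ℕ), L, R) =
      (((M.next c.state (c.tape c.head)).1 : ℕ), ((M.next c.state (c.tape c.head)).2.1 : ℕ),
        (M.next c.state (c.tape c.head)).2.2.toNat) := by
    simp only [tableEntry, hh, Machine.code]
    rw [getI_ofFn, getI_ofFn]
  rw [he]
  obtain ⟨q', a, mv⟩ := M.next c.state (c.tape c.head)
  cases mv <;> simp only [Move.toNat, Move.shift, ↓reduceIte, OfNat.ofNat_ne_zero, OfNat.ofNat_ne_one,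
    zero_ne_one, one_ne_zero]
  · -- left
    refine ⟨rfl, fun i => ?_, fun i => ?_⟩
    · simp only
      rw [getI_tail, hL, Function.update_of_ne (by omega)]
      congr 2; push_cast; ring
    · rcases i with _ | _ | i
      · simp only [List.getI_cons_zero, hLh, Nat.cast_zero, add_zero]
        rw [Function.update_of_ne (by omega)]
        congr 2
      · simp
      · simp only [List.getI_cons_succ, getI_tail, hR]
        rw [Function.update_of_ne (by push_cast; omega)]
        congr 2; push_cast; ring
  · -- stay
    refine ⟨rfl, fun i => ?_, fun i => ?_⟩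
    · simp only
      rw [hL, Function.update_of_ne (by omega)]
      congr 2; ring
    · rcases i with _ | i
      · simp
      · simp only [List.getI_cons_succ, getI_tail, hR]
        rw [Function.update_of_ne (by push_cast; omega)]
        congr 2; push_cast; ring
  · -- right
    refine ⟨rfl, fun i => ?_, fun i => ?_⟩
    · rcases i with _ | i
      · simp
      · simp only [List.getI_cons_succ, hL]
        rw [Function.update_of_ne (by push_cast; omega)]
        congr 2; push_cast; ring
    · simp only
      rw [getI_tail, hR, Function.update_of_ne (by push_cast; omega)]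
      congr 2; push_cast; ring

lemma tableHalts_iff (M : Machine) (w : List M.Sym) :
    (∃ t, tableHalts (M.code, M.wordCode w) t = true) ↔ M.Halts w := by
  have h0 : TableRel M ((M.start : ℕ), [], M.wordCode w) (M.init w) := by
    refine ⟨rfl, fun i => ?_, fun i => ?_⟩
    · have : ¬ (0:ℤ) ≤ (M.init w).head - 1 - i := by simp [Machine.init]; omega
      simp only [Machine.init] at this ⊢
      rw [if_neg this]
      simp [List.getI]
    · simp only [Machine.init, zero_add, Int.toNat_natCast, Nat.cast_nonneg, if_true,
        Machine.wordCode, List.getI, List.getD_eq_getElem?_getD, List.getElem?_map]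
      cases w[i]? <;> simp
  have h : ∀ t, TableRel M ((tableStep M.code)^[t] ((M.start : ℕ), [], M.wordCode w))
      ((M.step)^[t] (M.init w)) := by
    intro t
    induction t with
    | zero => exact h0
    | succ t ih => simpa only [Function.iterate_succ_apply'] using tableRel_step ih
  refine exists_congr fun t => ?_
  show M.code.2.1.getI _ = true ↔ _
  show M.code.2.1.getI ((tableStep M.code)^[t] ((M.start : ℕ), [], M.wordCode w)).1 = true ↔ _
  rw [(h t).1]
  exact iff_of_eq (congrArg (· = true) (getI_ofFn _ _))

lemma primrec_list_tail : Primrec (@List.tail ℕ) := Primrec.list_tail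

lemma primrec_tableEntry : Primrec₂ tableEntry :=
  (Primrec.list_getI.comp
    (Primrec.list_getI.comp ((Primrec.snd.comp Primrec.snd).comp Primrec.fst)
      (Primrec.fst.comp Primrec.snd))
    (Primrec.list_headI.comp ((Primrec.snd.comp Primrec.snd).comp Primrec.snd))).to₂

lemma primrec_tableStep : Primrec₂ tableStep := by
  have e : Primrec fun p : MachineCode × TableCfg => tableEntry p.1 p.2 := primrec_tableEntry
  have q' : Primrec fun p : MachineCode × TableCfg => (tableEntry p.1 p.2).1 := Primrec.fst.comp e
  have a : Primrec fun p : MachineCode × TableCfg => (tableEntry p.1 p.2).2.1 :=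
    (Primrec.fst.comp Primrec.snd).comp e
  have mv : Primrec fun p : MachineCode × TableCfg => (tableEntry p.1 p.2).2.2 :=
    (Primrec.snd.comp Primrec.snd).comp e
  have L : Primrec fun p : MachineCode × TableCfg => p.2.2.1 :=
    (Primrec.fst.comp Primrec.snd).comp Primrec.snd
  have R : Primrec fun p : MachineCode × TableCfg => p.2.2.2 :=
    (Primrec.snd.comp Primrec.snd).comp Primrec.snd
  have tR := Primrec.list_tail.comp R
  have b : Primrec fun p : MachineCode × TableCfg => p.1.2.1.getI p.2.1 :=
    Primrec.list_getI.comp ((Primrec.fst.comp Primrec.snd).comp Primrec.fst)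
      (Primrec.fst.comp Primrec.snd)
  exact Primrec.ite (Primrec.eq.comp b (Primrec.const true)) Primrec.snd
    (Primrec.ite (Primrec.eq.comp mv (Primrec.const 0))
      (q'.pair ((Primrec.list_tail.comp L).pair
        (Primrec.list_cons.comp (Primrec.list_headI.comp L) (Primrec.list_cons.comp a tR))))
      (Primrec.ite (Primrec.eq.comp mv (Primrec.const 1))
        (q'.pair (L.pair (Primrec.list_cons.comp a tR)))
        (q'.pair ((Primrec.list_cons.comp a L).pair tR))))

lemma primrec_tableHalts : Primrec₂ tableHalts := by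
  have h1 : Primrec fun x : (MachineCode × List ℕ) × ℕ =>
      (tableStep x.1.1)^[x.2] (x.1.1.1.2.2, [], x.1.2) :=
    Primrec.nat_iterate (f := fun x : (MachineCode × List ℕ) × ℕ => x.2)
      (g := fun x => (x.1.1.1.2.2, [], x.1.2)) (h := fun x s => tableStep x.1.1 s) Primrec.snd
      ((((Primrec.snd.comp Primrec.snd).comp Primrec.fst).comp
        (Primrec.fst.comp Primrec.fst)).pair
        ((Primrec.const []).pair (Primrec.snd.comp Primrec.fst)))
      (primrec_tableStep.comp ((Primrec.fst.comp Primrec.fst).comp Primrec.fst) Primrec.snd).to₂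
  exact Primrec.list_getI.comp
    ((Primrec.fst.comp Primrec.snd).comp (Primrec.fst.comp Primrec.fst)) (Primrec.fst.comp h1)

/-- The predicate to search. -/
def searchPred (n s : ℕ) : Bool :=
  decide (n + 1 = 2 ^ s.unpair.1) &&
    ((Encodable.decode (α := MachineCode × List ℕ) s.unpair.1).map
      (fun p => tableHalts p s.unpair.2)).getD false

lemma primrec_two_pow : Primrec fun n : ℕ => 2 ^ n := by
  refine (Primrec.nat_rec₁ 1 (f := fun _ x => 2 * x)
    ((Primrec.nat_mul.comp (Primrec.const 2) Primrec.snd).to₂)).of_eq fun n => ?_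
  induction n with
  | zero => rfl
  | succ n ih =>
    show 2 * _ = _
    rw [ih, pow_succ, mul_comm]

lemma primrec_searchPred : Primrec₂ searchPred := by
  have s1 : Primrec fun p : ℕ × ℕ => p.2.unpair.1 :=
    Primrec.fst.comp (Primrec.unpair.comp Primrec.snd)
  have s2 : Primrec fun p : ℕ × ℕ => p.2.unpair.2 :=
    Primrec.snd.comp (Primrec.unpair.comp Primrec.snd)
  have h1 : Primrec fun p : ℕ × ℕ => decide (p.1 + 1 = 2 ^ p.2.unpair.1) :=
    (Primrec.eq.comp (Primrec.succ.comp Primrec.fst) (primrec_two_pow.comp s1)).decide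
  have h2 : Primrec fun p : ℕ × ℕ =>
      ((Encodable.decode (α := MachineCode × List ℕ) p.2.unpair.1).map
        (fun q => tableHalts q p.2.unpair.2)) :=
    Primrec.option_map (Primrec.decode.comp s1)
      (primrec_tableHalts.comp Primrec.snd (s2.comp Primrec.fst)).to₂
  exact Primrec.and.comp h1 (Primrec.option_getD.comp h2 (Primrec.const false))

/-- The recognizer. -/
def searcher (n : ℕ) : Part ℕ := Nat.rfind fun s => Part.some (searchPred n s)

lemma partrec_searcher : Nat.Partrec searcher :=
  Partrec.nat_iff.1 (Partrec.rfind (α := ℕ) (p := fun n s => Part.some (searchPred n s))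
    primrec_searchPred.to_comp)

lemma searcher_dom (p : MachineCode × List ℕ) :
    (searcher (2 ^ Encodable.encode p - 1)).Dom ↔ ∃ t, tableHalts p t = true := by
  refine Nat.rfind_dom.trans ?_
  simp only [Part.mem_some_iff, Part.some_dom, implies_true, and_true]
  constructor
  · rintro ⟨s, hs⟩
    have hs' := hs.symm
    rw [searchPred, Bool.and_eq_true, decide_eq_true_iff,
      Nat.sub_add_cancel Nat.one_le_two_pow] at hs'
    rw [← Nat.pow_right_injective le_rfl hs'.1] at hs'
    exact ⟨s.unpair.2, by simpa using hs'.2⟩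
  · rintro ⟨t, ht⟩
    refine ⟨Nat.pair (Encodable.encode p) t, ?_⟩
    simp [searchPred, ht, Nat.sub_add_cancel Nat.one_le_two_pow]

open PartrecToTM2 in
lemma trNat_two_pow_sub_one (k : ℕ) :
    trNat (2 ^ k - 1) = List.replicate k PartrecToTM2.Γ'.bit1 := by
  induction k with
  | zero => simp
  | succ k ih =>
    have e : 2 ^ (k + 1) - 1 = 2 * (2 ^ k - 1) + 1 := by
      have := Nat.one_le_two_pow (n := k)
      rw [pow_succ]; omega
    have c : (((2 ^ (k + 1) - 1 : ℕ)) : Num) = Num.bit1 ((2 ^ k - 1 : ℕ) : Num) := by
      rw [e, ← Num.bit1_of_bit1]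
      push_cast
      ring
    rw [List.replicate_succ, ← ih]
    simp only [trNat, c]
    cases ((2 ^ k - 1 : ℕ) : Num) <;> simp [Num.bit1, trNum, trPosNum]

open PartrecToTM2 in
lemma tm2_dom (c : ToPartrec.Code)
    (hc : ∀ v : List.Vector ℕ 1, c.eval v.1 = pure <$> searcher v.head) (n : ℕ) :
    (@TM2.eval PartrecToTM2.K' (fun _ => PartrecToTM2.Γ') PartrecToTM2.Λ'
      (Option PartrecToTM2.Γ') ⟨trNormal c Cont'.halt⟩ _ _ PartrecToTM2.tr
      PartrecToTM2.K'.main (trList [n])).Dom ↔ (searcher n).Dom := by
  have hinit : (@TM2.init PartrecToTM2.K' (fun _ => PartrecToTM2.Γ') PartrecToTM2.Λ'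
      (Option PartrecToTM2.Γ') ⟨trNormal c Cont'.halt⟩ _ _ PartrecToTM2.K'.main (trList [n]))
      = PartrecToTM2.init c [n] := by
    unfold TM2.init PartrecToTM2.init
    congr 1
    funext k
    cases k <;> simp [K'.elim, Function.update]
  show (StateTransition.eval _ (@TM2.init PartrecToTM2.K' (fun _ => PartrecToTM2.Γ')
    PartrecToTM2.Λ' (Option PartrecToTM2.Γ') ⟨trNormal c Cont'.halt⟩ _ _
    PartrecToTM2.K'.main (trList [n]))).Dom ↔ _
  rw [hinit, PartrecToTM2.tr_eval]
  have h := hc ⟨[n], rfl⟩
  simp only at h
  rw [h]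
  exact Iff.rfl

/-- A finite universal machine with unary input. -/
structure UMachine where
  Γ : Type
  Λ : Type
  inhΓ : Inhabited Γ
  inhΛ : Inhabited Λ
  finΓ : Fintype Γ
  M : TM0.Machine Γ Λ
  S : Finset Λ
  supports : TM0.Supports M ↑S
  first : Γ
  digit : Γ
  spec : ∀ p : MachineCode × List ℕ,
    (StateTransition.eval (TM0.step M)
      (TM0.init (first :: List.replicate (Encodable.encode p) digit))).Dom ↔
        ∃ t, tableHalts p t = true

open PartrecToTM2 in
theorem exists_universal : Nonempty UMachine := by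
  have hp : Nat.Partrec' fun v : List.Vector ℕ 1 => searcher v.head :=
    Nat.Partrec'.part_iff₁.2 (Partrec.nat_iff.2 partrec_searcher)
  obtain ⟨c, hc⟩ := ToPartrec.Code.exists_code hp
  classical
  haveI : Fintype PartrecToTM2.K' :=
    ⟨{K'.main, K'.rev, K'.aux, K'.stack}, fun k => by cases k <;> simp⟩
  letI : Inhabited PartrecToTM2.Λ' := ⟨trNormal c PartrecToTM2.Cont'.halt⟩
  let M1 := TM2to1.tr (PartrecToTM2.tr)
  have s2 := PartrecToTM2.tr_supports c PartrecToTM2.Cont'.halt
  have s1 := TM2to1.tr_supports PartrecToTM2.tr s2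
  have s0 := TM1to0.tr_supports M1 s1
  refine ⟨⟨TM2to1.Γ' PartrecToTM2.K' (fun _ : PartrecToTM2.K' => PartrecToTM2.Γ'),
    TM1to0.Λ' M1, inferInstance, inferInstance, inferInstance, TM1to0.tr M1, _, s0,
    (true, Function.update (fun _ => none) PartrecToTM2.K'.main (some PartrecToTM2.Γ'.cons)),
    (false, Function.update (fun _ => none) PartrecToTM2.K'.main (some PartrecToTM2.Γ'.bit1)),
    fun p => ?_⟩⟩
  set n := 2 ^ Encodable.encode p - 1 with hn
  have hin : TM2to1.trInit PartrecToTM2.K'.main (trList [n]) =
      ((true, Function.update (fun _ => none) PartrecToTM2.K'.main (some PartrecToTM2.Γ'.cons)) :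
        TM2to1.Γ' PartrecToTM2.K' (fun _ : PartrecToTM2.K' => PartrecToTM2.Γ'))
      :: List.replicate (Encodable.encode p)
        (false, Function.update (fun _ => none) PartrecToTM2.K'.main
          (some PartrecToTM2.Γ'.bit1)) := by
    have e : (trList [n]).reverse =
        PartrecToTM2.Γ'.cons :: List.replicate (Encodable.encode p) PartrecToTM2.Γ'.bit1 := by
      simp [trList, hn, trNat_two_pow_sub_one, List.reverse_replicate]
    unfold TM2to1.trInit
    rw [e]
    refine congrArg₂ List.cons rfl ?_
    exact List.map_replicate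
  have key : (TM0.eval (TM1to0.tr M1) (TM2to1.trInit PartrecToTM2.K'.main (trList [n]))).Dom ↔
      (searcher n).Dom := by
    rw [TM1to0.tr_eval]
    refine (TM2to1.tr_eval_dom _ _ _).trans ?_
    exact tm2_dom c hc n
  rw [hin] at key
  exact key.trans (searcher_dom p)

end Vale.Agent.P113
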