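import Vale.Agent.P113.Flow
import Vale.Agent.P113.Universal

/-!
Assembly: computability of the compiler, smoothness, uniqueness, trajectories.
-/

namespace Vale.Agent.P113

set_option synthInstance.maxSize 4000

open Set Filter
open scoped BigOperators Topology ContDiff NNReal

lemma primrec_ofNat : Primrec fun n : ℕ => (n : ℤ) := by
  refine Primrec.encode_iff.1 ?_
  exact ((Primrec.nat_mul.comp (Primrec.const 2) Primrec.id)).of_eq fun n => rfl

lemma primrec_pow_const (B : ℕ) : Primrec fun n : ℕ => B ^ n := by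
  refine (Primrec.nat_rec₁ 1 (f := fun _ x => B * x)
    ((Primrec.nat_mul.comp (Primrec.const B) Primrec.snd).to₂)).of_eq fun n => ?_
  induction n with
  | zero => rfl
  | succ n ih =>
    show B * _ = _
    rw [ih, pow_succ, mul_comm]

lemma primrec_valNum (B d l : ℕ) : Primrec (RevMachine.valNum B d l) := by
  refine (Primrec.nat_rec₁ l (f := fun k x => d * B ^ (k + 1) + x)
    ((Primrec.nat_add.comp (Primrec.nat_mul.comp (Primrec.const d)
      ((primrec_pow_const B).comp (Primrec.succ.comp Primrec.fst))) Primrec.snd).to₂)).of_eq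
    fun n => ?_
  induction n with
  | zero => rfl
  | succ n ih =>
    show d * B ^ (n + 1) + _ = _
    rw [ih]
    rfl

namespace RevMachine

variable {P : ℕ → Prop} (V : RevMachine P)

lemma primrec_forceCode : Primrec V.forceCode := by
  have hpow := primrec_pow_const V.base
  have hnum : Primrec V.startNum :=
    Primrec.nat_add.comp
      (Primrec.nat_mul.comp (Primrec.const _) (hpow.comp Primrec.succ))
      (primrec_valNum V.base (V.dig V.digit) (V.dig V.last))
  have hload : Primrec V.loadY :=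
    ((primrec_ofNat.comp (Primrec.nat_mul.comp (Primrec.const 1600) hnum)).pair
      (Primrec.nat_mul.comp (Primrec.const _)
        (hpow.comp (Primrec.succ.comp Primrec.succ)))).pair (Primrec.const _)
  exact (Primrec.const _).pair
    ((Primrec.list_append.comp (Primrec.const _)
      (Primrec.list_cons.comp hload (Primrec.const []))).pair (Primrec.const _))

lemma forceVal_eq (ν : ℝ) (k : ℕ) (t : ℝ) (ht : 0 ≤ t) (x : Fin 3 → ℝ) (i : Fin 3) :
    forceVal ν (V.forceCode k) t x i = evalL ν (nsList (V.vel k) i) t x := by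
  rw [V.forceVal_code, V.force_eq ν k i ht]

lemma contDiff_velFn (ν : ℝ) (k : ℕ) :
    ContDiff ℝ ∞ (fun z : ℝ × (Fin 3 → ℝ) => V.velFn ν k z.1 z.2) :=
  contDiff_pi.2 fun i => contDiff_evalL ν (V.vel_ok k i)

lemma isClassical_velFn (ν : ℝ) (k : ℕ) (T : ℝ) :
    IsClassical ν (forceVal ν (V.forceCode k)) T (V.velFn ν k) (fun _ _ => 0) :=
  isClassical_evalL ν (V.vel_ok k) (V.vel_div k)
    (fun x i => congrFun (V.velFn_initial ν k x) i)
    (fun t ht x i => V.forceVal_eq ν k t ht x i) T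

lemma lipschitz_velFn (ν : ℝ) (k : ℕ) (T : ℝ) :
    ∃ K : ℝ≥0, ∀ t ∈ Icc 0 T, LipschitzWith K (V.velFn ν k t) := by
  have hG := V.contDiff_velFn ν k
  have hd : ∀ t, Differentiable ℝ (V.velFn ν k t) := fun t =>
    (hG.comp (contDiff_const.prodMk contDiff_id)).differentiable (by simp)
  have hc : Continuous fun z : ℝ × (Fin 3 → ℝ) => fderiv ℝ (V.velFn ν k z.1) z.2 := by
    have h1 : ∀ t x, fderiv ℝ (V.velFn ν k t) x =
        (fderiv ℝ (fun z : ℝ × (Fin 3 → ℝ) => V.velFn ν k z.1 z.2) (t, x)).comp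
          (ContinuousLinearMap.inr ℝ ℝ (Fin 3 → ℝ)) := by
      intro t x
      refine HasFDerivAt.fderiv ?_
      exact ((hG.differentiable (by simp)) (t, x)).hasFDerivAt.comp x
        (hasFDerivAt_prodMk_right t x)
    simp only [h1]
    exact (hG.continuous_fderiv (by simp)).clm_comp continuous_const
  have hper : ∀ t, SpatiallyPeriodic (fun x => fderiv ℝ (V.velFn ν k t) x) := by
    intro t x l
    have : (fun y => V.velFn ν k t (y + Pi.single l 1)) = V.velFn ν k t := by
      funext y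
      exact funext fun i => evalL_periodic ν (V.vel k i) t y l
    show fderiv ℝ (V.velFn ν k t) (x + Pi.single l 1) = fderiv ℝ (V.velFn ν k t) x
    conv_rhs => rw [← this, fderiv_comp_add_right]
  obtain ⟨C, hC0, hC⟩ := periodic_bounded (g := fun t x => fderiv ℝ (V.velFn ν k t) x) (T := T)
    hc.continuousOn (fun t _ => hper t)
  refine ⟨C.toNNReal, fun t ht => lipschitzWith_of_nnnorm_fderiv_le (hd t) fun x => ?_⟩
  rw [← NNReal.coe_le_coe, coe_nnnorm, Real.coe_toNNReal _ hC0]
  exact hC t ht x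

variable {V} in
lemma Run.isTrajectory {k : ℕ} (R : V.Run k) (ν : ℝ) :
    IsTrajectory (V.velFn ν k) 0 R.path := by
  refine ⟨?_, fun t ht => (R.hasDerivAt_path ν ht).hasDerivWithinAt⟩
  rw [R.path_eq_load (by norm_num)]
  funext i
  fin_cases i <;> simp [loadPath, ramp_eq_zero]

variable {V} in
lemma Run.unique {k : ℕ} (R : V.Run k) (ν : ℝ) {X : ℝ → Fin 3 → ℝ}
    (hX : IsTrajectory (V.velFn ν k) 0 X) {t : ℝ} (ht : 0 ≤ t) : X t = R.path t := by
  obtain ⟨K, hK⟩ := V.lipschitz_velFn ν k t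
  have hc : ∀ Z, IsTrajectory (V.velFn ν k) 0 Z → ContinuousOn Z (Icc 0 t) := fun Z hZ s hs =>
    ((hZ.2 s hs.1).continuousWithinAt).mono fun r hr => hr.1
  have hd : ∀ Z, IsTrajectory (V.velFn ν k) 0 Z → ∀ s ∈ Ico 0 t,
      HasDerivWithinAt Z (V.velFn ν k s (Z s)) (Ici s) s := fun Z hZ s hs =>
    (hZ.2 s hs.1).mono (Ici_subset_Ici.2 hs.1)
  exact ODE_solution_unique_of_mem_Icc_right (s := fun _ => univ)
    (fun s hs => (hK s (Ico_subset_Icc_self hs)).lipschitzOnWith) (hc X hX) (hd X hX)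
    (fun _ _ => trivial) (hc _ (R.isTrajectory ν)) (hd _ (R.isTrajectory ν))
    (fun _ _ => trivial) (hX.1.trans (R.isTrajectory ν).1.symm) ⟨ht, le_rfl⟩

lemma lo_lt_hi (i : Fin 3) : V.lo i < V.hi i := by
  unfold lo hi
  refine mul_lt_mul_of_pos_left ?_ V.w_pos
  fin_cases i <;> simp [boxLo, boxHi] <;> linarith

end RevMachine

/-- The full statement. -/
theorem halting_detection :
    ∃ (a : Fin 3 → ℚ) (lo hi : Fin 3 → ℚ) (T₀ : ℝ)
      (compile : MachineCode × List ℕ → ForceCode),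
    (∀ i, lo i < hi i) ∧
    Computable compile ∧
    (∀ p i, ∀ c ∈ forceList (compile p) i, TermValid c) ∧
    (∀ p i, ∀ c ∈ forceList (compile p) i, isPeriodicTerm c = false →
      ∀ t : ℝ, T₀ ≤ t → termTheta c t = 0) ∧
    (∀ (M : Machine) (w w' : List M.Sym) i,
      periodicPart (compile (M.code, M.wordCode w)) i =
        periodicPart (compile (M.code, M.wordCode w')) i) ∧
    ∀ ν : ℝ, 0 < ν → ∀ (M : Machine) (w : List M.Sym),
      ∃ (u : ℝ → (Fin 3 → ℝ) → Fin 3 → ℝ) (p : ℝ → (Fin 3 → ℝ) → ℝ),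
        ContDiff ℝ ∞ (fun z : ℝ × (Fin 3 → ℝ) => u z.1 z.2) ∧
        ContDiff ℝ ∞ (fun z : ℝ × (Fin 3 → ℝ) => p z.1 z.2) ∧
        (∀ T, IsClassical ν (forceVal ν (compile (M.code, M.wordCode w))) T u p) ∧
        (∀ T, 0 < T → ∀ u' p',
          IsClassical ν (forceVal ν (compile (M.code, M.wordCode w))) T u' p' →
            ∀ t ∈ Icc 0 T, ∀ x, u' t x = u t x ∧ p' t x = p t x) ∧
        ∃ X : ℝ → Fin 3 → ℝ, IsTrajectory u (fun i => (a i : ℝ)) X ∧
          (∀ X', IsTrajectory u (fun i => (a i : ℝ)) X' → ∀ t, 0 ≤ t → X' t = X t) ∧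
          (HitsBox X lo hi ↔ M.Halts w) := by
  obtain ⟨U⟩ := exists_universal
  letI := U.inhΓ
  letI := U.inhΛ
  letI := U.finΓ
  obtain ⟨V⟩ := exists_revMachine U.M U.S U.supports U.first U.digit
  refine ⟨0, V.lo, V.hi, 2, fun p => V.forceCode (Encodable.encode p), V.lo_lt_hi,
    (V.primrec_forceCode.comp Primrec.encode).to_comp, fun p i => V.forceCode_valid _ i,
    fun p i => V.forceCode_vanish _ i, fun M w w' i => V.periodicPart_forceCode _ _ i, ?_⟩
  intro ν hν M w
  set k := Encodable.encode (M.code, M.wordCode w) with hk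
  obtain ⟨R⟩ := V.exists_run k
  have h0 : (fun i => (((0 : Fin 3 → ℚ) i : ℚ) : ℝ)) = (0 : Fin 3 → ℝ) := by funext i; simp
  rw [h0]
  refine ⟨V.velFn ν k, fun _ _ => 0, V.contDiff_velFn ν k, contDiff_const,
    V.isClassical_velFn ν k, ?_, R.path, R.isTrajectory ν, fun X hX t ht => R.unique ν hX ht, ?_⟩
  · intro T hT u' p' h'
    exact classical_unique hν.le hT h' (V.isClassical_velFn ν k T)
  · rw [R.hits_iff]
    exact (U.spec (M.code, M.wordCode w)).trans (tableHalts_iff M w)

end Vale.Agent.P113
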