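import Vale.Agent.P113.Defs

/-!
Analytic facts about the profile, its primitive, plateaus and periodization.
-/

namespace Vale.Agent.P113

open MeasureTheory Set Filter
open scoped BigOperators Topology ContDiff

lemma rho_eq (s : ℝ) : rho s = expNegInvGlue (1 - s ^ 2) := by
  rw [rho, expNegInvGlue]
  by_cases h : |s| < 1
  · have h2 : ¬ 1 - s ^ 2 ≤ 0 := by
      have := (sq_lt_one_iff_abs_lt_one s).2 h
      linarith
    rw [if_pos h, if_neg h2]
    congr 1
    rw [inv_eq_one_div]
    ring
  · have h2 : 1 - s ^ 2 ≤ 0 := by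
      rw [not_lt, ← one_le_sq_iff_one_le_abs] at h
      linarith
    rw [if_neg h, if_pos h2]

lemma contDiff_rho : ContDiff ℝ ∞ rho := by
  rw [show rho = fun s => expNegInvGlue (1 - s ^ 2) from funext rho_eq]
  exact expNegInvGlue.contDiff.comp (contDiff_const.sub (contDiff_id.pow 2))

lemma continuous_rho : Continuous rho := contDiff_rho.continuous

lemma rho_nonneg (s : ℝ) : 0 ≤ rho s := by rw [rho_eq]; exact expNegInvGlue.nonneg _

lemma rho_eq_zero {s : ℝ} (h : 1 ≤ |s|) : rho s = 0 := if_neg (not_lt.2 h)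

lemma hasCompactSupport_rho : HasCompactSupport rho :=
  HasCompactSupport.intro (isCompact_Icc (a := -1) (b := 1)) fun s hs => by
    apply rho_eq_zero
    by_contra h
    exact hs (abs_le.1 (not_le.1 h).le)

lemma kappa_pos : 0 < kappa := by
  refine continuous_rho.integral_pos_of_hasCompactSupport_nonneg_nonzero (x := 0)
    hasCompactSupport_rho rho_nonneg ?_
  simp [rho]

lemma kappa_ne : kappa ≠ 0 := kappa_pos.ne'

lemma integrable_rho : Integrable rho :=
  continuous_rho.integrable_of_hasCompactSupport hasCompactSupport_rho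

lemma hasDerivAt_sigma (s : ℝ) : HasDerivAt sigma (rho s) s := by
  have e : sigma = fun x => sigma 0 + ∫ r in (0:ℝ)..x, rho r := by
    funext x
    have := intervalIntegral.integral_Iic_sub_Iic
      (integrable_rho.integrableOn (s := Iic (0:ℝ))) (integrable_rho.integrableOn (s := Iic x))
    simp only [sigma] at this ⊢
    linarith
  rw [e]
  simpa using!
    ((continuous_rho.integral_hasStrictDerivAt 0 s).hasDerivAt).const_add (sigma 0)

lemma contDiff_sigma : ContDiff ℝ ∞ sigma := by
  rw [contDiff_infty_iff_deriv]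
  refine ⟨fun s => (hasDerivAt_sigma s).differentiableAt, ?_⟩
  rw [show deriv sigma = rho from funext fun s => (hasDerivAt_sigma s).deriv]
  exact contDiff_rho

lemma sigma_of_le {s : ℝ} (h : s ≤ -1) : sigma s = 0 :=
  setIntegral_eq_zero_of_forall_eq_zero fun r hr => rho_eq_zero <| by
    have : r ≤ s := hr
    rw [abs_of_nonpos (by linarith)]; linarith

lemma sigma_of_ge {s : ℝ} (h : 1 ≤ s) : sigma s = kappa := by
  refine setIntegral_eq_integral_of_forall_compl_eq_zero fun r hr => rho_eq_zero ?_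
  have : s < r := not_le.1 hr
  rw [abs_of_nonneg (by linarith)]; linarith

lemma plateau_eq {l s : ℝ} (h1 : 1 ≤ s) (h2 : s ≤ l - 1) : plateau l s = kappa := by
  rw [plateau, sigma_of_ge h1, sigma_of_le (by linarith), sub_zero]

lemma plateau_eq_zero {l s : ℝ} (hl : 0 ≤ l) (h : s ≤ -1 ∨ l + 1 ≤ s) : plateau l s = 0 := by
  rcases h with h | h
  · rw [plateau, sigma_of_le h, sigma_of_le (by linarith), sub_zero]
  · rw [plateau, sigma_of_ge (by linarith), sigma_of_ge (by linarith), sub_self]

lemma hasDerivAt_plateau (l s : ℝ) : HasDerivAt (plateau l) (rho s - rho (s - l)) s :=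
  (hasDerivAt_sigma s).sub ((hasDerivAt_sigma (s - l)).comp_sub_const s l)

lemma contDiff_plateau (l : ℝ) : ContDiff ℝ ∞ (plateau l) :=
  contDiff_sigma.sub (contDiff_sigma.comp (contDiff_id.sub contDiff_const))

lemma contDiff_iteratedDeriv_rho (j : ℕ) : ContDiff ℝ ∞ (iteratedDeriv j rho) :=
  contDiff_rho.iterate_deriv j |> fun h => by rwa [iteratedDeriv_eq_iterate]

lemma hasDerivAt_iteratedDeriv_rho (j : ℕ) (s : ℝ) :
    HasDerivAt (iteratedDeriv j rho) (iteratedDeriv (j + 1) rho s) s := by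
  rw [iteratedDeriv_succ]
  exact ((contDiff_iteratedDeriv_rho j).differentiable (by simp)).differentiableAt.hasDerivAt

lemma iteratedDeriv_rho_eq_zero (j : ℕ) {s : ℝ} (h : 1 < |s|) :
    iteratedDeriv j rho s = 0 := by
  have hev : rho =ᶠ[𝓝 s] fun _ => (0:ℝ) := by
    filter_upwards [(isOpen_lt continuous_const continuous_abs).mem_nhds h] with r hr
    exact rho_eq_zero (le_of_lt hr)
  rw [hev.iteratedDeriv_eq]
  simp

/-! ## Periodization -/

lemma periodize_single {g : ℝ → ℝ} {l h y : ℝ} (hg : ∀ s, (s ≤ l ∨ h ≤ s) → g s = 0)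
    (h1 : h - 1 ≤ y) (h2 : y ≤ l + 1) : periodize g y = g y := by
  rw [periodize, tsum_eq_single 0]
  · simp
  · intro m hm
    apply hg
    rcases lt_or_gt_of_ne hm with h' | h'
    · left
      have : (m : ℝ) ≤ -1 := by exact_mod_cast (Int.le_sub_one_of_lt h')
      linarith
    · right
      have : (1:ℝ) ≤ (m : ℝ) := by exact_mod_cast h'
      linarith

lemma periodize_add_one (g : ℝ → ℝ) (y : ℝ) : periodize g (y + 1) = periodize g y := by
  rw [periodize, periodize, ← (Equiv.addRight (1:ℤ)).tsum_eq fun m => g (y + (m:ℝ))]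
  refine tsum_congr fun m => ?_
  simp only [Equiv.coe_addRight, Int.cast_add, Int.cast_one]
  congr 1; ring

lemma periodize_add_int (g : ℝ → ℝ) (y : ℝ) (n : ℤ) : periodize g (y + n) = periodize g y := by
  induction n using Int.induction_on generalizing y with
  | zero => simp
  | succ i ih =>
    push_cast at ih ⊢
    rw [← add_assoc, periodize_add_one, ih]
  | pred i ih =>
    push_cast at ih ⊢
    have h := periodize_add_one g (y + (-(i:ℝ) - 1))
    rw [show y + (-(i:ℝ) - 1) + 1 = y + -(i:ℝ) by ring, ih] at h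
    exact h.symm

lemma periodize_fract (g : ℝ → ℝ) (y : ℝ) : periodize g (Int.fract y) = periodize g y := by
  have := periodize_add_int g (Int.fract y) ⌊y⌋
  rwa [Int.fract_add_floor, eq_comm] at this

/-- The translates that can meet `[-R, R]` near `y₀`. -/
noncomputable def window (R y₀ : ℝ) : Finset ℤ :=
  Finset.Icc ⌊-R - y₀ - 2⌋ ⌈R - y₀ + 2⌉

lemma window_spec_near {g : ℝ → ℝ} {R y y₀ : ℝ} (hg : ∀ s, R < |s| → g s = 0)
    (hy : |y - y₀| < 1) {m : ℤ} (hm : m ∉ window R y₀) : g (y + m) = 0 := by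
  apply hg
  rw [abs_lt] at hy
  rw [window, Finset.mem_Icc, not_and_or, not_le, not_le, Int.lt_floor_iff, Int.ceil_lt_iff] at hm
  rcases hm with hm | hm
  · have : (m:ℝ) + 1 ≤ -R - y₀ - 2 := hm
    have h := neg_le_abs (y + (m:ℝ))
    linarith
  · have : R - y₀ + 2 ≤ (m:ℝ) - 1 := hm
    have h := le_abs_self (y + (m:ℝ))
    linarith

lemma window_spec {g : ℝ → ℝ} {R y₀ : ℝ} (hg : ∀ s, R < |s| → g s = 0) {m : ℤ}
    (hm : m ∉ window R y₀) : g (y₀ + m) = 0 :=
  window_spec_near hg (by simp) hm

/-- Locally a periodization is a finite sum. -/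
lemma periodize_eventually {g : ℝ → ℝ} {R : ℝ} (hg : ∀ s, R < |s| → g s = 0) (y₀ : ℝ) :
    periodize g =ᶠ[𝓝 y₀] fun y => ∑ m ∈ window R y₀, g (y + m) := by
  filter_upwards [Metric.ball_mem_nhds y₀ one_pos] with y hy
  rw [Metric.mem_ball, Real.dist_eq] at hy
  exact tsum_eq_sum fun m hm => window_spec_near hg hy hm

lemma contDiff_periodize {g : ℝ → ℝ} {R : ℝ} (hg : ∀ s, R < |s| → g s = 0)
    (hs : ContDiff ℝ ∞ g) : ContDiff ℝ ∞ (periodize g) := by
  rw [contDiff_iff_contDiffAt]
  intro y
  have hF := periodize_eventually hg y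
  refine ContDiffAt.congr_of_eventuallyEq ?_ hF
  exact ContDiffAt.sum fun m _ => (hs.comp (contDiff_id.add contDiff_const)).contDiffAt

lemma hasDerivAt_periodize {g g' : ℝ → ℝ} {R : ℝ} (hg : ∀ s, R < |s| → g s = 0)
    (hd : ∀ s, HasDerivAt g (g' s) s) (y : ℝ) :
    HasDerivAt (periodize g) (periodize g' y) y := by
  have hg' : ∀ s, R < |s| → g' s = 0 := by
    intro s hs
    have hev : g =ᶠ[𝓝 s] fun _ => (0:ℝ) := by
      filter_upwards [(isOpen_lt continuous_const continuous_abs).mem_nhds hs] with r hr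
      exact hg r hr
    exact ((hd s).congr_of_eventuallyEq hev.symm).unique (hasDerivAt_const s 0)
  have h1 : HasDerivAt (periodize g) (∑ m ∈ window R y, g' (y + m)) y :=
    (HasDerivAt.fun_sum (u := window R y) (A := fun (m : ℤ) r => g (r + m))
      (A' := fun m => g' (y + m)) fun m _ => (hd (y + m)).comp_add_const y (m:ℝ)).congr_of_eventuallyEq
      (periodize_eventually hg y)
  convert! h1 using 1
  exact (periodize_eventually hg' y).eq_of_nhds

end Vale.Agent.P113
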