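import Vale.Agent.P113.Geometry

/-!
The eight shear stages move the point of a configuration to the point of its successor, and stay
out of the halting box unless one of the two is halting.
-/

namespace Vale.Agent.P113

open Set
open scoped BigOperators

namespace RevMachine

variable {P : ℕ → Prop} (V : RevMachine P)

lemma block_sep {A B : Pat V.St V.Sy} (h : PatSep A B) (hA : A.l.length ≤ V.maxLen ∧
    A.r.length ≤ V.maxLen) (hB : B.l.length ≤ V.maxLen ∧ B.r.length ≤ V.maxLen) {x y : ℝ}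
    (hx : ((V.pos A.st + V.val A.l : ℚ) : ℝ) ≤ x ∧
      x ≤ ((V.pos A.st + V.val A.l + V.scl A.l : ℚ) : ℝ))
    (hy : ((V.val A.r : ℚ) : ℝ) ≤ y ∧ y ≤ ((V.val A.r + V.scl A.r : ℚ) : ℝ)) :
    (x ≤ ((V.pos B.st + V.val B.l : ℚ) : ℝ) - V.margin ∨
      ((V.pos B.st + V.val B.l + V.scl B.l : ℚ) : ℝ) + V.margin ≤ x) ∨
    (y ≤ ((V.val B.r : ℚ) : ℝ) - V.margin ∨
      ((V.val B.r + V.scl B.r : ℚ) : ℝ) + V.margin ≤ y) := by
  have hm : 2 * V.margin = V.beta ^ V.maxLen := by unfold margin; ring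
  have hm0 := V.margin_pos
  have hm1 := V.margin_le
  by_cases hst : A.st = B.st
  · rcases h with h | h | h
    · exact absurd hst h
    · left
      rw [hst] at hx
      rcases V.val_sep_aux _ _ _ h hA.1 hB.1 with e | e
      · left
        have e' : ((V.pos B.st + V.val A.l + V.scl A.l : ℚ) : ℝ) + V.margin
            ≤ ((V.pos B.st + V.val B.l : ℚ) : ℝ) := by
          have : V.pos B.st + V.val A.l + V.scl A.l + V.margin ≤ V.pos B.st + V.val B.l := by
            linarith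
          exact_mod_cast this
        linarith [hx.2]
      · right
        have e' : ((V.pos B.st + V.val B.l + V.scl B.l : ℚ) : ℝ) + V.margin
            ≤ ((V.pos B.st + V.val A.l : ℚ) : ℝ) := by
          have : V.pos B.st + V.val B.l + V.scl B.l + V.margin ≤ V.pos B.st + V.val A.l := by
            linarith
          exact_mod_cast this
        linarith [hx.1]
    · right
      rcases V.val_sep_aux _ _ _ h hA.2 hB.2 with e | e
      · left
        have e' : ((V.val A.r + V.scl A.r : ℚ) : ℝ) + V.margin ≤ ((V.val B.r : ℚ) : ℝ) := by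
          have : V.val A.r + V.scl A.r + V.margin ≤ V.val B.r := by linarith
          exact_mod_cast this
        linarith [hy.2]
      · right
        have e' : ((V.val B.r + V.scl B.r : ℚ) : ℝ) + V.margin ≤ ((V.val A.r : ℚ) : ℝ) := by
          have : V.val B.r + V.scl B.r + V.margin ≤ V.val A.r := by linarith
          exact_mod_cast this
        linarith [hy.1]
  · left
    have := V.val_nonneg A.l
    have := V.val_nonneg B.l
    have := V.val_add_scl_le A.l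
    have := V.val_add_scl_le B.l
    rcases V.pos_sep hst with e | e
    · left
      have e' : ((V.pos A.st + V.val A.l + V.scl A.l : ℚ) : ℝ) + V.margin
          ≤ ((V.pos B.st + V.val B.l : ℚ) : ℝ) := by
        have : V.pos A.st + V.val A.l + V.scl A.l + V.margin ≤ V.pos B.st + V.val B.l := by
          linarith
        exact_mod_cast this
      linarith [hx.2]
    · right
      have e' : ((V.pos B.st + V.val B.l + V.scl B.l : ℚ) : ℝ) + V.margin
          ≤ ((V.pos A.st + V.val A.l : ℚ) : ℝ) := by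
        have : V.pos B.st + V.val B.l + V.scl B.l + V.margin ≤ V.pos A.st + V.val A.l := by
          linarith
        exact_mod_cast this
      linarith [hx.1]

/-- The twelve coordinate facts about a track. -/
lemma track_facts (r : V.ι) {tL tR : ℝ} (hL : tL ∈ Icc (0:ℝ) 1) (hR : tR ∈ Icc (0:ℝ) 1) :
    ((V.xs r : ℝ) ≤ (V.xs r : ℝ) + (V.scl (V.Y.src r).l : ℝ) * tL ∧
      (V.xs r : ℝ) + (V.scl (V.Y.src r).l : ℝ) * tL ≤ (V.xs r : ℝ) + V.scl (V.Y.src r).l) ∧
    ((V.ys r : ℝ) ≤ (V.ys r : ℝ) + (V.scl (V.Y.src r).r : ℝ) * tR ∧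
      (V.ys r : ℝ) + (V.scl (V.Y.src r).r : ℝ) * tR ≤ (V.ys r : ℝ) + V.scl (V.Y.src r).r) ∧
    ((V.xt r : ℝ) ≤ (V.xt r : ℝ) + (V.scl (V.Y.dst r).l : ℝ) * tL ∧
      (V.xt r : ℝ) + (V.scl (V.Y.dst r).l : ℝ) * tL ≤ (V.xt r : ℝ) + V.scl (V.Y.dst r).l) ∧
    ((V.yt r : ℝ) ≤ (V.yt r : ℝ) + (V.scl (V.Y.dst r).r : ℝ) * tR ∧
      (V.yt r : ℝ) + (V.scl (V.Y.dst r).r : ℝ) * tR ≤ (V.yt r : ℝ) + V.scl (V.Y.dst r).r) ∧
    ((V.slot r : ℝ) ≤ (V.slot r : ℝ) + (V.scl (V.Y.dst r).l : ℝ) * tL ∧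
      (V.slot r : ℝ) + (V.scl (V.Y.dst r).l : ℝ) * tL ≤ (V.slot r : ℝ) + 1) ∧
    (|((V.scl (V.Y.dst r).l : ℝ) - V.scl (V.Y.src r).l) * tL| ≤ 1 ∧
      |((V.scl (V.Y.dst r).r : ℝ) - V.scl (V.Y.src r).r) * tR| ≤ 1) := by
  have a0 : (0:ℝ) < V.scl (V.Y.src r).l := by exact_mod_cast V.scl_pos _
  have b0 : (0:ℝ) < V.scl (V.Y.src r).r := by exact_mod_cast V.scl_pos _
  have a0' : (0:ℝ) < V.scl (V.Y.dst r).l := by exact_mod_cast V.scl_pos _
  have b0' : (0:ℝ) < V.scl (V.Y.dst r).r := by exact_mod_cast V.scl_pos _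
  have a1 : (V.scl (V.Y.src r).l : ℝ) ≤ 1 := by exact_mod_cast V.scl_le_one _
  have b1 : (V.scl (V.Y.src r).r : ℝ) ≤ 1 := by exact_mod_cast V.scl_le_one _
  have a1' : (V.scl (V.Y.dst r).l : ℝ) ≤ 1 := by exact_mod_cast V.scl_le_one _
  have b1' : (V.scl (V.Y.dst r).r : ℝ) ≤ 1 := by exact_mod_cast V.scl_le_one _
  obtain ⟨l0, l1⟩ := hL
  obtain ⟨r0, r1⟩ := hR
  simp only [abs_le]
  refine ⟨⟨?_, ?_⟩, ⟨?_, ?_⟩, ⟨?_, ?_⟩, ⟨?_, ?_⟩, ⟨?_, ?_⟩, ⟨?_, ?_⟩, ?_, ?_⟩ <;> nlinarith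

lemma track_bound (r : V.ι) {tL tR : ℝ} (hL : tL ∈ Icc (0:ℝ) 1) (hR : tR ∈ Icc (0:ℝ) 1)
    (j : Fin 9) (i : Fin 3) : |V.track r tL tR j i| ≤ (V.ext : ℝ) := by
  obtain ⟨hxs, hys, hxt, hyt, hsl, hd1, hd2⟩ := V.track_facts r hL hR
  rw [abs_le] at hd1 hd2
  have h1 : (0:ℝ) ≤ V.xs r ∧ (V.xs r : ℝ) + V.scl (V.Y.src r).l + 1 ≤ 2 * (V.nSt : ℝ) := by
    exact_mod_cast V.xs_bounds r
  have h2 : (0:ℝ) ≤ V.xt r ∧ (V.xt r : ℝ) + V.scl (V.Y.dst r).l + 1 ≤ 2 * (V.nSt : ℝ) := by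
    exact_mod_cast V.xt_bounds r
  have h3 : (4:ℝ) ≤ V.lev r ∧ (V.lev r : ℝ) ≤ 4 * (V.nR : ℝ) := by exact_mod_cast V.lev_bounds r
  have h4 : (0:ℝ) ≤ V.ys r ∧ (V.ys r : ℝ) + V.scl (V.Y.src r).r ≤ 1 := by
    exact_mod_cast And.intro (V.val_nonneg (V.Y.src r).r) (V.val_add_scl_le (V.Y.src r).r)
  have h5 : (0:ℝ) ≤ V.yt r ∧ (V.yt r : ℝ) + V.scl (V.Y.dst r).r ≤ 1 := by
    exact_mod_cast And.intro (V.val_nonneg (V.Y.dst r).r) (V.val_add_scl_le (V.Y.dst r).r)
  have h6 : (V.slot r : ℝ) = 2 * (V.nSt : ℝ) + V.lev r := by simp [slot]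
  have he : (V.ext : ℝ) = 2 * (V.nSt : ℝ) + 4 * (V.nR : ℝ) + 10 := by simp [ext]
  have hn : (0:ℝ) ≤ V.nSt := Nat.cast_nonneg _
  have q1 := V.lev_bounds r
  have q2 := V.ext_eq
  have q3 : (0:ℚ) ≤ V.nSt := Nat.cast_nonneg _
  rw [abs_le]
  fin_cases j <;> fin_cases i <;> simp [track] <;> constructor <;> linarith

lemma sum_stage_eq_single (ν t : ℝ) (s : Fin 8) (r : V.ι) (x : Fin 3 → ℝ)
    (h : ∀ r', r' ≠ r → evalL ν (V.gateTerms (stP s) (stQ s) (V.gate s r')) t x = 0) :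
    evalL ν (V.stageTerms s) t x = evalL ν (V.gateTerms (stP s) (stQ s) (V.gate s r)) t x := by
  rw [stageTerms, evalL_flatMap, Finset.sum_map_toList]
  exact Finset.sum_eq_single r (fun r' _ hr' => h r' hr') (fun h => absurd (Finset.mem_univ r) h)

lemma track_step (ν t : ℝ) (r : V.ι) {tL tR : ℝ} (hL : tL ∈ Icc (0:ℝ) 1) (hR : tR ∈ Icc (0:ℝ) 1)
    (s : Fin 8) :
    evalL ν (V.stageTerms s) t (V.ofUnits (V.track r tL tR s.castSucc)) =
      (V.w : ℝ) * (V.track r tL tR s.succ (stAxis s) - V.track r tL tR s.castSucc (stAxis s)) ∧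
    ∀ i, i ≠ stAxis s → V.track r tL tR s.succ i = V.track r tL tR s.castSucc i := by
  refine ⟨?_, fun i hi => ?_⟩
  swap
  · fin_cases s <;> fin_cases i <;> simp [stAxis] at hi <;> simp [track]
  have hb := V.track_bound r hL hR s.castSucc
  have hpq : stP s ≠ stQ s := by fin_cases s <;> decide
  obtain ⟨hxs, hys, hxt, hyt, hsl, hd1, hd2⟩ := V.track_facts r hL hR
  rw [abs_le] at hd1 hd2
  have hys' : (0:ℝ) ≤ V.ys r ∧ (V.ys r : ℝ) + V.scl (V.Y.src r).r ≤ 1 := by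
    exact_mod_cast And.intro (V.val_nonneg (V.Y.src r).r) (V.val_add_scl_le (V.Y.src r).r)
  have hyt' : (0:ℝ) ≤ V.yt r ∧ (V.yt r : ℝ) + V.scl (V.Y.dst r).r ≤ 1 := by
    exact_mod_cast And.intro (V.val_nonneg (V.Y.dst r).r) (V.val_add_scl_le (V.Y.dst r).r)
  have hw := fun r' => V.winOk_gate s r'
  rw [V.sum_stage_eq_single ν t s r]
  swap
  · intro r' hr'
    refine (V.gate_eval ν t hpq (hw r').1 (hw r').2 _ hb).2 ?_
    have hlev : (V.lev r : ℝ) + 4 ≤ V.lev r' ∨ (V.lev r' : ℝ) + 4 ≤ V.lev r := by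
      exact_mod_cast V.lev_sep (Ne.symm hr')
    have hsrc := V.block_sep (V.Y.src_sep r r' (Ne.symm hr')) (V.len_le r).1 (V.len_le r').1
      (x := (V.xs r : ℝ) + (V.scl (V.Y.src r).l : ℝ) * tL)
      (y := (V.ys r : ℝ) + (V.scl (V.Y.src r).r : ℝ) * tR)
      ⟨by simpa [xs] using hxs.1, by simpa [xs] using hxs.2⟩
      ⟨by simpa [ys] using hys.1, by simpa [ys] using hys.2⟩
    have hdst := V.block_sep (V.Y.dst_sep r r' (Ne.symm hr')) (V.len_le r).2 (V.len_le r').2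
      (x := (V.xt r : ℝ) + (V.scl (V.Y.dst r).l : ℝ) * tL)
      (y := (V.yt r : ℝ) + (V.scl (V.Y.dst r).r : ℝ) * tR)
      ⟨by simpa [xt] using hxt.1, by simpa [xt] using hxt.2⟩
      ⟨by simpa [yt] using hyt.1, by simpa [yt] using hyt.2⟩
    fin_cases s
    · simpa [track, gate, stP, stQ, sX, sY, xs, ys, Rat.cast_add] using hsrc
    · refine Or.inl ?_
      simp [track, gate, stP, band]
      rcases hlev with h | h
      · left; linarith
      · right; linarith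
    · refine Or.inl ?_
      simp [track, gate, stP, slotW, slot] at hsl ⊢
      rcases hlev with h | h
      · left; linarith
      · right; linarith
    · refine Or.inr ?_
      simp [track, gate, stQ, slotW, slot] at hsl ⊢
      rcases hlev with h | h
      · left; linarith
      · right; linarith
    · refine Or.inl ?_
      simp [track, gate, stP, band]
      rcases hlev with h | h
      · left; linarith
      · right; linarith
    · refine Or.inr ?_
      simp [track, gate, stQ, slotW, slot] at hsl ⊢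
      rcases hlev with h | h
      · left; linarith
      · right; linarith
    · refine Or.inl ?_
      simp [track, gate, stP, band]
      rcases hlev with h | h
      · left; linarith
      · right; linarith
    · simpa [track, gate, stP, stQ, tX, tY, xt, yt, Rat.cast_add] using hdst
  have ha : (V.scl (V.Y.src r).l : ℝ) ≠ 0 := by exact_mod_cast (V.scl_pos _).ne'
  have hb' : (V.scl (V.Y.src r).r : ℝ) ≠ 0 := by exact_mod_cast (V.scl_pos _).ne'
  have ha' : (V.scl (V.Y.dst r).l : ℝ) ≠ 0 := by exact_mod_cast (V.scl_pos _).ne'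
  have hb'' : (V.scl (V.Y.dst r).r : ℝ) ≠ 0 := by exact_mod_cast (V.scl_pos _).ne'
  rw [(V.gate_eval ν t hpq (hw r).1 (hw r).2 _ hb).1 ?_]
  · congr 1
    fin_cases s <;> simp [track, gate, stP, stAxis, cx, cy] <;> field_simp <;> ring
  · fin_cases s <;>
      simp [track, gate, stP, stQ, sX, sY, tX, tY, band, slotW, wide] <;>
      (repeat' apply And.intro) <;> linarith

/-- The halting box in units: corners. -/
noncomputable def boxLo : Fin 3 → ℚ := ![V.pos V.halt - 1 / 2, -1, -1]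
/-- The halting box in units: upper corner. -/
noncomputable def boxHi : Fin 3 → ℚ := ![V.pos V.halt + 3 / 2, 2, 1]

/-- Membership in the halting box, in units. -/
def InBox (u : Fin 3 → ℝ) : Prop := ∀ i, (V.boxLo i : ℝ) < u i ∧ u i < (V.boxHi i : ℝ)

lemma track_avoid (r : V.ι) {tL tR : ℝ} (hL : tL ∈ Icc (0:ℝ) 1) (hR : tR ∈ Icc (0:ℝ) 1)
    (hs : (V.Y.src r).st ≠ V.halt) (hd : (V.Y.dst r).st ≠ V.halt) (s : Fin 8) (θ : ℝ)
    (hθ : θ ∈ Icc (0:ℝ) 1) :
    ¬ V.InBox (fun i => V.track r tL tR s.castSucc i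
      + θ * (V.track r tL tR s.succ i - V.track r tL tR s.castSucc i)) := by
  intro h
  obtain ⟨hxs, hys, hxt, hyt, hsl, hd1, hd2⟩ := V.track_facts r hL hR
  rw [abs_le] at hd1 hd2
  have hlev : (4:ℝ) ≤ V.lev r := by exact_mod_cast (V.lev_bounds r).1
  have hps : (V.xs r : ℝ) + V.scl (V.Y.src r).l ≤ (V.pos V.halt : ℝ) - 1 := by
    have h1 := V.pos_le_halt hs
    have h2 := V.val_add_scl_le (V.Y.src r).l
    have : V.xs r + V.scl (V.Y.src r).l ≤ V.pos V.halt - 1 := by unfold xs; linarith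
    exact_mod_cast this
  have hpt : (V.xt r : ℝ) + V.scl (V.Y.dst r).l ≤ (V.pos V.halt : ℝ) - 1 := by
    have h1 := V.pos_le_halt hd
    have h2 := V.val_add_scl_le (V.Y.dst r).l
    have : V.xt r + V.scl (V.Y.dst r).l ≤ V.pos V.halt - 1 := by unfold xt; linarith
    exact_mod_cast this
  have h0 := (h 0).1
  have h2 := (h 2).2
  obtain ⟨t0, t1⟩ := hθ
  fin_cases s <;> simp [track, boxLo, boxHi] at h0 h2 <;> nlinarith

lemma pt_track (c d : Pat V.St V.Sy) (h : V.Y.Step c d) :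
    ∃ r, ∃ tL ∈ Icc (0:ℝ) 1, ∃ tR ∈ Icc (0:ℝ) 1, c.st = (V.Y.src r).st ∧
      d.st = (V.Y.dst r).st ∧ V.ptU c = V.track r tL tR 0 ∧ V.ptU d = V.track r tL tR 8 := by
  obtain ⟨r, l₀, r₀, rfl, rfl⟩ := h
  refine ⟨r, (V.val l₀ : ℝ), ⟨?_, ?_⟩, (V.val r₀ : ℝ), ⟨?_, ?_⟩, rfl, rfl, ?_, ?_⟩
  · exact_mod_cast V.val_nonneg l₀
  · exact_mod_cast V.val_le_one l₀
  · exact_mod_cast V.val_nonneg r₀
  · exact_mod_cast V.val_le_one r₀
  · funext i; fin_cases i <;> simp [ptU, track, xs, ys, val_append, add_assoc]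
  · funext i; fin_cases i <;> simp [ptU, track, xt, yt, val_append, add_assoc]

lemma pt_inBox (c : Pat V.St V.Sy) (h : c.st = V.halt) : V.InBox (V.ptU c) := by
  intro i
  have h1 : (0:ℝ) ≤ V.val c.l := by exact_mod_cast V.val_nonneg c.l
  have h2 : (V.val c.l : ℝ) ≤ 1 := by exact_mod_cast V.val_le_one c.l
  have h3 : (0:ℝ) ≤ V.val c.r := by exact_mod_cast V.val_nonneg c.r
  have h4 : (V.val c.r : ℝ) ≤ 1 := by exact_mod_cast V.val_le_one c.r
  fin_cases i <;> simp [ptU, boxLo, boxHi, h] <;> constructor <;> linarith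

end RevMachine

end Vale.Agent.P113
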