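import Vale.Agent.P113.Algebra
import Vale.Agent.P113.Energy

/-!
Terms, their symbolic derivatives, and the Navier-Stokes operator on term lists.
-/

namespace Vale.Agent.P113

open MeasureTheory Set Filter
open scoped BigOperators Topology ContDiff

/-- Derivative of a product, symbolically. -/
def derList {β : Type} (db : β → List (ℚ × β)) : List β → List (ℚ × List β)
  | [] => []
  | b :: l => (db b).map (fun p => (p.1, p.2 :: l)) ++
      (derList db l).map (fun p => (p.1, b :: p.2))

lemma hasDerivAt_derList {β : Type} (val : β → ℝ → ℝ) (db : β → List (ℚ × β)) (t : ℝ) :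
    ∀ l : List β, (∀ b ∈ l, HasDerivAt (val b)
        (((db b).map fun p => (p.1 : ℝ) * val p.2 t).sum) t) →
      HasDerivAt (fun s => (l.map fun b => val b s).prod)
        (((derList db l).map fun p => (p.1 : ℝ) * (p.2.map fun b => val b t).prod).sum) t := by
  intro l
  induction l with
  | nil => intro _; simpa [derList] using hasDerivAt_const t (1:ℝ)
  | cons b l ih =>
    intro h
    have h1 := (h b List.mem_cons_self).fun_mul (ih fun c hc => h c (List.mem_cons_of_mem _ hc))
    simp only [List.map_cons, List.prod_cons]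
    convert! h1 using 1
    simp only [derList, List.map_append, List.map_map, List.sum_append, Function.comp_def,
      List.map_cons, List.prod_cons, ← List.sum_map_mul_right, ← List.sum_map_mul_left]
    congr 2 <;> (congr 1; funext p; ring)

lemma derList_forall {β : Type} {db : β → List (ℚ × β)} {P : β → Prop}
    (hdb : ∀ b, P b → ∀ p ∈ db b, P p.2) :
    ∀ l : List β, (∀ b ∈ l, P b) → ∀ p ∈ derList db l, ∀ b ∈ p.2, P b := by
  intro l
  induction l with
  | nil => intro _ p hp; simp [derList] at hp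
  | cons c l ih =>
    intro h p hp
    simp only [derList, List.mem_append, List.mem_map] at hp
    rcases hp with ⟨q, hq, rfl⟩ | ⟨q, hq, rfl⟩
    · intro b hb
      rcases List.mem_cons.1 hb with rfl | hb
      · exact hdb c (h c List.mem_cons_self) q hq
      · exact h b (List.mem_cons_of_mem _ hb)
    · intro b hb
      rcases List.mem_cons.1 hb with rfl | hb
      · exact h _ List.mem_cons_self
      · exact ih (fun x hx => h x (List.mem_cons_of_mem _ hx)) q hq b hb

/-- Internal term. -/
structure Term where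
  q : ℚ
  nu : ℕ
  kap : ℤ
  time : List (Bool × Bump)
  sp : Fin 3 → List Bump

/-- A time factor. -/
noncomputable def tval (p : Bool × Bump) (t : ℝ) : ℝ := if p.1 then p.2.pval t else p.2.val t

/-- The time dependence. -/
noncomputable def Term.theta (T : Term) (t : ℝ) : ℝ := (T.time.map fun p => tval p t).prod

/-- A spatial product. -/
noncomputable def sval (l : List Bump) (y : ℝ) : ℝ := (l.map fun β => β.pval y).prod

/-- Value of a term. -/
noncomputable def Term.val (ν : ℝ) (T : Term) (t : ℝ) (x : Fin 3 → ℝ) : ℝ :=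
  (T.q : ℝ) * ν ^ T.nu * kappa ^ T.kap * T.theta t *
    (sval (T.sp 0) (x 0) * sval (T.sp 1) (x 1) * sval (T.sp 2) (x 2))

/-- Value of a term list. -/
noncomputable def evalL (ν : ℝ) (L : List Term) (t : ℝ) (x : Fin 3 → ℝ) : ℝ :=
  (L.map fun T => T.val ν t x).sum

/-- Well-formed term. -/
def Term.Ok (T : Term) : Prop := (∀ p ∈ T.time, p.2.Ok) ∧ ∀ i, ∀ β ∈ T.sp i, Bump.Ok β

/-- Well-formed list. -/
def OkL (L : List Term) : Prop := ∀ T ∈ L, T.Ok

/-- All time factors are periodized. -/
def Term.Periodic (T : Term) : Prop := ∀ p ∈ T.time, p.1 = true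

/-- All terms periodic. -/
def PerL (L : List Term) : Prop := ∀ T ∈ L, T.Periodic

/-- The code of a term. -/
def Term.code (T : Term) : TermCode :=
  (ratCode T.q, T.nu, T.kap, [], T.time.map (fun p => (p.1, p.2.code)),
    ((T.sp 0).map Bump.code, (T.sp 1).map Bump.code, (T.sp 2).map Bump.code))

lemma termTheta_code (T : Term) (t : ℝ) : termTheta T.code t = T.theta t := by
  simp [termTheta, termTimeList, Term.code, Term.theta, timeFactor, tval, Function.comp_def,
    bumpVal_code, Bump.pval]

lemma termVal_code (ν : ℝ) (T : Term) (t : ℝ) (x : Fin 3 → ℝ) :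
    termVal ν T.code t x = T.val ν t x := by
  have h := termTheta_code T t
  simp only [Term.code] at h ⊢
  simp only [termVal, Term.val, h, ratVal_ratCode, List.map_nil, List.prod_nil, mul_one]
  simp [spaceVal, sval, Function.comp_def, bumpVal_code, Bump.pval]
  ring

lemma termValid_code {T : Term} (h : T.Ok) : TermValid T.code := by
  refine ⟨T.q.den_ne_zero, by simp, ?_, ?_, ?_, ?_⟩
  · intro b hb
    simp only [List.mem_map] at hb
    obtain ⟨p, hp, rfl⟩ := hb
    exact bumpValid_code (h.1 p hp)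
  all_goals
    intro b hb
    simp only [List.mem_map] at hb
    obtain ⟨β, hβ, rfl⟩ := hb
    exact bumpValid_code (h.2 _ β hβ)

lemma isPeriodicTerm_code (T : Term) :
    isPeriodicTerm T.code = T.time.all fun p => p.1 := by
  simp [isPeriodicTerm, termTimeList, Term.code, List.all_map, Function.comp_def]

/-- Product of terms. -/
def Term.mul (A B : Term) : Term where
  q := A.q * B.q
  nu := A.nu + B.nu
  kap := A.kap + B.kap
  time := A.time ++ B.time
  sp i := A.sp i ++ B.sp i

lemma Term.val_mul (ν : ℝ) (A B : Term) (t : ℝ) (x : Fin 3 → ℝ) :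
    (A.mul B).val ν t x = A.val ν t x * B.val ν t x := by
  simp only [Term.val, Term.mul, Term.theta, sval, List.map_append, List.prod_append, pow_add,
    zpow_add₀ kappa_ne, Rat.cast_mul]
  ring

/-- Product of lists. -/
def mulL (A B : List Term) : List Term := A.flatMap fun a => B.map fun b => a.mul b

lemma evalL_nil (ν t : ℝ) (x : Fin 3 → ℝ) : evalL ν [] t x = 0 := rfl

lemma evalL_cons (ν : ℝ) (T : Term) (L : List Term) (t : ℝ) (x : Fin 3 → ℝ) :
    evalL ν (T :: L) t x = T.val ν t x + evalL ν L t x := by simp [evalL]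

lemma evalL_append (ν : ℝ) (A B : List Term) (t : ℝ) (x : Fin 3 → ℝ) :
    evalL ν (A ++ B) t x = evalL ν A t x + evalL ν B t x := by simp [evalL]

lemma evalL_flatMap {ι : Type} (ν : ℝ) (l : List ι) (f : ι → List Term) (t : ℝ)
    (x : Fin 3 → ℝ) :
    evalL ν (l.flatMap f) t x = (l.map fun i => evalL ν (f i) t x).sum := by
  induction l with
  | nil => rfl
  | cons a l ih => simp [evalL_append, ih]

lemma evalL_mulL (ν : ℝ) (A B : List Term) (t : ℝ) (x : Fin 3 → ℝ) :
    evalL ν (mulL A B) t x = evalL ν A t x * evalL ν B t x := by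
  induction A with
  | nil => simp [mulL, evalL]
  | cons a A ih =>
    rw [mulL, List.flatMap_cons, evalL_append, ← mulL, ih, evalL_cons, add_mul]
    congr 1
    simp [evalL, Function.comp_def, Term.val_mul, List.sum_map_mul_left]

/-- Scalar multiple `c ν^n`. -/
def Term.scale (c : ℚ) (n : ℕ) (T : Term) : Term := { T with q := c * T.q, nu := n + T.nu }

/-- Scalar multiple of a list. -/
def scaleL (c : ℚ) (n : ℕ) (L : List Term) : List Term := L.map (Term.scale c n)

lemma evalL_scaleL (ν : ℝ) (c : ℚ) (n : ℕ) (L : List Term) (t : ℝ) (x : Fin 3 → ℝ) :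
    evalL ν (scaleL c n L) t x = (c : ℝ) * ν ^ n * evalL ν L t x := by
  induction L with
  | nil => simp [scaleL, evalL]
  | cons T L ih =>
    rw [scaleL, List.map_cons, evalL_cons, ← scaleL, ih, evalL_cons]
    simp only [Term.val, Term.scale, Term.theta, pow_add, Rat.cast_mul]
    ring

/-- Derivative of a time factor. -/
def tdb (p : Bool × Bump) : List (ℚ × (Bool × Bump)) := p.2.d.map fun r => (r.1, (p.1, r.2))

/-- Time derivative. -/
def Term.dt (T : Term) : List Term :=
  (derList tdb T.time).map fun p => { T with q := p.1 * T.q, time := p.2 }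

/-- Space derivative. -/
def Term.dx (k : Fin 3) (T : Term) : List Term :=
  (derList Bump.d (T.sp k)).map fun p =>
    { T with q := p.1 * T.q, sp := Function.update T.sp k p.2 }

/-- Time derivative of a list. -/
def dtL (L : List Term) : List Term := L.flatMap Term.dt

/-- Space derivative of a list. -/
def dxL (k : Fin 3) (L : List Term) : List Term := L.flatMap (Term.dx k)

lemma hasDerivAt_tval {p : Bool × Bump} (h : p.2.Ok) (t : ℝ) :
    HasDerivAt (tval p) (((tdb p).map fun r => (r.1 : ℝ) * tval r.2 t).sum) t := by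
  obtain ⟨f, β⟩ := p
  cases f
  · have e : tval (false, β) = β.val := rfl
    rw [e]
    convert! β.hasDerivAt t using 1
    simp [tdb, tval, Function.comp_def]
  · have e : tval (true, β) = β.pval := rfl
    rw [e]
    convert! Bump.hasDerivAt_pval h t using 1
    simp [tdb, tval, Function.comp_def]

lemma Term.hasDerivAt_dt (ν : ℝ) {T : Term} (h : T.Ok) (t : ℝ) (x : Fin 3 → ℝ) :
    HasDerivAt (fun s => T.val ν s x) (evalL ν T.dt t x) t := by
  have h1 := ((hasDerivAt_derList tval tdb t T.time fun p hp => hasDerivAt_tval (h.1 p hp) t).const_mul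
    ((T.q : ℝ) * ν ^ T.nu * kappa ^ T.kap)).mul_const
    (sval (T.sp 0) (x 0) * sval (T.sp 1) (x 1) * sval (T.sp 2) (x 2))
  convert! h1 using 1
  simp only [evalL, Term.dt, List.map_map, Function.comp_def, Term.val, Term.theta,
    ← List.sum_map_mul_left, ← List.sum_map_mul_right, Rat.cast_mul]
  congr 1
  refine List.map_congr_left fun p _ => ?_
  ring

lemma prod3_split (F : Fin 3 → ℝ) (k : Fin 3) :
    F 0 * F 1 * F 2 = F k * ∏ i ∈ Finset.univ.erase k, F i := by
  rw [Finset.mul_prod_erase _ _ (Finset.mem_univ k), Fin.prod_univ_three]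

lemma Term.hasDerivAt_dx (ν : ℝ) {T : Term} (h : T.Ok) (k : Fin 3) (t : ℝ) (x : Fin 3 → ℝ) :
    HasDerivAt (fun s : ℝ => T.val ν t (x + s • Pi.single k 1)) (evalL ν (T.dx k) t x) 0 := by
  have h1 : HasDerivAt (fun s : ℝ => sval (T.sp k) s)
      (((derList Bump.d (T.sp k)).map fun p => (p.1 : ℝ) * sval p.2 (x k)).sum) (x k) :=
    hasDerivAt_derList Bump.pval Bump.d (x k) (T.sp k)
      fun β hβ => Bump.hasDerivAt_pval (h.2 k β hβ) (x k)
  have h1' : HasDerivAt (fun s : ℝ => sval (T.sp k) s)
      (((derList Bump.d (T.sp k)).map fun p => (p.1 : ℝ) * sval p.2 (x k)).sum) (x k + 0) := by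
    rwa [add_zero]
  have h2 := ((h1'.comp_const_add (x k) 0).const_mul ((T.q : ℝ) * ν ^ T.nu * kappa ^ T.kap * T.theta t)).mul_const
    (∏ i ∈ Finset.univ.erase k, sval (T.sp i) (x i))
  convert! h2 using 1
  · funext s
    set y : Fin 3 → ℝ := x + s • Pi.single k 1 with hy
    have hk : y k = x k + s := by simp [hy]
    have ho : ∀ i ∈ Finset.univ.erase k, sval (T.sp i) (y i) = sval (T.sp i) (x i) := by
      intro i hi
      simp [hy, Finset.ne_of_mem_erase hi]
    rw [Term.val, prod3_split (fun i => sval (T.sp i) (y i)) k, hk, Finset.prod_congr rfl ho]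
    ring
  · simp only [evalL, Term.dx, List.map_map, Function.comp_def, ← List.sum_map_mul_left,
      ← List.sum_map_mul_right]
    congr 1
    refine List.map_congr_left fun p _ => ?_
    rw [Term.val, prod3_split (fun i => sval (Function.update T.sp k p.2 i) (x i)) k]
    rw [Function.update_self, Finset.prod_congr rfl (fun i hi => by
      rw [Function.update_of_ne (Finset.ne_of_mem_erase hi)])]
    simp only [Term.theta, Rat.cast_mul]
    ring

lemma evalL_hasDerivAt_dt (ν : ℝ) {L : List Term} (h : OkL L) (t : ℝ) (x : Fin 3 → ℝ) :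
    HasDerivAt (fun s => evalL ν L s x) (evalL ν (dtL L) t x) t := by
  induction L with
  | nil => simpa [evalL, dtL] using hasDerivAt_const t (0:ℝ)
  | cons T L ih =>
    simp only [evalL_cons, dtL, List.flatMap_cons, evalL_append]
    exact (Term.hasDerivAt_dt ν (h T List.mem_cons_self) t x).fun_add
      (ih fun U hU => h U (List.mem_cons_of_mem _ hU))

lemma evalL_hasDerivAt_dx (ν : ℝ) {L : List Term} (h : OkL L) (k : Fin 3) (t : ℝ)
    (x : Fin 3 → ℝ) :
    HasDerivAt (fun s : ℝ => evalL ν L t (x + s • Pi.single k 1)) (evalL ν (dxL k L) t x) 0 := by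
  induction L with
  | nil => simpa [evalL, dxL] using hasDerivAt_const (0:ℝ) (0:ℝ)
  | cons T L ih =>
    simp only [evalL_cons, dxL, List.flatMap_cons, evalL_append]
    exact (Term.hasDerivAt_dx ν (h T List.mem_cons_self) k t x).fun_add
      (ih fun U hU => h U (List.mem_cons_of_mem _ hU))

lemma OkL.dt {L : List Term} (h : OkL L) : OkL (dtL L) := by
  intro T hT
  simp only [dtL, List.mem_flatMap, Term.dt, List.mem_map] at hT
  obtain ⟨U, hU, p, hp, rfl⟩ := hT
  refine ⟨derList_forall (P := fun b : Bool × Bump => b.2.Ok) ?_ _ (h U hU).1 p hp, (h U hU).2⟩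
  intro b hb r hr
  simp only [tdb, List.mem_map] at hr
  obtain ⟨s, hs, rfl⟩ := hr
  exact Bump.d_ok hb s hs

lemma OkL.dx {L : List Term} (h : OkL L) (k : Fin 3) : OkL (dxL k L) := by
  intro T hT
  simp only [dxL, List.mem_flatMap, Term.dx, List.mem_map] at hT
  obtain ⟨U, hU, p, hp, rfl⟩ := hT
  refine ⟨(h U hU).1, fun i => ?_⟩
  rcases eq_or_ne i k with rfl | hi
  · show ∀ β ∈ Function.update U.sp i p.2 i, Bump.Ok β
    rw [Function.update_self]
    exact derList_forall (fun b hb => Bump.d_ok hb) _ ((h U hU).2 i) p hp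
  · show ∀ β ∈ Function.update U.sp k p.2 i, Bump.Ok β
    rw [Function.update_of_ne hi]
    exact (h U hU).2 i

lemma PerL.dt {L : List Term} (h : PerL L) : PerL (dtL L) := by
  intro T hT
  simp only [dtL, List.mem_flatMap, Term.dt, List.mem_map] at hT
  obtain ⟨U, hU, p, hp, rfl⟩ := hT
  refine derList_forall (P := fun b : Bool × Bump => b.1 = true) ?_ _ (h U hU) p hp
  intro b hb r hr
  simp only [tdb, List.mem_map] at hr
  obtain ⟨s, hs, rfl⟩ := hr
  exact hb

lemma PerL.dx {L : List Term} (h : PerL L) (k : Fin 3) : PerL (dxL k L) := by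
  intro T hT
  simp only [dxL, List.mem_flatMap, Term.dx, List.mem_map] at hT
  obtain ⟨U, hU, p, hp, rfl⟩ := hT
  exact h U hU

lemma OkL.append {A B : List Term} (hA : OkL A) (hB : OkL B) : OkL (A ++ B) :=
  fun T hT => (List.mem_append.1 hT).elim (hA T) (hB T)

lemma PerL.append {A B : List Term} (hA : PerL A) (hB : PerL B) : PerL (A ++ B) :=
  fun T hT => (List.mem_append.1 hT).elim (hA T) (hB T)

lemma OkL.scale {L : List Term} (h : OkL L) (c : ℚ) (n : ℕ) : OkL (scaleL c n L) := by
  intro T hT
  simp only [scaleL, List.mem_map] at hT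
  obtain ⟨U, hU, rfl⟩ := hT
  exact h U hU

lemma PerL.scale {L : List Term} (h : PerL L) (c : ℚ) (n : ℕ) : PerL (scaleL c n L) := by
  intro T hT
  simp only [scaleL, List.mem_map] at hT
  obtain ⟨U, hU, rfl⟩ := hT
  exact h U hU

lemma OkL.mul {A B : List Term} (hA : OkL A) (hB : OkL B) : OkL (mulL A B) := by
  intro T hT
  simp only [mulL, List.mem_flatMap, List.mem_map] at hT
  obtain ⟨a, ha, b, hb, rfl⟩ := hT
  exact ⟨fun p hp => (List.mem_append.1 hp).elim ((hA a ha).1 p) ((hB b hb).1 p),
    fun i β hβ => (List.mem_append.1 hβ).elim ((hA a ha).2 i β) ((hB b hb).2 i β)⟩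

lemma PerL.mul {A B : List Term} (hA : PerL A) (hB : PerL B) : PerL (mulL A B) := by
  intro T hT
  simp only [mulL, List.mem_flatMap, List.mem_map] at hT
  obtain ⟨a, ha, b, hb, rfl⟩ := hT
  exact fun p hp => (List.mem_append.1 hp).elim (hA a ha p) (hB b hb p)

lemma evalL_periodic (ν : ℝ) (L : List Term) (t : ℝ) : SpatiallyPeriodic (evalL ν L t) := by
  intro x k
  simp only [evalL]
  congr 1
  refine List.map_congr_left fun T _ => ?_
  have key : ∀ i : Fin 3, sval (T.sp i) ((x + Pi.single k (1:ℝ) : Fin 3 → ℝ) i) = sval (T.sp i) (x i) := by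
    intro i
    rcases eq_or_ne i k with rfl | hi
    · simp only [sval, Pi.add_apply, Pi.single_eq_same, Bump.pval, periodize_add_one]
    · simp [hi]
  simp only [Term.val, key]

lemma contDiff_sval {l : List Bump} (h : ∀ β ∈ l, Bump.Ok β) : ContDiff ℝ ∞ (sval l) := by
  induction l with
  | nil => exact contDiff_const (c := (1:ℝ))
  | cons β l ih =>
    exact (Bump.contDiff_pval (h β List.mem_cons_self)).mul
      (ih fun c hc => h c (List.mem_cons_of_mem _ hc))

lemma contDiff_tlist {l : List (Bool × Bump)} (h : ∀ p ∈ l, p.2.Ok) :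
    ContDiff ℝ ∞ (fun t => (l.map fun p => tval p t).prod) := by
  induction l with
  | nil => exact contDiff_const (c := (1:ℝ))
  | cons p l ih =>
    obtain ⟨f, β⟩ := p
    have hb : ContDiff ℝ ∞ (tval (f, β)) := by
      cases f
      · exact β.contDiff
      · exact Bump.contDiff_pval (h (true, β) List.mem_cons_self)
    exact hb.mul (ih fun c hc => h c (List.mem_cons_of_mem _ hc))

lemma contDiff_evalL (ν : ℝ) {L : List Term} (h : OkL L) :
    ContDiff ℝ ∞ (fun z : ℝ × (Fin 3 → ℝ) => evalL ν L z.1 z.2) := by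
  induction L with
  | nil => exact contDiff_const (c := (0:ℝ))
  | cons T L ih =>
    have hT := h T List.mem_cons_self
    have hx : ∀ i, ContDiff ℝ ∞ fun z : ℝ × (Fin 3 → ℝ) => sval (T.sp i) (z.2 i) := fun i =>
      (contDiff_sval (hT.2 i)).comp ((contDiff_apply ℝ ℝ i).comp contDiff_snd)
    simp only [evalL_cons]
    exact ((contDiff_const.mul ((contDiff_tlist hT.1).comp contDiff_fst)).mul
      (((hx 0).mul (hx 1)).mul (hx 2))).add (ih fun U hU => h U (List.mem_cons_of_mem _ hU))

/-- The force that makes `(U, p = 0)` a solution: `∂t U + (U·∇)U - ν ΔU`. -/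
def nsList (U : Fin 3 → List Term) (i : Fin 3) : List Term :=
  dtL (U i) ++ (List.finRange 3).flatMap (fun k => mulL (U k) (dxL k (U i))) ++
    scaleL (-1) 1 ((List.finRange 3).flatMap fun k => dxL k (dxL k (U i)))

lemma evalL_nsList (ν : ℝ) (U : Fin 3 → List Term) (i : Fin 3) (t : ℝ) (x : Fin 3 → ℝ) :
    evalL ν (nsList U i) t x = evalL ν (dtL (U i)) t x
      + ∑ k, evalL ν (U k) t x * evalL ν (dxL k (U i)) t x
      - ν * ∑ k, evalL ν (dxL k (dxL k (U i))) t x := by
  simp only [nsList, evalL_append, evalL_flatMap, evalL_scaleL, evalL_mulL, Fin.sum_univ_def,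
    Rat.cast_neg, Rat.cast_one, pow_one]
  ring

lemma OkL.flatMap {ι : Type} {l : List ι} {f : ι → List Term} (h : ∀ i ∈ l, OkL (f i)) :
    OkL (l.flatMap f) := by
  intro T hT
  obtain ⟨i, hi, hT⟩ := List.mem_flatMap.1 hT
  exact h i hi T hT

lemma PerL.flatMap {ι : Type} {l : List ι} {f : ι → List Term} (h : ∀ i ∈ l, PerL (f i)) :
    PerL (l.flatMap f) := by
  intro T hT
  obtain ⟨i, hi, hT⟩ := List.mem_flatMap.1 hT
  exact h i hi T hT

lemma OkL.ns {U : Fin 3 → List Term} (h : ∀ i, OkL (U i)) (i : Fin 3) : OkL (nsList U i) :=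
  ((h i).dt.append (OkL.flatMap fun k _ => (h k).mul ((h i).dx k))).append
    ((OkL.flatMap fun k _ => ((h i).dx k).dx k).scale _ _)

lemma PerL.ns {U : Fin 3 → List Term} (h : ∀ i, PerL (U i)) (i : Fin 3) : PerL (nsList U i) :=
  ((h i).dt.append (PerL.flatMap fun k _ => (h k).mul ((h i).dx k))).append
    ((PerL.flatMap fun k _ => ((h i).dx k).dx k).scale _ _)

/-- The Navier-Stokes operator only depends on the values near a given time. -/
lemma nsList_congr (ν : ℝ) {A B : Fin 3 → List Term} (hA : ∀ i, OkL (A i)) (hB : ∀ i, OkL (B i))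
    {t : ℝ} (h : ∀ᶠ s in 𝓝 t, ∀ i x, evalL ν (A i) s x = evalL ν (B i) s x) (i : Fin 3)
    (x : Fin 3 → ℝ) : evalL ν (nsList A i) t x = evalL ν (nsList B i) t x := by
  have ht := h.self_of_nhds
  have e1 : evalL ν (dtL (A i)) t x = evalL ν (dtL (B i)) t x :=
    (evalL_hasDerivAt_dt ν (hA i) t x).unique
      ((evalL_hasDerivAt_dt ν (hB i) t x).congr_of_eventuallyEq (h.mono fun s hs => hs i x))
  have e2 : ∀ k y, evalL ν (dxL k (A i)) t y = evalL ν (dxL k (B i)) t y := by
    intro k y
    have h1 := evalL_hasDerivAt_dx ν (hA i) k t y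
    simp only [ht i] at h1
    exact h1.unique (evalL_hasDerivAt_dx ν (hB i) k t y)
  have e3 : ∀ k, evalL ν (dxL k (dxL k (A i))) t x = evalL ν (dxL k (dxL k (B i))) t x := by
    intro k
    have h1 := evalL_hasDerivAt_dx ν ((hA i).dx k) k t x
    simp only [e2 k] at h1
    exact h1.unique (evalL_hasDerivAt_dx ν ((hB i).dx k) k t x)
  simp only [evalL_nsList, e1, e2, e3, ht]

lemma dxL_eq_nil {k : Fin 3} {L : List Term} (h : ∀ T ∈ L, T.sp k = []) : dxL k L = [] := by
  simp only [dxL, List.flatMap_eq_nil_iff]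
  intro T hT
  simp [Term.dx, h T hT, derList]

/-- A term list gives a classical solution with zero pressure of the system with force its
Navier-Stokes list, provided it starts at rest and is divergence free. -/
lemma isClassical_evalL (ν : ℝ) {U : Fin 3 → List Term} (hU : ∀ i, OkL (U i))
    (hdiv : ∀ k, ∀ T ∈ U k, T.sp k = []) (h0 : ∀ x i, evalL ν (U i) 0 x = 0)
    {f : ℝ → (Fin 3 → ℝ) → Fin 3 → ℝ}
    (hf : ∀ t, 0 ≤ t → ∀ x i, f t x i = evalL ν (nsList U i) t x) (T : ℝ) :
    IsClassical ν f T (fun t x i => evalL ν (U i) t x) (fun _ _ => 0) := by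
  have hc : ∀ {L : List Term}, OkL L → ContinuousOn
      (fun z : ℝ × (Fin 3 → ℝ) => evalL ν L z.1 z.2) (Icc 0 T ×ˢ univ) :=
    fun h => (contDiff_evalL ν h).continuous.continuousOn
  refine ⟨fun t _ x k => funext fun i => evalL_periodic ν (U i) t x k, fun t _ x k => rfl,
    fun x => funext fun i => h0 x i, continuousOn_pi.2 fun i => hc (hU i), continuousOn_const,
    fun t _ => by simp, ?_⟩
  refine ⟨fun t x i => evalL ν (dtL (U i)) t x, fun k t x i => evalL ν (dxL k (U i)) t x,
    fun k l t x i => evalL ν (dxL l (dxL k (U i))) t x, fun _ _ _ => 0,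
    continuousOn_pi.2 fun i => hc (hU i).dt,
    fun k => continuousOn_pi.2 fun i => hc ((hU i).dx k),
    fun k l => continuousOn_pi.2 fun i => hc (((hU i).dx k).dx l),
    fun k => continuousOn_const, ?_⟩
  intro t ht x
  refine ⟨hasDerivWithinAt_pi.2 fun i => (evalL_hasDerivAt_dt ν (hU i) t x).hasDerivWithinAt,
    fun k => hasDerivAt_pi.2 fun i => evalL_hasDerivAt_dx ν (hU i) k t x,
    fun k l => hasDerivAt_pi.2 fun i => evalL_hasDerivAt_dx ν ((hU i).dx k) l t x,
    fun k => hasDerivAt_const _ _, ?_, ?_⟩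
  · simp [dxL_eq_nil (hdiv _), evalL]
  · intro i
    simp only [hf t ht.1, evalL_nsList]
    ring

end Vale.Agent.P113
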